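import Vale.Agent.P154.MonoTree

/-!
# Upper channels for the tree-averaged observation

For nonnegative sublinear functionals the mean over Poisson trees is bounded by the value at one
finite channel. One level costs an edge, a chain of products and a truncation of the offspring law.
-/

namespace Vale.Agent.P154.Q3

open scoped BigOperators

variable {Ω Ω' Ω'' : Type} [Fintype Ω] [Fintype Ω'] [Fintype Ω'']
  {f : (Fin 3 → ℝ) → ℝ} {L : Ω → Fin 3 → ℝ} {M : Ω' → Fin 3 → ℝ} {lam μ d d' : ℝ}

/-- Sublinear and nonnegative on nonnegative vectors. -/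
structure Posi (f : (Fin 3 → ℝ) → ℝ) : Prop extends Sublin f where
  nonneg : ∀ v : Fin 3 → ℝ, (∀ i, 0 ≤ v i) → 0 ≤ f v

theorem Posi.comp_push (hf : Posi f) {s : ℝ} (h0 : -1 / 2 ≤ s) (h1 : s ≤ 1) :
    Posi fun v => f (push s v) :=
  ⟨hf.toSublin.comp_push h0 h1, fun _ hv => hf.nonneg _ (push_nonneg h0 h1 hv)⟩

theorem Posi.comp_mul (hf : Posi f) (hM : ∀ η i, 0 ≤ M η i) :
    Posi fun v => ∑ η, f (fun i => v i * M η i) :=
  ⟨hf.toSublin.comp_mul hM,
    fun _ hv => Finset.sum_nonneg fun η _ => hf.nonneg _ fun i => mul_nonneg (hv i) (hM η i)⟩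

theorem Posi.fval_nonneg (hf : Posi f) (hL : ∀ η i, 0 ≤ L η i) : 0 ≤ fval f L :=
  Finset.sum_nonneg fun η _ => hf.nonneg _ (hL η)

/-- `M` dominates `L`; surplus mass in `M` is allowed. -/
def DomP (L : Ω → Fin 3 → ℝ) (M : Ω' → Fin 3 → ℝ) : Prop :=
  ∀ f, Posi f → fval f L ≤ fval f M

theorem Dom.domP (h : Dom L M) : DomP L M := fun f hf => h f hf.toSublin

theorem DomP.trans {N : Ω'' → Fin 3 → ℝ} (h₁ : DomP L M) (h₂ : DomP M N) : DomP L N :=
  fun f hf => (h₁ f hf).trans (h₂ f hf)

theorem DomP.edge (h : DomP L M) {s : ℝ} (h0 : -1 / 2 ≤ s) (h1 : s ≤ 1) :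
    DomP (Q3.edge s L) (Q3.edge s M) := fun f hf => h _ (hf.comp_push h0 h1)

theorem DomP.tens_left (h : DomP L M) {N : Ω'' → Fin 3 → ℝ} (hN : ∀ η i, 0 ≤ N η i) :
    DomP (Q3.tens L N) (Q3.tens M N) := fun f hf => by
  rw [fval_tens, fval_tens]; exact h _ (hf.comp_mul hN)

theorem DomP.tens {Ω₃ : Type} [Fintype Ω₃] {L' : Ω'' → Fin 3 → ℝ} {M' : Ω₃ → Fin 3 → ℝ}
    (h : DomP L M) (h' : DomP L' M') (hL' : ∀ η i, 0 ≤ L' η i) (hM : ∀ η i, 0 ≤ M η i) :
    DomP (Q3.tens L L') (Q3.tens M M') := fun f hf => by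
  refine (h.tens_left hL' f hf).trans ?_
  rw [fval_tens_comm f M L', fval_tens_comm f M M']
  exact h'.tens_left hM f hf

/-- The channel showing the state. -/
def perfect : Fin 3 → Fin 3 → ℝ := fun η i => if η = i then 1 else 0

/-- The channel showing nothing. -/
def blind : Unit → Fin 3 → ℝ := fun _ _ => 1

theorem dom_perfect (hL : IsStoch L) : Dom L perfect := fun f hf => by
  calc fval f L ≤ ∑ η, ∑ i, L η i * f (perfect i) := by
        refine Finset.sum_le_sum fun η _ => ?_
        have e : L η = ∑ i, L η i • perfect i := by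
          funext j; simp [Finset.sum_apply, perfect]
        refine (le_of_eq (congrArg f e)).trans ((hf.sum_le _ _ fun i j => ?_).trans (le_of_eq ?_))
        · exact mul_nonneg (hL.1 η i) (by simp only [perfect]; split <;> norm_num)
        · exact Finset.sum_congr rfl fun i _ => hf.smul _ _ (hL.1 η i)
            fun j => by simp only [perfect]; split <;> norm_num
    _ = fval f perfect := by
        rw [Finset.sum_comm]
        exact Finset.sum_congr rfl fun i _ => by rw [← Finset.sum_mul, hL.2, one_mul]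

/-- `L` dominates the observation averaged over Poisson trees of depth `n`. -/
def GWBound (d lam : ℝ) (n : ℕ) (L : Ω → Fin 3 → ℝ) : Prop :=
  ∀ f, Posi f → gwAvg d lam n f ≤ fval f L

theorem GWBound.trans {n : ℕ} (h : GWBound d lam n L) (h' : DomP L M) : GWBound d lam n M :=
  fun f hf => (h f hf).trans (h' f hf)

theorem gwBound_perfect (hd : 0 ≤ d) (h0 : -1 / 2 ≤ lam) (h1 : lam ≤ 1) (n : ℕ) :
    GWBound d lam n perfect := fun f hf =>
  ((le_abs_self _).trans <| abs_tsum_weighted_le (gwWeight_nonneg hd n) (hasSum_gw hd n) fun t => by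
    rw [abs_of_nonneg (hf.fval_nonneg (isStoch_lik h0 h1 n t).1)]
    exact dom_perfect (isStoch_lik h0 h1 n t) f hf.toSublin)

/-- A bound at `(d', μ)` holds on the box below it. -/
theorem GWBound.of_corner {n : ℕ} (h : GWBound d' μ n L) (hd : 0 ≤ d) (hdd : d ≤ d')
    (hμ : -1 / 2 ≤ μ) (hμ0 : μ < 0) (h0 : μ ≤ lam) (h1 : lam ≤ 0) : GWBound d lam n L :=
  fun f hf => ((gwAvg_le_of_le hd hμ hμ0 h0 h1 hf.toSublin n).trans
    (gwAvg_mono hd hdd hμ (by linarith) n hf.toSublin)).trans (h f hf)

section Chain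

variable {Ξ : Type} [Fintype Ξ] {E : Ξ → Fin 3 → ℝ} {α : ℕ → Type} [∀ k, Fintype (α k)]
  {P : ∀ k, α k → Fin 3 → ℝ} {K n : ℕ}

theorem fval_prodL_zero {β : Fin 0 → Type} [∀ c, Fintype (β c)] (C : ∀ c, β c → Fin 3 → ℝ) :
    fval f (prodL C) = fval f blind :=
  fval_congr (Equiv.ofUnique _ Unit) fun _ => funext fun _ => by simp [prodL, blind]

theorem fval_prodL_succ {k : ℕ} {β : Fin (k + 1) → Type} [∀ c, Fintype (β c)]
    (C : ∀ c, β c → Fin 3 → ℝ) :
    fval f (prodL C) = fval f (tens (C 0) (prodL fun c : Fin k => C c.succ)) :=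
  fval_congr (Fin.consEquiv β).symm fun η =>
    funext fun i => by simp [prodL, Q3.tens, Fin.prod_univ_succ, Fin.consEquiv, Fin.tail]

/-- The mean over `k` independent children, bounded by the `k`-th channel of the chain. -/
theorem piAvg_le_chain (hd : 0 ≤ d) (h0 : -1 / 2 ≤ lam) (h1 : lam ≤ 1)
    (hL : GWBound d lam n L) (hE : DomP (edge lam L) E) (hE0 : ∀ η i, 0 ≤ E η i)
    (hz : DomP blind (P 0)) (hs : ∀ k, k + 1 < K → DomP (tens E (P k)) (P (k + 1))) :
    ∀ {k : ℕ} {f : (Fin 3 → ℝ) → ℝ}, k < K → Posi f →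
      piAvg (gwWeight d n) k (fun g => fval f (prodL fun c => edge lam (lik lam n (g c)))) ≤
        fval f (P k) := by
  intro k
  induction k with
  | zero =>
    intro f _ hf
    simp only [piAvg, Finset.univ_eq_empty, Finset.prod_empty, one_mul, fval_prodL_zero,
      tsum_fintype, Finset.sum_const, Finset.card_univ, Fintype.card_unique, one_smul]
    exact hz f hf
  | succ k ih =>
    intro f hk hf
    set w := gwWeight d n
    have hw : ∀ t, 0 ≤ w t := gwWeight_nonneg hd n
    have hs' : HasSum w 1 := hasSum_gw hd n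
    have sC : ∀ t, IsStoch (edge lam (lik lam n t)) := fun t => (isStoch_lik h0 h1 n t).edge h0 h1
    have sP : ∀ g : Fin k → RTree n, IsStoch (prodL fun c => edge lam (lik lam n (g c))) :=
      fun g => isStoch_prodL fun c => sC _
    set f' : (Fin 3 → ℝ) → ℝ := fun v => ∑ η, f (fun i => v i * E η i)
    have hf' : Posi f' := hf.comp_mul hE0
    rw [(piAvg_succ hw hs' (B := fbound f) fun g =>
      abs_fval_le hf.toSublin (isStoch_prodL fun c => sC (g c))).2]
    have hW := hasSum_prodWeight hw hs' k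
    have hW0 : ∀ g : Fin k → RTree n, 0 ≤ ∏ c, w (g c) :=
      fun g => Finset.prod_nonneg fun c _ => hw _
    calc ∑' g : Fin k → RTree n, (∏ c, w (g c)) * ∑' t, w t *
          fval f (prodL fun c => edge lam (lik lam n ((Fin.cons t g : Fin (k + 1) → RTree n) c)))
        ≤ ∑' g : Fin k → RTree n, (∏ c, w (g c)) *
            fval f' (prodL fun c => edge lam (lik lam n (g c))) := by
          refine Summable.tsum_le_tsum (fun g => mul_le_mul_of_nonneg_left ?_ (hW0 g))
            (summable_weighted hW0 hW.summable fun g => abs_tsum_weighted_le hw hs' fun t =>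
              abs_fval_le hf.toSublin (isStoch_prodL fun c => sC _))
            (summable_weighted hW0 hW.summable fun g => abs_fval_le hf'.toSublin (sP g))
          set f₂ : (Fin 3 → ℝ) → ℝ := fun v => ∑ η, f (fun i => v i *
            prodL (fun c => edge lam (lik lam n (g c))) η i)
          have hf₂ : Posi f₂ := hf.comp_mul (sP g).1
          have e : ∀ t, fval f (prodL fun c =>
              edge lam (lik lam n ((Fin.cons t g : Fin (k + 1) → RTree n) c))) =
              fval (fun v => f₂ (push lam v)) (lik lam n t) := fun t =>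
            nodeVal_eq f _ 0 g t (fun j => by simp) (Fin.cons_zero _ _)
          simp only [e]
          refine (hL _ (hf₂.comp_push h0 h1)).trans ((hE f₂ hf₂).trans (le_of_eq ?_))
          rw [← fval_tens, fval_tens_comm, fval_tens]
      _ ≤ fval f' (P k) := ih (Nat.lt_of_succ_lt hk) hf'
      _ ≤ fval f (P (k + 1)) := by
          rw [← fval_tens f (P k) E, fval_tens_comm]
          exact hs k hk f hf

/-- One level of the recursion on Poisson trees, offspring numbers `≥ K` seeing the state. -/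
theorem gwAvg_step (hd : 0 ≤ d) (h0 : -1 / 2 ≤ lam) (h1 : lam ≤ 1)
    (hL : GWBound d lam n L) (hE : DomP (edge lam L) E) (hE0 : ∀ η i, 0 ≤ E η i)
    (hP0 : ∀ k η i, 0 ≤ P k η i) (hz : DomP blind (P 0))
    (hs : ∀ k, k + 1 < K → DomP (tens E (P k)) (P (k + 1)))
    {c : ℕ → ℝ} {τ : ℝ} (hc : ∀ k < K, poissonWeight d k ≤ c k)
    (hτ : 1 ≤ ∑ k ∈ Finset.range K, poissonWeight d k + τ) (hf : Posi f) :
    gwAvg d lam (n + 1) f ≤ (∑ k ∈ Finset.range K, c k * fval f (P k)) + τ * fval f perfect := by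
  set w := gwWeight d n
  set Φ := fun k => piAvg w k fun g => fval f (prodL fun c => edge lam (lik lam n (g c)))
  have hw : ∀ t, 0 ≤ w t := gwWeight_nonneg hd n
  have hs' : HasSum w 1 := hasSum_gw hd n
  have hp : ∀ k, 0 ≤ poissonWeight d k := poissonWeight_nonneg hd
  have hΦ : ∀ k, |Φ k| ≤ fval f perfect := fun k => abs_piAvg_le hw hs' fun g => by
    have sS : IsStoch (prodL fun c => edge lam (lik lam n (g c))) :=
      isStoch_prodL fun c => (isStoch_lik h0 h1 n _).edge h0 h1
    rw [abs_of_nonneg (hf.fval_nonneg sS.1)]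
    exact dom_perfect sS f hf.toSublin
  have sΦ : Summable fun k => poissonWeight d k * Φ k :=
    summable_weighted hp (hasSum_poisson d).summable hΦ
  have hperf : 0 ≤ fval f perfect := (abs_nonneg (Φ 0)).trans (hΦ 0)
  rw [gwAvg_succ hd h0 h1 hf.toSublin, ← sΦ.sum_add_tsum_nat_add K]
  refine add_le_add (Finset.sum_le_sum fun k hk => ?_) ?_
  · exact (mul_le_mul_of_nonneg_left
      (piAvg_le_chain hd h0 h1 hL hE hE0 hz hs (Finset.mem_range.1 hk) hf) (hp k)).trans
      (mul_le_mul_of_nonneg_right (hc k (Finset.mem_range.1 hk)) (hf.fval_nonneg (hP0 k)))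
  · have ht : Summable fun i => poissonWeight d (i + K) :=
      (hasSum_poisson d).summable.comp_injective (i := fun i => i + K) (add_left_injective K)
    have htail : ∑' i, poissonWeight d (i + K) ≤ τ := by
      linarith [(hasSum_poisson d).summable.sum_add_tsum_nat_add K, (hasSum_poisson d).tsum_eq]
    calc ∑' i, poissonWeight d (i + K) * Φ (i + K)
        ≤ ∑' i, poissonWeight d (i + K) * fval f perfect :=
          (summable_weighted (fun i => hp (i + K)) ht fun i => hΦ (i + K)).tsum_le_tsum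
            (fun i => mul_le_mul_of_nonneg_left (abs_le.1 (hΦ (i + K))).2 (hp _)) (ht.mul_right _)
      _ ≤ τ * fval f perfect := by
          rw [tsum_mul_right]; exact mul_le_mul_of_nonneg_right htail hperf

/-- The recursion as a single channel. -/
theorem GWBound.step (hd : 0 ≤ d) (h0 : -1 / 2 ≤ lam) (h1 : lam ≤ 1)
    (hL : GWBound d lam n L) (hE : DomP (edge lam L) E) (hE0 : ∀ η i, 0 ≤ E η i)
    (hP0 : ∀ k η i, 0 ≤ P k η i) (hz : DomP blind (P 0))
    (hs : ∀ k, k + 1 < K → DomP (tens E (P k)) (P (k + 1)))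
    {c : ℕ → ℝ} {τ : ℝ} (hc : ∀ k < K, poissonWeight d k ≤ c k)
    (hτ : 1 ≤ ∑ k ∈ Finset.range K, poissonWeight d k + τ)
    (hM : ∀ f, Posi f →
      (∑ k ∈ Finset.range K, c k * fval f (P k)) + τ * fval f perfect ≤ fval f M) :
    GWBound d lam (n + 1) M :=
  fun f hf => (gwAvg_step hd h0 h1 hL hE hE0 hP0 hz hs hc hτ hf).trans (hM f hf)

/-- One level of the recursion on regular trees. -/
theorem domP_regTree_step {b : ℕ} (h0 : -1 / 2 ≤ lam) (h1 : lam ≤ 1)
    (hL : DomP (lik lam n (regTree b n)) L) (hE : DomP (edge lam L) E) (hE0 : ∀ η i, 0 ≤ E η i)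
    (hz : DomP blind (P 0)) (hs : ∀ k, k < b → DomP (tens E (P k)) (P (k + 1))) :
    DomP (lik lam (n + 1) (regTree b (n + 1))) (P b) := by
  have key : ∀ k, k ≤ b →
      DomP (prodL fun _ : Fin k => edge lam (lik lam n (regTree b n))) (P k) := by
    intro k
    induction k with
    | zero => exact fun _ f hf => by rw [fval_prodL_zero]; exact hz f hf
    | succ k ih =>
      intro hk f hf
      rw [fval_prodL_succ]
      exact ((((hL.edge h0 h1).trans hE).tens (ih (Nat.le_of_succ_le hk))
        (isStoch_prodL fun _ => (isStoch_lik h0 h1 n _).edge h0 h1).1 hE0).trans (hs k hk)) f hf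
  intro f hf
  rw [show fval f (lik lam (n + 1) (regTree b (n + 1))) =
    fval f (prodL fun _ : Fin b => edge lam (lik lam n (regTree b n))) from
      fval_node f fun _ : Fin b => regTree b n]
  exact key b le_rfl f hf

end Chain

/-- A bound at `(b, μ)` holds for every smaller arity and weaker eigenvalue. -/
theorem domP_regTree_corner {a b n : ℕ} (hab : a ≤ b) (hμ : -1 / 2 ≤ μ) (hμ0 : μ < 0)
    (h0 : μ ≤ lam) (h1 : lam ≤ 0) (h : DomP (lik μ n (regTree b n)) L) :
    DomP (lik lam n (regTree a n)) L :=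
  ((dom_lik hμ hμ0 h0 h1 n _).trans (dom_regTree hμ (by linarith) hab n)).domP.trans h

theorem regTree_perfect {b n : ℕ} (h0 : -1 / 2 ≤ lam) (h1 : lam ≤ 1) :
    DomP (lik lam n (regTree b n)) perfect := (dom_perfect (isStoch_lik h0 h1 n _)).domP

/-- The advantage as a functional of the likelihood vector. -/
noncomputable def advF (v : Fin 3 → ℝ) : ℝ :=
  1 / 2 * ∑ i, |v i / 3 - (∑ j, v j / 3) / 3|

theorem posi_advF : Posi advF where
  smul c v hc _ := by
    have e : ∀ i, |(c • v) i / 3 - (∑ j, (c • v) j / 3) / 3| =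
        c * |v i / 3 - (∑ j, v j / 3) / 3| := fun i => by
      rw [← abs_of_nonneg hc, ← abs_mul, abs_of_nonneg hc]
      simp only [Pi.smul_apply, smul_eq_mul, Fin.sum_univ_three]; ring_nf
    simp only [advF, e, ← Finset.mul_sum]; ring
  add u v _ _ := by
    have e : ∀ i, |(u + v) i / 3 - (∑ j, (u + v) j / 3) / 3| ≤
        |u i / 3 - (∑ j, u j / 3) / 3| + |v i / 3 - (∑ j, v j / 3) / 3| := fun i => by
      refine le_trans (le_of_eq ?_) (abs_add_le _ _)
      simp only [Pi.add_apply, Fin.sum_univ_three]; ring_nf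
    have := Finset.sum_le_sum (s := Finset.univ) fun i _ => e i
    rw [Finset.sum_add_distrib] at this
    simp only [advF]; linarith
  nonneg v _ := by unfold advF; positivity

theorem posi_magV : Posi magV where
  smul c v _ _ := by
    rcases eq_or_ne c 0 with rfl | hc
    · simp [magV, mag, nsq]
    · simp only [magV, mag, nsq, Pi.smul_apply, smul_eq_mul]
      field_simp
  add u v := magV_add_le
  nonneg v := magV_nonneg

theorem fval_advF {n : ℕ} (t : RTree n) : fval advF (lik lam n t) = treeAdv lam n t := by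
  simp only [fval, advF, treeAdv, Finset.mul_sum]

theorem fval_magV {n : ℕ} (t : RTree n) : fval magV (lik lam n t) = 3 * treeX lam n t := by
  simp only [fval, treeX, cX, Finset.mul_sum]
  exact Finset.sum_congr rfl fun η _ => by ring

theorem gwAdv_eq_gwAvg (n : ℕ) : gwAdv d lam n = gwAvg d lam n advF :=
  tsum_congr fun t => by rw [fval_advF]

theorem gwX_eq_gwAvg (n : ℕ) : gwX d lam n = gwAvg d lam n magV / 3 := by
  rw [gwX, gwAvg, ← tsum_div_const]
  exact tsum_congr fun t => by rw [fval_magV]; ring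

end Vale.Agent.P154.Q3
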