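import Vale.Agent.P154.Avg

/-!
# Depth monotonicity and limits of the averaged functionals
-/

namespace Vale.Agent.P154.Q3

open scoped BigOperators Topology
open Filter

variable {f : (Fin 3 → ℝ) → ℝ} {d lam : ℝ}

/-- A deeper observation carries less information, on regular trees. -/
theorem dom_regTree_succ (h0 : -1 / 2 ≤ lam) (h1 : lam ≤ 1) (b : ℕ) :
    ∀ n, Dom (lik lam (n + 1) (regTree b (n + 1))) (lik lam n (regTree b n)) := by
  intro n
  induction n with
  | zero =>
    refine (dom_perfect (isStoch_lik h0 h1 1 _)).trans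
      (Dom.of_eq ⟨fun η _ => η, fun g => g (), fun _ => rfl, fun g => rfl⟩ fun η => ?_)
    funext i
    simp only [perfect, lik]
    rfl
  | succ n ih =>
    intro f hf
    have e : ∀ m, fval f (lik lam (m + 1) (regTree b (m + 1))) =
        fval f (prodL fun _ : Fin b => edge lam (lik lam m (regTree b m))) := fun m =>
      fval_node f fun _ : Fin b => regTree b m
    rw [e, e]
    exact dom_prodL (k := b) (L := fun _ => edge lam (lik lam (n + 1) (regTree b (n + 1))))
      (M := fun _ => edge lam (lik lam n (regTree b n)))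
      (fun _ => (isStoch_lik h0 h1 _ _).edge h0 h1) (fun _ => (isStoch_lik h0 h1 n _).edge h0 h1)
      (fun _ => ih.edge h0 h1) f hf

theorem piAvg_node_le (hd : 0 ≤ d) (h0 : -1 / 2 ≤ lam) (h1 : lam ≤ 1) {n : ℕ}
    (ih : ∀ {f : (Fin 3 → ℝ) → ℝ}, Sublin f → gwAvg d lam (n + 1) f ≤ gwAvg d lam n f) :
    ∀ {k : ℕ} {f : (Fin 3 → ℝ) → ℝ}, Sublin f →
      piAvg (gwWeight d (n + 1)) k
          (fun g => fval f (prodL fun c => edge lam (lik lam (n + 1) (g c)))) ≤
        piAvg (gwWeight d n) k (fun g => fval f (prodL fun c => edge lam (lik lam n (g c)))) := by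
  intro k
  induction k with
  | zero =>
    intro f _
    simp [piAvg, fval_prodL_zero]
  | succ k ihk =>
    intro f hf
    set w := gwWeight d n
    set v := gwWeight d (n + 1)
    have hw : ∀ t, 0 ≤ w t := gwWeight_nonneg hd n
    have hv : ∀ t, 0 ≤ v t := gwWeight_nonneg hd (n + 1)
    have hs : HasSum w 1 := hasSum_gw hd n
    have hs' : HasSum v 1 := hasSum_gw hd (n + 1)
    have sC : ∀ m (t : RTree m), IsStoch (edge lam (lik lam m t)) :=
      fun m t => (isStoch_lik h0 h1 m t).edge h0 h1
    have sP : ∀ {j m : ℕ} (g : Fin j → RTree m),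
        IsStoch (prodL fun c => edge lam (lik lam m (g c))) :=
      fun g => isStoch_prodL fun c => sC _ _
    have hW0 : ∀ g : Fin k → RTree (n + 1), 0 ≤ ∏ c, v (g c) :=
      fun g => Finset.prod_nonneg fun c _ => hv _
    have hW := hasSum_prodWeight hv hs' k
    -- the value with one child at level `n` and the others at level `n + 1`
    set G : RTree n → (Fin k → RTree (n + 1)) → ℝ := fun t g => fval f
      (tens (edge lam (lik lam n t)) (prodL fun c => edge lam (lik lam (n + 1) (g c))))
    have hG : ∀ t g, |G t g| ≤ fbound f := fun t g => abs_fval_le hf ((sC n t).tens (sP g))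
    have hv1 := (piAvg_succ hv hs' (B := fbound f) (k := k)
      (F := fun g => fval f (prodL fun c => edge lam (lik lam (n + 1) (g c))))
      fun g => abs_fval_le hf (sP g)).2
    have hw1 := (piAvg_succ hw hs (B := fbound f) (k := k)
      (F := fun g => fval f (prodL fun c => edge lam (lik lam n (g c))))
      fun g => abs_fval_le hf (sP g)).1
    rw [hv1, hw1]
    calc ∑' g : Fin k → RTree (n + 1), (∏ c, v (g c)) * ∑' t, v t * fval f (prodL fun c =>
          edge lam (lik lam (n + 1) ((Fin.cons t g : Fin (k + 1) → RTree (n + 1)) c)))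
        ≤ ∑' g : Fin k → RTree (n + 1), (∏ c, v (g c)) * ∑' t, w t * G t g := by
          refine Summable.tsum_le_tsum (fun g => mul_le_mul_of_nonneg_left ?_ (hW0 g))
            (summable_weighted hW0 hW.summable fun g => abs_tsum_weighted_le hv hs' fun t =>
              abs_fval_le hf (sP _))
            (summable_weighted hW0 hW.summable fun g => abs_tsum_weighted_le hw hs fun t => hG t g)
          set f₂ : (Fin 3 → ℝ) → ℝ := fun u => ∑ η, f (fun i => u i *
            prodL (fun c => edge lam (lik lam (n + 1) (g c))) η i)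
          have e : ∀ t, fval f (prodL fun c =>
              edge lam (lik lam (n + 1) ((Fin.cons t g : Fin (k + 1) → RTree (n + 1)) c))) =
              fval (fun u => f₂ (push lam u)) (lik lam (n + 1) t) := fun t =>
            nodeVal_eq f _ 0 g t (fun j => by simp) (Fin.cons_zero _ _)
          simp only [e]
          refine (ih ((hf.comp_mul (sP g).1).comp_push h0 h1)).trans (le_of_eq ?_)
          exact tsum_congr fun t => by simp only [G, fval_tens]; rfl
      _ = ∑' t, w t * ∑' g : Fin k → RTree (n + 1), (∏ c, v (g c)) * G t g :=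
          (tsum_pair_eq (v := fun g : Fin k → RTree (n + 1) => ∏ c, v (g c))
            hw hs.summable hW0 hW.summable G hG).2.symm
      _ ≤ ∑' t, w t * piAvg w k (fun g => fval f (prodL fun c =>
            edge lam (lik lam n ((Fin.cons t g : Fin (k + 1) → RTree n) c)))) := by
          refine Summable.tsum_le_tsum (fun t => mul_le_mul_of_nonneg_left ?_ (hw t))
            (summable_weighted hw hs.summable fun t => abs_tsum_weighted_le hW0 hW fun g => hG t g)
            (summable_weighted hw hs.summable fun t => abs_piAvg_le hw hs fun g =>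
              abs_fval_le hf (sP _))
          set f₁ : (Fin 3 → ℝ) → ℝ := fun u => ∑ η, f (fun i => u i * edge lam (lik lam n t) η i)
          have e1 : ∀ g, G t g = fval f₁ (prodL fun c => edge lam (lik lam (n + 1) (g c))) :=
            fun g => by simp only [G, f₁]; rw [fval_tens_comm, fval_tens]
          have e2 : ∀ g : Fin k → RTree n, fval f (prodL fun c =>
              edge lam (lik lam n ((Fin.cons t g : Fin (k + 1) → RTree n) c))) =
              fval f₁ (prodL fun c => edge lam (lik lam n (g c))) := fun g => by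
            rw [fval_prodL_succ, fval_tens_comm, fval_tens]
            rfl
          simp only [e1, e2]
          exact ihk (hf.comp_mul (sC n t).1)

/-- A deeper observation carries less information, averaged over Poisson trees. -/
theorem gwAvg_succ_le (hd : 0 ≤ d) (h0 : -1 / 2 ≤ lam) (h1 : lam ≤ 1) :
    ∀ (n : ℕ) {f : (Fin 3 → ℝ) → ℝ}, Sublin f → gwAvg d lam (n + 1) f ≤ gwAvg d lam n f := by
  intro n
  induction n with
  | zero =>
    intro f hf
    have e : gwAvg d lam 0 f = fval f perfect := by
      have key : ∀ t : RTree 0, gwWeight d 0 t * fval f (lik lam 0 t) = fval f perfect := fun t => by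
        simp only [gwWeight, one_mul]
        exact fval_congr ⟨fun g => g (), fun η _ => η, fun g => rfl, fun _ => rfl⟩
          fun η => funext fun i => by simp only [perfect, lik]; rfl
      exact (hasSum_single (f := fun t : RTree 0 => gwWeight d 0 t * fval f (lik lam 0 t))
        (show RTree 0 from ()) fun b hb => absurd rfl hb).tsum_eq.trans (key _)
    rw [e]
    have hw := gwWeight_nonneg hd 1
    calc gwAvg d lam 1 f ≤ ∑' t : RTree 1, gwWeight d 1 t * fval f perfect :=
          (summable_gwAvg hd h0 h1 hf 1).tsum_le_tsum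
            (fun t => mul_le_mul_of_nonneg_left (dom_perfect (isStoch_lik h0 h1 1 t) f hf) (hw t))
            ((hasSum_gw hd 1).mul_right _).summable
      _ = fval f perfect := by rw [tsum_mul_right, (hasSum_gw hd 1).tsum_eq, one_mul]
  | succ n ih =>
    intro f hf
    rw [gwAvg_succ hd h0 h1 hf, gwAvg_succ hd h0 h1 hf]
    have hp := poissonWeight_nonneg hd
    have sS : ∀ {k m : ℕ} (g : Fin k → RTree m),
        |fval f (prodL fun c => edge lam (lik lam m (g c)))| ≤ fbound f := fun g =>
      abs_fval_le hf (isStoch_prodL fun c => (isStoch_lik h0 h1 _ _).edge h0 h1)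
    exact (summable_weighted hp (hasSum_poisson d).summable fun k =>
        abs_piAvg_le (gwWeight_nonneg hd _) (hasSum_gw hd _) fun g => sS g).tsum_le_tsum
      (fun k => mul_le_mul_of_nonneg_left (piAvg_node_le hd h0 h1 ih hf) (hp k))
      (summable_weighted hp (hasSum_poisson d).summable fun k =>
        abs_piAvg_le (gwWeight_nonneg hd _) (hasSum_gw hd _) fun g => sS g)

theorem gwBound_mono_depth {Ω : Type} [Fintype Ω] {L : Ω → Fin 3 → ℝ} (hd : 0 ≤ d)
    (h0 : -1 / 2 ≤ lam) (h1 : lam ≤ 1) {m n : ℕ} (hmn : m ≤ n) (h : GWBound d lam m L) :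
    GWBound d lam n L := fun f hf =>
  (antitone_nat_of_succ_le (f := fun j => gwAvg d lam j f)
    (fun j => gwAvg_succ_le hd h0 h1 j hf.toSublin) hmn).trans (h f hf)

/-- The averaged functionals converge. -/
theorem tendsto_gwAvg (hd : 0 ≤ d) (h0 : -1 / 2 ≤ lam) (h1 : lam ≤ 1) (hf : Sublin f) :
    Tendsto (fun n => gwAvg d lam n f) atTop (𝓝 (⨅ n, gwAvg d lam n f)) := by
  refine tendsto_atTop_ciInf (antitone_nat_of_succ_le fun n => gwAvg_succ_le hd h0 h1 n hf)
    ⟨-fbound f, ?_⟩
  rintro _ ⟨n, rfl⟩
  exact (abs_le.1 (abs_tsum_weighted_le (gwWeight_nonneg hd n) (hasSum_gw hd n)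
    fun t => abs_fval_le hf (isStoch_lik h0 h1 n t))).1

/-- The functionals of the regular-tree observation converge. -/
theorem tendsto_regTree (h0 : -1 / 2 ≤ lam) (h1 : lam ≤ 1) (b : ℕ) (hf : Sublin f) :
    Tendsto (fun n => fval f (lik lam n (regTree b n))) atTop
      (𝓝 (⨅ n, fval f (lik lam n (regTree b n)))) := by
  refine tendsto_atTop_ciInf (antitone_nat_of_succ_le fun n => dom_regTree_succ h0 h1 b n f hf)
    ⟨-fbound f, ?_⟩
  rintro _ ⟨n, rfl⟩
  exact (abs_le.1 (abs_fval_le hf (isStoch_lik h0 h1 n _))).1

end Vale.Agent.P154.Q3
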