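import Vale.Agent.P154.Model

/-!
Elementary properties of the model: finite product sums, product series, Poisson moments.
-/

namespace Vale.Agent.P154

open Finset

/-! ### Finite products -/

variable {ι : Type*} [Fintype ι] [DecidableEq ι] {α : ι → Type*} [∀ j, Fintype (α j)]

theorem sum_pi_prod (e : (j : ι) → α j → ℝ) :
    ∑ ω : (j : ι) → α j, ∏ j, e j (ω j) = ∏ j, ∑ x, e j x := (Fintype.prod_sum e).symm

theorem sum_pi_one (e : (j : ι) → α j → ℝ) (he : ∀ j, ∑ x, e j x = 1) (l : ι) (g : α l → ℝ) :
    ∑ ω : (j : ι) → α j, (∏ j, e j (ω j)) * g (ω l) = ∑ x, e l x * g x := by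
  have hsplit : ∀ ω : (j : ι) → α j, (∏ j, e j (ω j)) * g (ω l)
      = ∏ j, Function.update e l (fun x => e l x * g x) j (ω j) := fun ω => by
    rw [← mul_prod_erase univ _ (mem_univ l), ← mul_prod_erase univ
      (fun j => Function.update e l (fun x => e l x * g x) j (ω j)) (mem_univ l)]
    rw [Function.update_self, prod_congr rfl fun j hj =>
      (show Function.update e l (fun x => e l x * g x) j (ω j) = e j (ω j) by
        rw [Function.update_of_ne (ne_of_mem_erase hj)])]
    ring
  simp only [hsplit, sum_pi_prod]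
  rw [← mul_prod_erase univ _ (mem_univ l), Function.update_self,
    prod_eq_one fun j hj => by rw [Function.update_of_ne (ne_of_mem_erase hj)]; exact he j, mul_one]

theorem sum_pi_two (e : (j : ι) → α j → ℝ) (he : ∀ j, ∑ x, e j x = 1) {l m : ι} (hlm : l ≠ m)
    (g : α l → ℝ) (g' : α m → ℝ) :
    ∑ ω : (j : ι) → α j, (∏ j, e j (ω j)) * (g (ω l) * g' (ω m))
      = (∑ x, e l x * g x) * ∑ x, e m x * g' x := by
  set e' := Function.update (Function.update e l (fun x => e l x * g x)) m (fun x => e m x * g' x)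
    with he'
  have hm : m ∈ univ.erase l := mem_erase.2 ⟨hlm.symm, mem_univ m⟩
  have hrest : ∀ j ∈ (univ.erase l).erase m, e' j = e j := fun j hj => by
    obtain ⟨h1, h2, -⟩ := mem_erase.1 hj |>.imp id mem_erase.1
    rw [he', Function.update_of_ne h1, Function.update_of_ne h2]
  have hl : e' l = fun x => e l x * g x := by
    rw [he', Function.update_of_ne hlm, Function.update_self]
  have hm' : e' m = fun x => e m x * g' x := by rw [he', Function.update_self]
  have hsplit : ∀ ω : (j : ι) → α j, (∏ j, e j (ω j)) * (g (ω l) * g' (ω m))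
      = ∏ j, e' j (ω j) := fun ω => by
    rw [← mul_prod_erase univ _ (mem_univ l), ← mul_prod_erase _ _ hm,
      ← mul_prod_erase univ (fun j => e' j (ω j)) (mem_univ l),
      ← mul_prod_erase _ (fun j => e' j (ω j)) hm, hl, hm',
      prod_congr rfl fun j hj => (show e' j (ω j) = e j (ω j) by rw [hrest j hj])]
    ring
  simp only [hsplit, sum_pi_prod]
  rw [← mul_prod_erase univ _ (mem_univ l), ← mul_prod_erase _ _ hm, hl, hm',
    prod_eq_one fun j hj => by rw [hrest j hj]; exact he j, mul_one]

/-! ### Series over tuples and over nodes -/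

theorem hasSum_pi_prod {β : Type*} : ∀ (k : ℕ) (h : Fin k → β → ℝ) (m : Fin k → ℝ),
    (∀ i x, 0 ≤ h i x) → (∀ i, HasSum (h i) (m i)) →
      HasSum (fun f : Fin k → β => ∏ i, h i (f i)) (∏ i, m i)
  | 0, h, m, _, _ => by
    simp only [Finset.univ_eq_empty, prod_empty]
    exact hasSum_single (α := ℝ) (f := fun _ : Fin 0 → β => (1 : ℝ)) isEmptyElim
      fun b hb => absurd (Subsingleton.elim b isEmptyElim) hb
  | k + 1, h, m, h0, hs => by
    let e : β × (Fin k → β) ≃ (Fin (k + 1) → β) := Fin.consEquiv fun _ => β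
    have ih := hasSum_pi_prod k (fun i => h i.succ) (fun i => m i.succ)
      (fun i x => h0 i.succ x) (fun i => hs i.succ)
    have hsum : Summable fun x : β × (Fin k → β) => h 0 x.1 * ∏ i : Fin k, h i.succ (x.2 i) :=
      @Summable.mul_of_nonneg _ _ (h 0) (fun f : Fin k → β => ∏ i : Fin k, h i.succ (f i))
        (hs 0).summable ih.summable (fun x => h0 0 x)
        fun f => prod_nonneg fun i _ => h0 i.succ (f i)
    have h2 := (hs 0).mul ih hsum
    rw [Fin.prod_univ_succ, ← e.hasSum_iff]
    refine h2.congr_fun fun x => ?_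
    show ∏ i, h i (Fin.cons (α := fun _ => β) x.1 x.2 i) = _
    rw [Fin.prod_univ_succ, Fin.cons_zero]
    simp only [Fin.cons_succ]

/-- Summing over the children, then over their number. -/
theorem hasSum_node {β : Type*} {p : ℕ → ℝ} {F : (Σ k : ℕ, Fin k → β) → ℝ} (M : ℕ → ℝ) {S : ℝ}
    (hp : ∀ k, 0 ≤ p k) (hF : ∀ t, 0 ≤ F t)
    (hM : ∀ k, HasSum (fun c : Fin k → β => F ⟨k, c⟩) (M k))
    (hS : HasSum (fun k => p k * M k) S) :
    HasSum (fun t : Σ k : ℕ, Fin k → β => p t.1 * F t) S := by
  have hinner : ∀ k, HasSum (fun c : Fin k → β => p k * F ⟨k, c⟩) (p k * M k) :=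
    fun k => (hM k).mul_left (p k)
  have hsum : Summable fun t : Σ k : ℕ, Fin k → β => p t.1 * F t :=
    (summable_sigma_of_nonneg fun t => mul_nonneg (hp t.1) (hF t)).2
      ⟨fun k => (hinner k).summable, hS.summable.congr fun k => (hinner k).tsum_eq.symm⟩
  exact HasSum.sigma_of_hasSum hS hinner hsum

/-- A weighted sum over coordinates. -/
theorem hasSum_pi_one {β : Type*} {k : ℕ} {w g : β → ℝ} {m : ℝ} (hw : ∀ x, 0 ≤ w x)
    (hg : ∀ x, 0 ≤ g x) (hw1 : HasSum w 1) (hm : HasSum (fun x => w x * g x) m) :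
    HasSum (fun f : Fin k → β => (∏ i, w (f i)) * ∑ i, g (f i)) ((k : ℝ) * m) := by
  have h : ∀ l : Fin k, HasSum (fun f : Fin k → β => (∏ i, w (f i)) * g (f l)) m := by
    intro l
    have h' := hasSum_pi_prod k (fun i x => if i = l then w x * g x else w x)
      (fun i => if i = l then m else 1)
      (fun i x => by split_ifs <;> first | exact mul_nonneg (hw x) (hg x) | exact hw x)
      (fun i => by by_cases hi : i = l <;> simp only [hi, if_true, if_false] <;> assumption)
    rw [prod_ite_eq' univ l fun _ => m, if_pos (mem_univ l)] at h'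
    refine h'.congr_fun fun f => ?_
    rw [← mul_prod_erase univ _ (mem_univ l), ← mul_prod_erase univ
      (fun i => if i = l then w (f i) * g (f i) else w (f i)) (mem_univ l), if_pos rfl,
      prod_congr rfl fun i hi => if_neg (ne_of_mem_erase hi)]
    ring
  simpa [mul_sum] using hasSum_sum fun l (_ : l ∈ univ) => h l

/-- A weighted sum over ordered pairs of distinct coordinates. -/
theorem hasSum_pi_two {β : Type*} {k : ℕ} {w g : β → ℝ} {m : ℝ} (hw : ∀ x, 0 ≤ w x)
    (hg : ∀ x, 0 ≤ g x) (hw1 : HasSum w 1) (hm : HasSum (fun x => w x * g x) m) :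
    HasSum (fun f : Fin k → β => (∏ i, w (f i)) * ((∑ i, g (f i)) ^ 2 - ∑ i, g (f i) ^ 2))
      ((k : ℝ) * ((k : ℝ) - 1) * m ^ 2) := by
  have h : ∀ l j : Fin k, HasSum
      (fun f : Fin k → β => if j = l then 0 else (∏ i, w (f i)) * (g (f l) * g (f j)))
      (if j = l then 0 else m ^ 2) := by
    intro l j
    rcases eq_or_ne j l with hjl | hjl
    · simp [hjl, hasSum_zero]
    simp only [if_neg hjl]
    have hj : j ∈ univ.erase l := mem_erase.2 ⟨hjl, mem_univ j⟩
    have h' := hasSum_pi_prod k (fun i x => if i = l ∨ i = j then w x * g x else w x)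
      (fun i => if i = l ∨ i = j then m else 1)
      (fun i x => by split_ifs <;> first | exact mul_nonneg (hw x) (hg x) | exact hw x)
      (fun i => by by_cases hi : i = l ∨ i = j <;> simp only [hi, if_true, if_false] <;> assumption)
    rw [← mul_prod_erase univ _ (mem_univ l), ← mul_prod_erase _ _ hj, if_pos (Or.inl rfl),
      if_pos (Or.inr rfl), prod_eq_one fun i hi => if_neg (by
        simp only [mem_erase] at hi; tauto), mul_one, ← sq] at h'
    refine h'.congr_fun fun f => ?_
    rw [← mul_prod_erase univ _ (mem_univ l), ← mul_prod_erase _ _ hj,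
      ← mul_prod_erase univ (fun i => if i = l ∨ i = j then w (f i) * g (f i) else w (f i))
        (mem_univ l), ← mul_prod_erase _ (fun i => if i = l ∨ i = j then w (f i) * g (f i)
        else w (f i)) hj, if_pos (Or.inl rfl), if_pos (Or.inr rfl),
      prod_congr rfl fun i hi => if_neg (by simp only [mem_erase] at hi; tauto)]
    ring
  have htot := hasSum_sum fun l (_ : l ∈ univ) => hasSum_sum fun j (_ : j ∈ univ) => h l j
  convert htot using 1
  · funext f
    rw [sq, sum_mul_sum, ← sum_sub_distrib, mul_sum]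
    refine sum_congr rfl fun l _ => ?_
    rw [← sum_erase_add univ _ (mem_univ l), ← sum_erase_add univ
      (fun j => if j = l then 0 else (∏ i, w (f i)) * (g (f l) * g (f j))) (mem_univ l),
      if_pos rfl, add_zero, sq, add_sub_cancel_right, mul_sum]
    exact sum_congr rfl fun j hj => (if_neg (ne_of_mem_erase hj)).symm
  · simp only [sum_ite, sum_const_zero, zero_add, sum_const, nsmul_eq_mul,
      filter_ne', card_erase_of_mem (mem_univ _), card_univ, Fintype.card_fin]
    rcases k with - | k
    · simp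
    · push_cast; ring

/-! ### Poisson moments -/

theorem poisson_nonneg {d : ℝ} (hd : 0 ≤ d) (k : ℕ) : 0 ≤ poisson d k := by
  unfold poisson; positivity

theorem hasSum_poisson (d : ℝ) : HasSum (poisson d) 1 := by
  have h : HasSum (fun k : ℕ => d ^ k / (Nat.factorial k : ℝ)) (Real.exp d) := by
    rw [Real.exp_eq_exp_ℝ]
    exact NormedSpace.expSeries_div_hasSum_exp d
  have h2 := h.mul_left (Real.exp (-d))
  rw [← Real.exp_add, neg_add_cancel, Real.exp_zero] at h2
  exact h2.congr_fun fun k => by unfold poisson; ring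

theorem poisson_succ (d : ℝ) (k : ℕ) : poisson d (k + 1) * ((k : ℝ) + 1) = d * poisson d k := by
  unfold poisson
  rw [Nat.factorial_succ, pow_succ]
  push_cast
  field_simp

theorem hasSum_poisson_mean (d : ℝ) : HasSum (fun k => poisson d k * (k : ℝ)) d := by
  rw [← hasSum_nat_add_iff' 1]
  simp only [sum_range_one, Nat.cast_zero, mul_zero, sub_zero]
  have h := (hasSum_poisson d).mul_left d
  rw [mul_one] at h
  exact h.congr_fun fun k => by push_cast; exact poisson_succ d k

theorem hasSum_poisson_pairs (d : ℝ) :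
    HasSum (fun k => poisson d k * ((k : ℝ) * ((k : ℝ) - 1))) (d ^ 2) := by
  rw [← hasSum_nat_add_iff' 1]
  simp only [sum_range_one, Nat.cast_zero, zero_mul, mul_zero, sub_zero]
  have h := (hasSum_poisson_mean d).mul_left d
  rw [← sq] at h
  refine h.congr_fun fun k => ?_
  push_cast
  linear_combination (k : ℝ) * poisson_succ d k

theorem gwWeight_nonneg {d : ℝ} (hd : 0 ≤ d) : ∀ (n : ℕ) (t : Shape n), 0 ≤ gwWeight d n t
  | 0, _ => zero_le_one
  | n + 1, _ => mul_nonneg (poisson_nonneg hd _) (prod_nonneg fun _ _ => gwWeight_nonneg hd n _)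

theorem hasSum_gwWeight {d : ℝ} (hd : 0 ≤ d) : ∀ n : ℕ, HasSum (gwWeight d n) 1
  | 0 => hasSum_single (α := ℝ) (f := gwWeight d 0) () (fun b hb => absurd rfl hb)
  | n + 1 => by
    refine hasSum_node (β := Shape n) (p := poisson d)
      (F := fun t => ∏ j : Fin t.1, gwWeight d n (t.2 j)) (fun _ => 1) (poisson_nonneg hd)
      (fun t => prod_nonneg fun j _ => gwWeight_nonneg hd n _) (fun k => ?_) ?_
    · have h := hasSum_pi_prod k (fun _ => gwWeight d n) (fun _ => 1)
        (fun _ x => gwWeight_nonneg hd n x) fun _ => hasSum_gwWeight hd n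
      simpa using h
    · simpa using hasSum_poisson d

end Vale.Agent.P154
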