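import Vale.Agent.P154.KS

/-!
Magnetisation against the advantage, and the passage from a per-tree inequality to the limit.
-/

namespace Vale.Agent.P154

open Finset Filter Topology

variable {q : ℕ} {lam : ℝ}

/-- The magnetisation `E ∑ᵢ (πᵢ - 1/q)²` of the posterior. -/
noncomputable def mag (q : ℕ) (lam : ℝ) (n : ℕ) (t : Shape n) : ℝ :=
  ∑ ω : Obs q n t, (∑ i, (lik q lam n t i ω - (∑ a, lik q lam n t a ω) / q) ^ 2)
    / (q * ∑ a, lik q lam n t a ω)

theorem mag_nonneg (h : Adm q lam) (n : ℕ) (t : Shape n) : 0 ≤ mag q lam n t :=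
  sum_nonneg fun ω _ => div_nonneg (sum_nonneg fun _ _ => sq_nonneg _)
    (mul_nonneg h.q_pos.le (sum_nonneg fun a _ => lik_nonneg h n t a ω))

theorem mag_le_advantage (h : Adm q lam) (n : ℕ) (t : Shape n) :
    mag q lam n t ≤ 2 * advantage q lam n t := by
  have hq := h.q_pos
  rw [advantage, mul_sum]
  refine sum_le_sum fun ω _ => ?_
  set W := ∑ a, lik q lam n t a ω
  have h0 := fun a => lik_nonneg h n t a ω
  have hW : 0 ≤ W := sum_nonneg fun a _ => h0 a
  rcases hW.eq_or_lt with hz | hpos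
  · rw [← hz, mul_zero, div_zero]
    positivity
  calc (∑ i, (lik q lam n t i ω - W / q) ^ 2) / (q * W)
      ≤ (∑ i, W * |lik q lam n t i ω - W / q|) / (q * W) := by
        refine div_le_div_of_nonneg_right (sum_le_sum fun i _ => ?_) (by positivity)
        rw [← sq_abs, sq]
        refine mul_le_mul_of_nonneg_right ?_ (abs_nonneg _)
        have hi : lik q lam n t i ω ≤ W := single_le_sum (fun a _ => h0 a) (mem_univ i)
        have hWq : W / q ≤ W := by
          rw [div_le_iff₀ hq]
          exact le_mul_of_one_le_right hW (by exact_mod_cast (show 1 ≤ q by have := h.1; omega))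
        have : 0 ≤ W / q := by positivity
        rw [abs_le]
        constructor <;> linarith [h0 i]
    _ = 2 * (1 / (2 * (q : ℝ)) * ∑ i, |lik q lam n t i ω - W / q|) := by
        rw [← mul_sum]
        generalize ∑ i, |lik q lam n t i ω - W / q| = D
        field_simp

theorem advantage_le_mag (h : Adm q lam) (n : ℕ) (t : Shape n) {δ : ℝ} (hδ : 0 < δ) :
    advantage q lam n t ≤ (q : ℝ) * δ / 2 + mag q lam n t / (8 * δ) := by
  have hq := h.q_pos
  have key : ∀ ω : Obs q n t,
      1 / (2 * (q : ℝ)) * ∑ i, |lik q lam n t i ω - (∑ a, lik q lam n t a ω) / q|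
        ≤ δ / 2 * ∑ a, lik q lam n t a ω
          + (∑ i, (lik q lam n t i ω - (∑ a, lik q lam n t a ω) / q) ^ 2)
            / (q * ∑ a, lik q lam n t a ω) / (8 * δ) := by
    intro ω
    set W := ∑ a, lik q lam n t a ω with hWdef
    have hW : 0 ≤ W := sum_nonneg fun a _ => lik_nonneg h n t a ω
    rcases hW.eq_or_lt with hz | hpos
    · have hall : ∀ a, lik q lam n t a ω = 0 := fun a =>
        (sum_eq_zero_iff_of_nonneg fun b _ => lik_nonneg h n t b ω).1 hz.symm a (mem_univ a)
      simp [hall, ← hz]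
    have hpt : ∀ i, |lik q lam n t i ω - W / q|
        ≤ δ * W + (lik q lam n t i ω - W / q) ^ 2 / (4 * δ * W) := fun i => by
      rw [← sub_nonneg, ← sq_abs (lik q lam n t i ω - W / q),
        show δ * W + |lik q lam n t i ω - W / q| ^ 2 / (4 * δ * W) - |lik q lam n t i ω - W / q|
          = (|lik q lam n t i ω - W / q| - 2 * δ * W) ^ 2 / (4 * δ * W) by field_simp; ring]
      positivity
    refine (mul_le_mul_of_nonneg_left (sum_le_sum fun i _ => hpt i) (by positivity)).trans
      (le_of_eq ?_)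
    rw [sum_add_distrib, ← sum_div, sum_const, card_univ, Fintype.card_fin, nsmul_eq_mul]
    field_simp
    ring
  refine (sum_le_sum fun ω _ => key ω).trans (le_of_eq ?_)
  rw [sum_add_distrib, ← mul_sum, ← sum_div, sum_comm, mag]
  simp [sum_lik h]
  ring

theorem mag_le_two (h : Adm q lam) (n : ℕ) (t : Shape n) : mag q lam n t ≤ 2 := by
  linarith [mag_le_advantage h n t, advantage_le_one h n t]

/-- The mean magnetisation on the Poisson tree. -/
noncomputable def magPoisson (q : ℕ) (d lam : ℝ) (n : ℕ) : ℝ :=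
  ∑' t : Shape n, gwWeight d n t * mag q lam n t

theorem summable_magPoisson (h : Adm q lam) {d : ℝ} (hd : 0 ≤ d) (n : ℕ) :
    Summable fun t => gwWeight d n t * mag q lam n t :=
  Summable.of_nonneg_of_le (fun t => mul_nonneg (gwWeight_nonneg hd n t) (mag_nonneg h n t))
    (fun t => mul_le_mul_of_nonneg_left (mag_le_two h n t) (gwWeight_nonneg hd n t))
    ((hasSum_gwWeight hd n).summable.mul_right 2)

theorem magPoisson_nonneg (h : Adm q lam) {d : ℝ} (hd : 0 ≤ d) (n : ℕ) :
    0 ≤ magPoisson q d lam n :=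
  tsum_nonneg fun t => mul_nonneg (gwWeight_nonneg hd n t) (mag_nonneg h n t)

theorem aPoisson_nonneg {d : ℝ} (hd : 0 ≤ d) (n : ℕ) : 0 ≤ aPoisson q d lam n :=
  tsum_nonneg fun t => mul_nonneg (gwWeight_nonneg hd n t) (advantage_nonneg q lam n t)

theorem aPoisson_le (h : Adm q lam) {d : ℝ} (hd : 0 ≤ d) (n : ℕ) {δ : ℝ} (hδ : 0 < δ) :
    aPoisson q d lam n ≤ (q : ℝ) * δ / 2 + magPoisson q d lam n / (8 * δ) := by
  have hR := ((hasSum_gwWeight hd n).mul_left ((q : ℝ) * δ / 2)).add
    ((summable_magPoisson h hd n).hasSum.div_const (8 * δ))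
  rw [mul_one] at hR
  refine hasSum_le (fun t => ?_) (summable_aPoisson h hd n).hasSum hR
  refine (mul_le_mul_of_nonneg_left (advantage_le_mag h n t hδ) (gwWeight_nonneg hd n t)).trans
    (le_of_eq ?_)
  ring

theorem tendsto_zero_of_trade {a x : ℕ → ℝ} {C : ℝ} (hC : 0 < C) (ha : ∀ n, 0 ≤ a n)
    (hx : Tendsto x atTop (𝓝 0))
    (h : ∀ (n : ℕ) (δ : ℝ), 0 < δ → a n ≤ C * δ + x n / (8 * δ)) :
    Tendsto a atTop (𝓝 0) := by
  refine tendsto_order.2 ⟨fun b hb => Eventually.of_forall fun n => lt_of_lt_of_le hb (ha n),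
    fun b hb => ?_⟩
  set δ := b / (4 * C) with hδdef
  have hδ : 0 < δ := by positivity
  filter_upwards [(tendsto_order.1 hx).2 (4 * δ * b) (by positivity)] with n hn
  have h1 := h n δ hδ
  have h2 : x n / (8 * δ) < b / 2 := by
    rw [div_lt_iff₀ (by positivity)]
    linarith
  have h3 : C * δ = b / 4 := by rw [hδdef]; field_simp
  linarith

theorem tendsto_aPoisson (h : Adm q lam) {d : ℝ} (hd : 0 ≤ d)
    (hm : Tendsto (magPoisson q d lam) atTop (𝓝 0)) :
    Tendsto (aPoisson q d lam) atTop (𝓝 0) :=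
  tendsto_zero_of_trade (C := (q : ℝ) / 2) (by have := h.q_pos; positivity)
    (aPoisson_nonneg hd) hm fun n δ hδ => (aPoisson_le h hd n hδ).trans (le_of_eq (by ring))

theorem tendsto_aRegular (h : Adm q lam) {d : ℕ}
    (hm : Tendsto (fun n => mag q lam n (regular d n)) atTop (𝓝 0)) :
    Tendsto (aRegular q d lam) atTop (𝓝 0) :=
  tendsto_zero_of_trade (C := (q : ℝ) / 2) (by have := h.q_pos; positivity)
    (fun n => advantage_nonneg q lam n _) hm
    fun n δ hδ => (advantage_le_mag h n (regular d n) hδ).trans (le_of_eq (by ring))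

/-- A sequence decreasing by a quadratic amount tends to zero. -/
theorem tendsto_zero_of_quadratic {x : ℕ → ℝ} {c : ℝ} (hc : 0 < c) (hx : ∀ n, 0 ≤ x n)
    (h : ∀ n, x (n + 1) ≤ x n - c * x n ^ 2) : Tendsto x atTop (𝓝 0) := by
  have hanti : Antitone x := antitone_nat_of_succ_le fun n => by
    linarith [h n, mul_nonneg hc.le (sq_nonneg (x n))]
  refine tendsto_order.2 ⟨fun b hb => Eventually.of_forall fun n => lt_of_lt_of_le hb (hx n),
    fun b hb => ?_⟩
  by_contra hcon
  have hall : ∀ n, b ≤ x n := fun n => by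
    by_contra hlt
    exact hcon (eventually_atTop.2 ⟨n, fun m hm => (hanti hm).trans_lt (not_le.1 hlt)⟩)
  obtain ⟨N, hN⟩ := exists_nat_gt (x 0 / (c * b ^ 2))
  rw [div_lt_iff₀ (by positivity)] at hN
  have hbound : ∀ n : ℕ, x n ≤ x 0 - n * (c * b ^ 2) := by
    intro n
    induction n with
    | zero => simp
    | succ n ih =>
      have := mul_le_mul_of_nonneg_left (pow_le_pow_left₀ hb.le (hall n) 2) hc.le
      push_cast
      linarith [h n]
  linarith [hbound N, hall N]

/-- The mean of a node inequality on the Poisson tree. -/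
theorem magPoisson_step (h : Adm q lam) {d : ℝ} (hd : 0 ≤ d) {r c : ℝ} {n : ℕ}
    (hnode : ∀ t : Shape (n + 1), mag q lam (n + 1) t ≤ r * (∑ j, mag q lam n (t.2 j))
      - c * ((∑ j, mag q lam n (t.2 j)) ^ 2 - ∑ j, mag q lam n (t.2 j) ^ 2)) :
    magPoisson q d lam (n + 1)
      ≤ r * (d * magPoisson q d lam n) - c * (d ^ 2 * magPoisson q d lam n ^ 2) := by
  have hw := gwWeight_nonneg hd n
  have hm := mag_nonneg h n
  have hbase := (summable_magPoisson h hd n).hasSum
  have h1 : HasSum (fun t : Σ k : ℕ, Fin k → Shape n => poisson d t.1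
      * ((∏ j, gwWeight d n (t.2 j)) * ∑ j, mag q lam n (t.2 j)))
      (d * magPoisson q d lam n) := by
    refine hasSum_node (β := Shape n) (fun k => (k : ℝ) * magPoisson q d lam n) (poisson_nonneg hd)
      (fun t => mul_nonneg (prod_nonneg fun j _ => hw _) (sum_nonneg fun j _ => hm _))
      (fun k => hasSum_pi_one hw hm (hasSum_gwWeight hd n) hbase) ?_
    exact ((hasSum_poisson_mean d).mul_right _).congr_fun fun k => by ring
  have h2 : HasSum (fun t : Σ k : ℕ, Fin k → Shape n => poisson d t.1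
      * ((∏ j, gwWeight d n (t.2 j))
        * ((∑ j, mag q lam n (t.2 j)) ^ 2 - ∑ j, mag q lam n (t.2 j) ^ 2)))
      (d ^ 2 * magPoisson q d lam n ^ 2) := by
    refine hasSum_node (β := Shape n)
      (fun k => (k : ℝ) * ((k : ℝ) - 1) * magPoisson q d lam n ^ 2) (poisson_nonneg hd)
      (fun t => mul_nonneg (prod_nonneg fun j _ => hw _)
        (sub_nonneg.2 (sum_sq_le_sq_sum_of_nonneg fun j _ => hm _)))
      (fun k => hasSum_pi_two hw hm (hasSum_gwWeight hd n) hbase) ?_
    exact ((hasSum_poisson_pairs d).mul_right _).congr_fun fun k => by ring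
  refine hasSum_le (fun t => ?_) (summable_magPoisson h hd (n + 1)).hasSum
    ((h1.mul_left r).sub (h2.mul_left c))
  refine (mul_le_mul_of_nonneg_left (hnode t) (gwWeight_nonneg hd (n + 1) t)).trans (le_of_eq ?_)
  simp only [gwWeight]
  ring

/-- From a node inequality to nonreconstruction on the Poisson tree, the critical case included. -/
theorem tendsto_aPoisson_of_node (h : Adm q lam) {d c : ℝ} (hd : 0 < d) (hc : 0 < c)
    (hr : d * lam ^ 2 ≤ 1)
    (hnode : ∀ n, ∀ t : Shape (n + 1), mag q lam (n + 1) t ≤ lam ^ 2 * (∑ j, mag q lam n (t.2 j))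
      - c * ((∑ j, mag q lam n (t.2 j)) ^ 2 - ∑ j, mag q lam n (t.2 j) ^ 2)) :
    Tendsto (aPoisson q d lam) atTop (𝓝 0) := by
  refine tendsto_aPoisson h hd.le (tendsto_zero_of_quadratic (mul_pos hc (pow_pos hd 2))
    (magPoisson_nonneg h hd.le) fun n => ?_)
  have h1 := magPoisson_step h hd.le (hnode n)
  have h2 := mul_le_mul_of_nonneg_right hr (magPoisson_nonneg h hd.le n)
  linarith

/-- From a node inequality to nonreconstruction on the regular tree. -/
theorem tendsto_aRegular_of_node (h : Adm q lam) {d : ℕ} {c : ℝ} (hd : 2 ≤ d) (hc : 0 < c)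
    (hr : (d : ℝ) * lam ^ 2 ≤ 1)
    (hnode : ∀ n, ∀ t : Shape (n + 1), mag q lam (n + 1) t ≤ lam ^ 2 * (∑ j, mag q lam n (t.2 j))
      - c * ((∑ j, mag q lam n (t.2 j)) ^ 2 - ∑ j, mag q lam n (t.2 j) ^ 2)) :
    Tendsto (aRegular q d lam) atTop (𝓝 0) := by
  have hd' : (2 : ℝ) ≤ d := by exact_mod_cast hd
  refine tendsto_aRegular h (tendsto_zero_of_quadratic
    (mul_pos hc (mul_pos (show (0 : ℝ) < d by linarith) (show (0 : ℝ) < (d : ℝ) - 1 by linarith)))
    (fun n => mag_nonneg h n _) fun n => ?_)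
  have h1 : mag q lam (n + 1) (regular d (n + 1))
      ≤ lam ^ 2 * (∑ _j : Fin d, mag q lam n (regular d n))
      - c * ((∑ _j : Fin d, mag q lam n (regular d n)) ^ 2
        - ∑ _j : Fin d, mag q lam n (regular d n) ^ 2) := hnode n (regular d (n + 1))
  simp only [sum_const, card_univ, Fintype.card_fin, nsmul_eq_mul] at h1
  have h2 := mul_le_mul_of_nonneg_right hr (mag_nonneg h n (regular d n))
  linarith

end Vale.Agent.P154
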