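import Vale.Agent.P154.Poly

/-!
# The positivity certificate for closure of the class under combining subtrees
-/

namespace Vale.Agent.P154.Q3

section Formula
variable {R : Type} [Add R] [Mul R]

/-- Sum of the coordinates. -/
def gSum (x y w : R) : R := x + y + w
/-- Sum of the squares of the pairwise products. -/
def gQd (x y w : R) : R := x * y * (x * y) + y * w * (y * w) + w * x * (w * x)
/-- Cube. -/
def gCube (x : R) : R := x * x * x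
/-- Sixth power of the sum. -/
def gP6 (x y w : R) : R := gCube (gSum x y w * gSum x y w)
/-- Fifth power of the sum. -/
def gP5 (x y w : R) : R := gSum x y w * gSum x y w * gSum x y w * (gSum x y w * gSum x y w)
/-- The weight polynomial of degree six. -/
def gPhi (c3 c27 : R) (x y w : R) : R :=
  gSum x y w * (c3 * (x * y + y * w + w * x)) * (c27 * (x * y * w)) +
    gCube (c3 * (x * y + y * w + w * x))
/-- The three overlaps multiplied and cubed. -/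
def gPi3 (x y w x' y' w' : R) : R :=
  gCube ((x * x' + y * y' + w * w') * (x * y' + y * w' + w * x') * (x * w' + y * x' + w * y'))
/-- The numerator of the combined functional. -/
def gNum (x y w x' y' w' : R) : R :=
  gQd (x * x') (y * y') (w * w') *
      gCube ((x * y' + y * w' + w * x') * (x * w' + y * x' + w * y')) +
    gQd (x * y') (y * w') (w * x') *
      gCube ((x * x' + y * y' + w * w') * (x * w' + y * x' + w * y')) +
    gQd (x * w') (y * x') (w * y') *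
      gCube ((x * x' + y * y' + w * w') * (x * y' + y * w' + w * x'))
/-- The smaller side of the certificate. -/
def gLHS (c2 c3 c27 : R) (x y w x' y' w' : R) : R :=
  gNum x y w x' y' w' * (c2 * c27 * gP5 x y w) * gP5 x' y' w' +
    gPi3 x y w x' y' w' * gP6 x y w * gPhi c3 c27 x' y' w' +
    gPi3 x y w x' y' w' * gPhi c3 c27 x y w * gP6 x' y' w'
/-- The larger side of the certificate. -/
def gRHS (c2 c3 c27 : R) (x y w x' y' w' : R) : R :=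
  gPi3 x y w x' y' w' * gP6 x y w * (c2 * gP6 x' y' w') +
    gPi3 x y w x' y' w' * (gSum x y w * gSum x y w * (c27 * gQd x y w)) * gPhi c3 c27 x' y' w' +
    gPi3 x y w x' y' w' * gPhi c3 c27 x y w *
      (gSum x' y' w' * gSum x' y' w' * (c27 * gQd x' y' w'))

end Formula

/-- A polynomial with a bound on its degrees. -/
structure GV where
  q : Q4
  a : ℕ
  b : ℕ
  c : ℕ
  d : ℕ
  deg : q.Deg a b c d

instance : Add GV := ⟨fun u v => ⟨u.q + v.q, max u.a v.a, max u.b v.b, max u.c v.c, max u.d v.d,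
  u.deg.add v.deg⟩⟩
instance : Mul GV := ⟨fun u v => ⟨u.q * v.q, u.a + v.a, u.b + v.b, u.c + v.c, u.d + v.d,
  u.deg.mul v.deg⟩⟩

/-- A constant. -/
def GV.const (n : ℕ) : GV :=
  ⟨Q4.const n, 0, 0, 0, 0, by simp [Q4.Deg, Bd, Q4.const]⟩
/-- The variables. -/
def GV.X1 : GV := ⟨Q4.X1, 1, 0, 0, 0, by simp [Q4.Deg, Bd, Q4.X1]⟩
/-- The second variable. -/
def GV.X2 : GV := ⟨Q4.X2, 0, 1, 0, 0, by simp [Q4.Deg, Bd, Q4.X2]⟩
/-- The third variable. -/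
def GV.X3 : GV := ⟨Q4.X3, 0, 0, 1, 0, by simp [Q4.Deg, Bd, Q4.X3]⟩
/-- The fourth variable. -/
def GV.X4 : GV := ⟨Q4.X4, 0, 0, 0, 1, by simp [Q4.Deg, Bd, Q4.X4]⟩

theorem GV.q_add (u v : GV) : (u + v).q = u.q + v.q := rfl
theorem GV.q_mul (u v : GV) : (u * v).q = u.q * v.q := rfl

open GV in
theorem deg_fwd :
    let u := gLHS (const 2) (const 3) (const 27) (const 1) (const 1 + X1) (const 1 + X1 + X2)
      (const 1) (const 1 + X3) (const 1 + X3 + X4)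
    let v := gRHS (const 2) (const 3) (const 27) (const 1) (const 1 + X1) (const 1 + X1 + X2)
      (const 1) (const 1 + X3) (const 1 + X3 + X4)
    u.a ≤ 15 ∧ u.b ≤ 15 ∧ u.c ≤ 15 ∧ u.d ≤ 15 ∧ v.a ≤ 15 ∧ v.b ≤ 15 ∧ v.c ≤ 15 ∧ v.d ≤ 15 := by
  decide +kernel

open GV in
theorem deg_rev :
    let u := gLHS (const 2) (const 3) (const 27) (const 1) (const 1 + X1) (const 1 + X1 + X2)
      (const 1 + X3 + X4) (const 1 + X3) (const 1)
    let v := gRHS (const 2) (const 3) (const 27) (const 1) (const 1 + X1) (const 1 + X1 + X2)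
      (const 1 + X3 + X4) (const 1 + X3) (const 1)
    u.a ≤ 15 ∧ u.b ≤ 15 ∧ u.c ≤ 15 ∧ u.d ≤ 15 ∧ v.a ≤ 15 ∧ v.b ≤ 15 ∧ v.c ≤ 15 ∧ v.d ≤ 15 := by
  decide +kernel

theorem small_fwd :
    gLHS (2 : ℕ) 3 27 1 (1 + 1) (1 + 1 + 1) 1 (1 + 1) (1 + 1 + 1) < 2 ^ 128 ∧
      gRHS (2 : ℕ) 3 27 1 (1 + 1) (1 + 1 + 1) 1 (1 + 1) (1 + 1 + 1) < 2 ^ 128 := by decide +kernel

theorem small_rev :
    gLHS (2 : ℕ) 3 27 1 (1 + 1) (1 + 1 + 1) (1 + 1 + 1) (1 + 1) 1 < 2 ^ 128 ∧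
      gRHS (2 : ℕ) 3 27 1 (1 + 1) (1 + 1 + 1) (1 + 1 + 1) (1 + 1) 1 < 2 ^ 128 := by decide +kernel

theorem chk_fwd :
    chk4 (2 ^ 128) 16
      (gLHS (2 : ℕ) 3 27 1 (1 + (((2 ^ 128) ^ 16) ^ 16) ^ 16)
        (1 + (((2 ^ 128) ^ 16) ^ 16) ^ 16 + ((2 ^ 128) ^ 16) ^ 16)
        1 (1 + (2 ^ 128) ^ 16) (1 + (2 ^ 128) ^ 16 + 2 ^ 128))
      (gRHS (2 : ℕ) 3 27 1 (1 + (((2 ^ 128) ^ 16) ^ 16) ^ 16)
        (1 + (((2 ^ 128) ^ 16) ^ 16) ^ 16 + ((2 ^ 128) ^ 16) ^ 16)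
        1 (1 + (2 ^ 128) ^ 16) (1 + (2 ^ 128) ^ 16 + 2 ^ 128)) = true := by decide +kernel

theorem chk_rev :
    chk4 (2 ^ 128) 16
      (gLHS (2 : ℕ) 3 27 1 (1 + (((2 ^ 128) ^ 16) ^ 16) ^ 16)
        (1 + (((2 ^ 128) ^ 16) ^ 16) ^ 16 + ((2 ^ 128) ^ 16) ^ 16)
        (1 + (2 ^ 128) ^ 16 + 2 ^ 128) (1 + (2 ^ 128) ^ 16) 1)
      (gRHS (2 : ℕ) 3 27 1 (1 + (((2 ^ 128) ^ 16) ^ 16) ^ 16)
        (1 + (((2 ^ 128) ^ 16) ^ 16) ^ 16 + ((2 ^ 128) ^ 16) ^ 16)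
        (1 + (2 ^ 128) ^ 16 + 2 ^ 128) (1 + (2 ^ 128) ^ 16) 1) = true := by decide +kernel

open GV in
theorem cert_fwd {a b c d : ℝ} (ha : 0 ≤ a) (hb : 0 ≤ b) (hc : 0 ≤ c) (hd : 0 ≤ d) :
    gLHS (2 : ℝ) 3 27 1 (1 + a) (1 + a + b) 1 (1 + c) (1 + c + d) ≤
      gRHS (2 : ℝ) 3 27 1 (1 + a) (1 + a + b) 1 (1 + c) (1 + c + d) := by
  set u := gLHS (GV.const 2) (GV.const 3) (GV.const 27) (GV.const 1) (GV.const 1 + GV.X1)
    (GV.const 1 + GV.X1 + GV.X2) (GV.const 1) (GV.const 1 + GV.X3)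
    (GV.const 1 + GV.X3 + GV.X4) with hu
  set v := gRHS (GV.const 2) (GV.const 3) (GV.const 27) (GV.const 1) (GV.const 1 + GV.X1)
    (GV.const 1 + GV.X1 + GV.X2) (GV.const 1) (GV.const 1 + GV.X3)
    (GV.const 1 + GV.X3 + GV.X4) with hv
  obtain ⟨h1, h2, h3, h4, k1, k2, k3, k4⟩ := deg_fwd
  have hL : ∀ {S : Type} [CommSemiring S] (x y z w : S), u.q.ev x y z w =
      gLHS (2 : S) 3 27 1 (1 + w) (1 + w + z) 1 (1 + y) (1 + y + x) := fun x y z w => by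
    simp only [hu, gLHS, gNum, gPi3, gPhi, gP5, gP6, gCube, gQd, gSum, GV.q_add, GV.q_mul,
      GV.const, GV.X1, GV.X2, GV.X3, GV.X4, Q4.ev_add, Q4.ev_mul, Q4.ev_const, Q4.ev_X1,
      Q4.ev_X2, Q4.ev_X3, Q4.ev_X4, Nat.cast_ofNat, Nat.cast_one]
  have hR : ∀ {S : Type} [CommSemiring S] (x y z w : S), v.q.ev x y z w =
      gRHS (2 : S) 3 27 1 (1 + w) (1 + w + z) 1 (1 + y) (1 + y + x) := fun x y z w => by
    simp only [hv, gRHS, gPi3, gPhi, gP6, gCube, gQd, gSum, GV.q_add, GV.q_mul,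
      GV.const, GV.X1, GV.X2, GV.X3, GV.X4, Q4.ev_add, Q4.ev_mul, Q4.ev_const, Q4.ev_X1,
      Q4.ev_X2, Q4.ev_X3, Q4.ev_X4, Nat.cast_ofNat, Nat.cast_one]
  rw [← hL d c b a, ← hR d c b a]
  exact Q4.ev_le (n := 16) (B := 2 ^ 128) (by norm_num) (u.deg.mono h1 h2 h3 h4)
    (v.deg.mono k1 k2 k3 k4) (by norm_num) (by norm_num) (by norm_num)
    (by rw [hL]; exact small_fwd.1) (by rw [hR]; exact small_fwd.2)
    (by rw [hL, hR]; exact chk_fwd) hd hc hb ha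

open GV in
theorem cert_rev {a b c d : ℝ} (ha : 0 ≤ a) (hb : 0 ≤ b) (hc : 0 ≤ c) (hd : 0 ≤ d) :
    gLHS (2 : ℝ) 3 27 1 (1 + a) (1 + a + b) (1 + c + d) (1 + c) 1 ≤
      gRHS (2 : ℝ) 3 27 1 (1 + a) (1 + a + b) (1 + c + d) (1 + c) 1 := by
  set u := gLHS (GV.const 2) (GV.const 3) (GV.const 27) (GV.const 1) (GV.const 1 + GV.X1)
    (GV.const 1 + GV.X1 + GV.X2) (GV.const 1 + GV.X3 + GV.X4) (GV.const 1 + GV.X3)
    (GV.const 1) with hu
  set v := gRHS (GV.const 2) (GV.const 3) (GV.const 27) (GV.const 1) (GV.const 1 + GV.X1)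
    (GV.const 1 + GV.X1 + GV.X2) (GV.const 1 + GV.X3 + GV.X4) (GV.const 1 + GV.X3)
    (GV.const 1) with hv
  obtain ⟨h1, h2, h3, h4, k1, k2, k3, k4⟩ := deg_rev
  have hL : ∀ {S : Type} [CommSemiring S] (x y z w : S), u.q.ev x y z w =
      gLHS (2 : S) 3 27 1 (1 + w) (1 + w + z) (1 + y + x) (1 + y) 1 := fun x y z w => by
    simp only [hu, gLHS, gNum, gPi3, gPhi, gP5, gP6, gCube, gQd, gSum, GV.q_add, GV.q_mul,
      GV.const, GV.X1, GV.X2, GV.X3, GV.X4, Q4.ev_add, Q4.ev_mul, Q4.ev_const, Q4.ev_X1,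
      Q4.ev_X2, Q4.ev_X3, Q4.ev_X4, Nat.cast_ofNat, Nat.cast_one]
  have hR : ∀ {S : Type} [CommSemiring S] (x y z w : S), v.q.ev x y z w =
      gRHS (2 : S) 3 27 1 (1 + w) (1 + w + z) (1 + y + x) (1 + y) 1 := fun x y z w => by
    simp only [hv, gRHS, gPi3, gPhi, gP6, gCube, gQd, gSum, GV.q_add, GV.q_mul,
      GV.const, GV.X1, GV.X2, GV.X3, GV.X4, Q4.ev_add, Q4.ev_mul, Q4.ev_const, Q4.ev_X1,
      Q4.ev_X2, Q4.ev_X3, Q4.ev_X4, Nat.cast_ofNat, Nat.cast_one]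
  rw [← hL d c b a, ← hR d c b a]
  exact Q4.ev_le (n := 16) (B := 2 ^ 128) (by norm_num) (u.deg.mono h1 h2 h3 h4)
    (v.deg.mono k1 k2 k3 k4) (by norm_num) (by norm_num) (by norm_num)
    (by rw [hL]; exact small_rev.1) (by rw [hR]; exact small_rev.2)
    (by rw [hL, hR]; exact chk_rev) hd hc hb ha

end Vale.Agent.P154.Q3
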