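import Vale.Agent.P154.Point

/-!
# Channels from the root to finitely many outcomes, and their statistics
-/

namespace Vale.Agent.P154.Q3

open scoped BigOperators

variable {Ω Ω' : Type} [Fintype Ω] [Fintype Ω'] {L : Ω → Fin 3 → ℝ} {M : Ω' → Fin 3 → ℝ}

/-- A colour-symmetric channel. -/
structure IsChan (L : Ω → Fin 3 → ℝ) : Prop where
  nonneg : ∀ η i, 0 ≤ L η i
  tpos : ∀ η, 0 < tot (L η) ∨ L η = 0
  sum_one : ∀ i, ∑ η, L η i = 1
  symm : ∀ σ : Equiv.Perm (Fin 3), ∃ e : Ω ≃ Ω, ∀ η i, L (e η) i = L η (σ i)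

/-- All entries are positive. -/
def IsPos (L : Ω → Fin 3 → ℝ) : Prop := ∀ η i, 0 < L η i

/-- Magnetisation of a channel. -/
noncomputable def cX (L : Ω → Fin 3 → ℝ) : ℝ := ∑ η, magV (L η) / 3
/-- Class functional of a channel. -/
noncomputable def cPsi (L : Ω → Fin 3 → ℝ) : ℝ := ∑ η, psiV (L η) / 3
/-- Average of a function of the outcome. -/
noncomputable def cAvg (L : Ω → Fin 3 → ℝ) (g : (Fin 3 → ℝ) → ℝ) : ℝ :=
  ∑ η, tot (L η) / 3 * g (L η)
/-- Mean square of the normalised magnetisation. -/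
noncomputable def cM (L : Ω → Fin 3 → ℝ) : ℝ := cAvg L fun l => rad l ^ 2
/-- Product of two channels with the same input. -/
def tens (L : Ω → Fin 3 → ℝ) (M : Ω' → Fin 3 → ℝ) (p : Ω × Ω') (i : Fin 3) : ℝ :=
  L p.1 i * M p.2 i

theorem IsChan.tot_avg (h : IsChan L) : ∑ η, tot (L η) / 3 = 1 := by
  simp only [tot, ← Finset.sum_div, Finset.sum_add_distrib, h.sum_one]
  norm_num

theorem cX_nonneg (h : IsChan L) : 0 ≤ cX L :=
  Finset.sum_nonneg fun η _ => div_nonneg (div_nonneg (nsq_nonneg _ _ _) (by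
    have := h.nonneg η 0; have := h.nonneg η 1; have := h.nonneg η 2; linarith)) (by norm_num)

theorem cX_eq_avg (h : IsChan L) : cX L = cAvg L rad := by
  refine Finset.sum_congr rfl fun η _ => ?_
  rcases h.tpos η with ht | ht
  · rw [magV_eq ht.ne']; ring
  · simp [ht, magV, mag, nsq, tot, rad]

theorem sq_cX_le_cM (h : IsChan L) : cX L ^ 2 ≤ cM L := by
  have key : 0 ≤ ∑ η, tot (L η) / 3 * (rad (L η) - cX L) ^ 2 :=
    Finset.sum_nonneg fun η _ => mul_nonneg (div_nonneg (by
      have := h.nonneg η 0; have := h.nonneg η 1; have := h.nonneg η 2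
      unfold tot; linarith) (by norm_num)) (sq_nonneg _)
  have e : ∑ η, tot (L η) / 3 * (rad (L η) - cX L) ^ 2 =
      cM L - 2 * cX L * cAvg L rad + cX L ^ 2 * ∑ η, tot (L η) / 3 := by
    simp only [cM, cAvg, Finset.mul_sum, ← Finset.sum_sub_distrib, ← Finset.sum_add_distrib]
    exact Finset.sum_congr rfl fun η _ => by ring
  rw [e, h.tot_avg, ← cX_eq_avg h] at key
  linarith

theorem IsPos.tot (h : IsPos L) (η : Ω) : 0 < Vale.Agent.P154.Q3.tot (L η) := tot_pos (h η)

theorem isChan_tens (hL : IsChan L) (hM : IsChan M) (pL : IsPos L) (pM : IsPos M) :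
    IsChan (tens L M) where
  nonneg p i := mul_nonneg (hL.nonneg _ _) (hM.nonneg _ _)
  tpos p := Or.inl (tot_pos fun i => mul_pos (pL _ _) (pM _ _))
  sum_one i := by
    simp only [tens, Fintype.sum_prod_type, ← Finset.mul_sum, hM.sum_one, mul_one, hL.sum_one]
  symm σ := by
    obtain ⟨e, he⟩ := hL.symm σ
    obtain ⟨f, hf⟩ := hM.symm σ
    exact ⟨e.prodCongr f, fun p i => by simp [tens, he, hf]⟩

theorem IsPos.tens (pL : IsPos L) (pM : IsPos M) : IsPos (tens L M) :=
  fun p i => mul_pos (pL _ _) (pM _ _)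

theorem sum_tens_eq (hM : IsChan M) (f : (Fin 3 → ℝ) → ℝ) :
    6 * ∑ p : Ω × Ω', f (tens L M p) =
      ∑ η, ∑ η', ∑ k, f (fun i => L η i * M η' (six k i)) := by
  have : ∀ k : Fin 6, ∑ η, ∑ η', f (fun i => L η i * M η' (six k i)) =
      ∑ p : Ω × Ω', f (tens L M p) := by
    intro k
    obtain ⟨e, he⟩ := hM.symm (Equiv.ofBijective _ (six_bij k))
    rw [Fintype.sum_prod_type]
    refine Finset.sum_congr rfl fun η _ => ?_
    rw [← e.sum_comp (fun η' => f (tens L M (η, η')))]
    refine Finset.sum_congr rfl fun η' _ => congrArg f (funext fun i => ?_)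
    simp [tens, he]
  rw [Finset.sum_congr rfl fun η _ => Finset.sum_comm, Finset.sum_comm,
    Finset.sum_congr rfl fun k _ => this k]
  simp

/-- Subadditivity of the magnetisation. -/
theorem cX_tens_le (hL : IsChan L) (hM : IsChan M) (pL : IsPos L) (pM : IsPos M) :
    cX (tens L M) ≤ cX L + cX M -
      2 * (cAvg M fun m => rad m * (1 - rad m)) * cPsi L -
      2 * (cAvg L fun l => rad l * (1 - rad l)) * cPsi M := by
  have e := sum_tens_eq (L := L) hM magV
  have le : 6 * ∑ p, magV (tens L M p) ≤ ∑ η, ∑ η', 2 * (magV (L η) * tot (M η') +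
      tot (L η) * magV (M η') -
      2 * (tot (M η') * rad (M η') * (1 - rad (M η'))) * psiV (L η) -
      2 * (tot (L η) * rad (L η) * (1 - rad (L η))) * psiV (M η')) := by
    rw [e]
    exact Finset.sum_le_sum fun η _ => Finset.sum_le_sum fun η' _ => mag_point (pL η) (pM η')
  have e2 : ∑ η, ∑ η', 2 * (magV (L η) * tot (M η') + tot (L η) * magV (M η') -
      2 * (tot (M η') * rad (M η') * (1 - rad (M η'))) * psiV (L η) -
      2 * (tot (L η) * rad (L η) * (1 - rad (L η))) * psiV (M η')) =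
      18 * (cX L * ∑ η', tot (M η') / 3 + (∑ η, tot (L η) / 3) * cX M -
        2 * (cAvg M fun m => rad m * (1 - rad m)) * cPsi L -
        2 * (cAvg L fun l => rad l * (1 - rad l)) * cPsi M) := by
    rw [Finset.sum_congr rfl fun η _ => Finset.sum_congr rfl fun η' _ => show
      2 * (magV (L η) * tot (M η') + tot (L η) * magV (M η') -
        2 * (tot (M η') * rad (M η') * (1 - rad (M η'))) * psiV (L η) -
        2 * (tot (L η) * rad (L η) * (1 - rad (L η))) * psiV (M η')) =
      18 * ((magV (L η) / 3) * (tot (M η') / 3) + (tot (L η) / 3) * (magV (M η') / 3) -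
        2 * ((psiV (L η) / 3) * (tot (M η') / 3 * (rad (M η') * (1 - rad (M η'))))) -
        2 * ((tot (L η) / 3 * (rad (L η) * (1 - rad (L η)))) * (psiV (M η') / 3))) by ring]
    simp only [← Finset.mul_sum, Finset.sum_sub_distrib, Finset.sum_add_distrib, ← Finset.sum_mul]
    simp only [cX, cPsi, cAvg]
    ring
  rw [e2, hL.tot_avg, hM.tot_avg] at le
  have : cX (tens L M) = (∑ p, magV (tens L M p)) / 3 := by simp only [cX, Finset.sum_div]
  linarith

/-- Closure of the class under products. -/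
theorem cPsi_tens_ge (hL : IsChan L) (hM : IsChan M) (pL : IsPos L) (pM : IsPos M) :
    cAvg M phiV * cPsi L + cAvg L phiV * cPsi M ≤ cPsi (tens L M) := by
  have e := sum_tens_eq (L := L) hM psiV
  have le : ∑ η, ∑ η', 2 * (tot (M η') * phiV (M η') * psiV (L η) +
      tot (L η) * phiV (L η) * psiV (M η')) ≤ 6 * ∑ p, psiV (tens L M p) := by
    rw [e]
    exact Finset.sum_le_sum fun η _ => Finset.sum_le_sum fun η' _ => psi_point (pL η) (pM η')
  have e2 : ∑ η, ∑ η', 2 * (tot (M η') * phiV (M η') * psiV (L η) +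
      tot (L η) * phiV (L η) * psiV (M η')) =
      18 * (cAvg M phiV * cPsi L + cAvg L phiV * cPsi M) := by
    rw [Finset.sum_congr rfl fun η _ => Finset.sum_congr rfl fun η' _ => show
      2 * (tot (M η') * phiV (M η') * psiV (L η) + tot (L η) * phiV (L η) * psiV (M η')) =
      18 * ((psiV (L η) / 3) * (tot (M η') / 3 * phiV (M η')) +
        (tot (L η) / 3 * phiV (L η)) * (psiV (M η') / 3)) by ring]
    simp only [← Finset.mul_sum, Finset.sum_add_distrib, ← Finset.sum_mul]
    simp only [cPsi, cAvg]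
    ring
  rw [e2] at le
  have : cPsi (tens L M) = (∑ p, psiV (tens L M p)) / 3 := by simp only [cPsi, Finset.sum_div]
  linarith

theorem cAvg_phi_nonneg (hL : IsChan L) : 0 ≤ cAvg L phiV :=
  Finset.sum_nonneg fun η _ => mul_nonneg (div_nonneg (by
    have := hL.nonneg η 0; have := hL.nonneg η 1; have := hL.nonneg η 2
    unfold tot; linarith) (by norm_num)) (phiV_nonneg (hL.nonneg η))

theorem cAvg_rad_nonneg (hL : IsChan L) : 0 ≤ cAvg L fun l => rad l * (1 - rad l) :=
  Finset.sum_nonneg fun η _ => mul_nonneg (div_nonneg (by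
    have := hL.nonneg η 0; have := hL.nonneg η 1; have := hL.nonneg η 2
    unfold tot; linarith) (by norm_num))
    (mul_nonneg (rad_nonneg _) (sub_nonneg.2 (rad_le_one (hL.nonneg η))))

/-- A channel seen through one edge. -/
noncomputable def edge (lam : ℝ) (L : Ω → Fin 3 → ℝ) (η : Ω) : Fin 3 → ℝ := push lam (L η)

theorem isChan_edge {lam : ℝ} (h0 : 0 ≤ lam) (h1 : lam ≤ 1) (hL : IsChan L) :
    IsChan (edge lam L) where
  nonneg η i := by
    have := hL.nonneg η 0; have := hL.nonneg η 1; have := hL.nonneg η 2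
    exact add_nonneg (mul_nonneg h0 (hL.nonneg η i))
      (mul_nonneg (by linarith) (by unfold tot; linarith))
  tpos η := (hL.tpos η).imp (fun h => by rw [edge, tot_push]; exact h)
    fun h => by funext i; simp [edge, push, tot, h]
  sum_one i := by
    simp only [edge, push, tot, Finset.sum_add_distrib, ← Finset.mul_sum, hL.sum_one]
    ring
  symm σ := by
    obtain ⟨e, he⟩ := hL.symm σ
    refine ⟨e, fun η i => ?_⟩
    have : tot (L (e η)) = tot (L η) := by
      have h := Equiv.sum_comp σ fun j => L η j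
      simp only [Fin.sum_univ_three] at h
      simp only [tot, he]; linarith
    simp only [edge, push, he, this]

theorem isPos_edge {lam : ℝ} (h0 : 0 ≤ lam) (h1 : lam < 1) (hL : IsChan L)
    (ht : ∀ η, 0 < tot (L η)) : IsPos (edge lam L) := fun η i =>
  add_pos_of_nonneg_of_pos (mul_nonneg h0 (hL.nonneg η i))
    (mul_pos (by linarith) (ht η))

theorem cX_edge (lam : ℝ) : cX (edge lam L) = lam ^ 2 * cX L := by
  simp only [cX, edge, magV_push, Finset.mul_sum]
  exact Finset.sum_congr rfl fun η _ => by ring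

theorem cPsi_edge {lam : ℝ} (hL : IsChan L) :
    cPsi (edge lam L) = lam ^ 3 * cPsi L + 3 / 4 * lam ^ 3 * (1 - lam) * cM L := by
  simp only [cPsi, cM, cAvg, edge, Finset.mul_sum, ← Finset.sum_add_distrib]
  refine Finset.sum_congr rfl fun η _ => ?_
  rcases hL.tpos η with h | h
  · rw [psiV_push h.ne']; ring
  · simp [h, push, psiV, psiW, qd, tot]

theorem cAvg_edge_rad {lam : ℝ} (hL : IsChan L) :
    (1 - lam ^ 2) * (lam ^ 2 * cX L) ≤ cAvg (edge lam L) fun l => rad l * (1 - rad l) := by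
  rw [cX_eq_avg hL]
  simp only [cAvg, edge, Finset.mul_sum, tot_push, rad_push]
  refine Finset.sum_le_sum fun η _ => ?_
  have ht : 0 ≤ tot (L η) / 3 := by
    have := hL.nonneg η 0; have := hL.nonneg η 1; have := hL.nonneg η 2
    refine div_nonneg ?_ (by norm_num)
    unfold tot; linarith
  have hr := rad_nonneg (L η)
  have : lam ^ 2 * rad (L η) ≤ lam ^ 2 :=
    mul_le_of_le_one_right (sq_nonneg _) (rad_le_one (hL.nonneg η))
  calc (1 - lam ^ 2) * (lam ^ 2 * (tot (L η) / 3 * rad (L η)))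
      = tot (L η) / 3 * (lam ^ 2 * rad (L η)) * (1 - lam ^ 2) := by ring
    _ ≤ tot (L η) / 3 * (lam ^ 2 * rad (L η)) * (1 - lam ^ 2 * rad (L η)) :=
        mul_le_mul_of_nonneg_left (by linarith) (by positivity)
    _ = _ := by ring

/-- The strict gain of combining two children. -/
theorem pair_gain {lam : ℝ} (h0 : 0 ≤ lam) (h1 : lam < 1) (hL : IsChan L) (hM : IsChan M)
    (tL : ∀ η, 0 < tot (L η)) (tM : ∀ η, 0 < tot (M η)) (kL : 0 ≤ cPsi L) (kM : 0 ≤ cPsi M) :
    cX (tens (edge lam L) (edge lam M)) ≤ lam ^ 2 * cX L + lam ^ 2 * cX M -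
      2 * ((1 - lam ^ 2) * lam ^ 2) * (3 / 4 * lam ^ 3 * (1 - lam)) * (cX L ^ 2 * cX M) := by
  have cl := isChan_edge h0 h1.le hL
  have cm := isChan_edge h0 h1.le hM
  refine (cX_tens_le cl cm (isPos_edge h0 h1 hL tL) (isPos_edge h0 h1 hM tM)).trans ?_
  rw [cX_edge, cX_edge, cPsi_edge hL, cPsi_edge hM]
  have hl1 : 0 ≤ 1 - lam := by linarith
  have hM0 : 0 ≤ cM L := (sq_nonneg _).trans (sq_cX_le_cM hL)
  have hM0' : 0 ≤ cM M := (sq_nonneg _).trans (sq_cX_le_cM hM)
  have a := cAvg_edge_rad (lam := lam) hM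
  have b := cAvg_rad_nonneg cl
  have pm : 0 ≤ lam ^ 3 * cPsi M + 3 / 4 * lam ^ 3 * (1 - lam) * cM M := by positivity
  have c : 3 / 4 * lam ^ 3 * (1 - lam) * cX L ^ 2 ≤
      lam ^ 3 * cPsi L + 3 / 4 * lam ^ 3 * (1 - lam) * cM L := by
    have : 0 ≤ lam ^ 3 * cPsi L := by positivity
    have := mul_le_mul_of_nonneg_left (sq_cX_le_cM hL)
      (by positivity : (0 : ℝ) ≤ 3 / 4 * lam ^ 3 * (1 - lam))
    linarith
  have := mul_le_mul a c (by positivity) (cAvg_rad_nonneg cm)
  have := mul_nonneg b pm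
  linarith

end Vale.Agent.P154.Q3
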