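import Mathlib

/-!
# The pointwise inequality behind subadditivity of the three-state magnetisation
-/

namespace Vale.Agent.P154.Q3

/-- Squared modulus of the Fourier coefficient. -/
def nsq (x y w : ℝ) : ℝ := x ^ 2 + y ^ 2 + w ^ 2 - x * y - y * w - w * x

/-- The sum of the squares of the pairwise products. -/
def qd (x y w : ℝ) : ℝ := (x * y) ^ 2 + (y * w) ^ 2 + (w * x) ^ 2

/-- Magnetisation of a weight vector. -/
noncomputable def mag (x y w : ℝ) : ℝ := nsq x y w / (x + y + w)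

/-- The class functional of a probability vector. -/
noncomputable def psi (x y w : ℝ) : ℝ := 1 / 4 - 27 / 4 * qd x y w

/-- Real part of the cube of the Fourier coefficient. -/
noncomputable def cub (x y w : ℝ) : ℝ := (3 * nsq x y w - 1) / 2 + 27 / 2 * (x * y * w)

/-- Product of the differences. -/
def vdm (x y w : ℝ) : ℝ := (x - y) * (y - w) * (w - x)

theorem cub_sq {x y w : ℝ} (h : x + y + w = 1) :
    cub x y w ^ 2 + 27 / 4 * vdm x y w ^ 2 = nsq x y w ^ 3 := by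
  obtain rfl : w = 1 - x - y := by linarith
  simp only [cub, vdm, nsq]; ring

theorem psi_eq {x y w : ℝ} (h : x + y + w = 1) :
    psi x y w = cub x y w - 3 / 4 * nsq x y w ^ 2 := by
  obtain rfl : w = 1 - x - y := by linarith
  simp only [cub, psi, qd, nsq]; ring

theorem nsq_nonneg (x y w : ℝ) : 0 ≤ nsq x y w := by
  simp only [nsq]; nlinarith [sq_nonneg (x - y), sq_nonneg (y - w), sq_nonneg (w - x)]

theorem nsq_le_one {x y w : ℝ} (hx : 0 ≤ x) (hy : 0 ≤ y) (hw : 0 ≤ w) (h : x + y + w = 1) :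
    nsq x y w ≤ 1 := by
  simp only [nsq]; nlinarith [mul_nonneg hx hy, mul_nonneg hy hw, mul_nonneg hw hx]

theorem one_var_hi {s : ℝ} (h0 : 0 ≤ s) (h1 : s ≤ 3 / 2) :
    -3 / 4 + 5 / 8 * s + 3 / 16 * s ^ 2 - 3 / 16 * s ^ 3 ≤ 0 := by
  nlinarith [mul_nonneg h0 (sub_nonneg.2 h1), sq_nonneg (s - 3 / 2), sq_nonneg (s - 1)]

theorem one_var_lo {s : ℝ} (h0 : 0 ≤ s) (h1 : s ≤ 3 / 2) :
    s ^ 2 * (-3 / 4 + 5 / 8 * s + 3 / 16 * s ^ 2 - 3 / 16 * s ^ 3) +
      (1 + s / 2 - 3 / 2 * s ^ 3) * (-(3 / 2 - s) ^ 2 / 4) ≤ 0 := by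
  nlinarith [mul_nonneg h0 (sub_nonneg.2 h1), sq_nonneg (s - 3 / 2), sq_nonneg (s - 1),
    mul_nonneg (mul_nonneg h0 (sub_nonneg.2 h1)) (sq_nonneg (s - 1)),
    mul_nonneg (mul_nonneg h0 h0) (sub_nonneg.2 h1), mul_nonneg h0 (sq_nonneg (s - 1))]

theorem e_hi {a b S : ℝ} (ha : 1 / 4 ≤ a) (ha1 : a ≤ 1) (hb : 1 / 4 ≤ b) (hb1 : b ≤ 1)
    (hS : 2 * b * (1 - b) * ((3 * a - 1) / 2 - 3 / 4 * a ^ 2) +
      2 * a * (1 - a) * ((3 * b - 1) / 2 - 3 / 4 * b ^ 2) ≤ S) :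
    -1 + (a + b) / 2 + 2 * (a * b) + (a + b) * (1 - a - b) - (3 - a - b) * S ≤ 0 := by
  have h3 : 0 ≤ 3 - a - b := by linarith
  have hS' := mul_le_mul_of_nonneg_left hS h3
  obtain ⟨A, rfl⟩ : ∃ A, a = 1 - A := ⟨1 - a, by ring⟩
  obtain ⟨B, rfl⟩ : ∃ B, b = 1 - B := ⟨1 - b, by ring⟩
  set s := A + B with hs
  set u := A * B - s ^ 2 / 4 with hu
  have u0 : u ≤ 0 := by rw [hu, hs]; nlinarith [sq_nonneg (A - B)]
  have u1 : -(3 / 2 - s) ^ 2 / 4 ≤ u := by
    rw [hu, hs]; nlinarith [mul_nonneg (sub_nonneg.2 ha) (sub_nonneg.2 hb)]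
  have s0 : 0 ≤ s := by rw [hs]; linarith
  have s1 : s ≤ 3 / 2 := by rw [hs]; linarith
  have hg : s ^ 2 * (-3 / 4 + 5 / 8 * s + 3 / 16 * s ^ 2 - 3 / 16 * s ^ 3) +
      (1 + s / 2 - 3 / 2 * s ^ 3) * u ≤ 0 := by
    rcases le_total 0 (1 + s / 2 - 3 / 2 * s ^ 3) with h | h
    · have := mul_nonpos_of_nonneg_of_nonpos h u0
      have := mul_nonpos_of_nonneg_of_nonpos (sq_nonneg s) (one_var_hi s0 s1)
      linarith
    · have := mul_le_mul_of_nonpos_left u1 h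
      have := one_var_lo s0 s1
      linarith
  have hsq : 0 ≤ 3 * (1 + s) * u ^ 2 := by positivity
  have e : -1 + (1 - A + (1 - B)) / 2 + 2 * ((1 - A) * (1 - B)) +
      (1 - A + (1 - B)) * (1 - (1 - A) - (1 - B)) - (3 - (1 - A) - (1 - B)) *
        (2 * (1 - B) * (1 - (1 - B)) * ((3 * (1 - A) - 1) / 2 - 3 / 4 * (1 - A) ^ 2) +
          2 * (1 - A) * (1 - (1 - A)) * ((3 * (1 - B) - 1) / 2 - 3 / 4 * (1 - B) ^ 2)) =
      s ^ 2 * (-3 / 4 + 5 / 8 * s + 3 / 16 * s ^ 2 - 3 / 16 * s ^ 3) +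
        (1 + s / 2 - 3 / 2 * s ^ 3) * u - 3 * (1 + s) * u ^ 2 := by
    rw [hu, hs]; ring
  linarith

theorem e_mid {a b S : ℝ} (ha : 0 ≤ a) (ha1 : a ≤ 1 / 4) (hb : 1 / 4 ≤ b) (hb1 : b ≤ 1)
    (hS : 2 * b * (1 - b) * (-a / 2 - 3 / 4 * a ^ 2) +
      2 * a * (1 - a) * ((3 * b - 1) / 2 - 3 / 4 * b ^ 2) ≤ S) :
    -1 + (a + b) / 2 + 2 * (a * b) + (a + b) * (1 - a - b) - (3 - a - b) * S ≤ 0 := by
  have h3 : 0 ≤ 3 - a - b := by linarith
  nlinarith [mul_le_mul_of_nonneg_left hS h3, sq_nonneg (a - b), mul_nonneg (sub_nonneg.2 ha1)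
    (sub_nonneg.2 hb), mul_nonneg ha (sub_nonneg.2 hb1), mul_nonneg ha (sub_nonneg.2 hb),
    mul_nonneg (sub_nonneg.2 ha1) (sub_nonneg.2 hb1),
    mul_nonneg (mul_nonneg ha (sub_nonneg.2 hb1)) (sub_nonneg.2 hb),
    mul_nonneg (mul_nonneg ha (sub_nonneg.2 ha1)) (sub_nonneg.2 hb),
    sq_nonneg (a + b - 1), sq_nonneg (b - 1)]

theorem e_lo {a b S : ℝ} (ha : 0 ≤ a) (ha1 : a ≤ 1 / 4) (hb : 0 ≤ b) (hb1 : b ≤ 1 / 4)
    (hS : 2 * b * (1 - b) * (-a / 2 - 3 / 4 * a ^ 2) +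
      2 * a * (1 - a) * (-b / 2 - 3 / 4 * b ^ 2) ≤ S) :
    -1 + (a + b) / 2 + 2 * (a * b) + (a + b) * (1 - a - b) - (3 - a - b) * S ≤ 0 := by
  have h3 : 0 ≤ 3 - a - b := by linarith
  have hS' := mul_le_mul_of_nonneg_left hS h3
  have hc : 0 ≤ 2 + (3 - a - b) * (2 + (a + b) / 2) := by
    have : 0 ≤ (3 - a - b) * (2 + (a + b) / 2) := mul_nonneg h3 (by linarith)
    linarith
  have hp : a * b ≤ (a + b) ^ 2 / 4 := by nlinarith [sq_nonneg (a - b)]
  have hp' := mul_le_mul_of_nonneg_left hp hc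
  have hq : 0 ≤ 3 * (a * b) ^ 2 * (3 - a - b) := by positivity
  have hv : -1 + 3 / 2 * (a + b) - (a + b) ^ 2 +
      (2 + (3 - a - b) * (2 + (a + b) / 2)) * ((a + b) ^ 2 / 4) ≤ 0 := by
    nlinarith [mul_nonneg (add_nonneg ha hb) (show 0 ≤ 1 / 2 - (a + b) by linarith),
      sq_nonneg (a + b)]
  linarith

theorem e_nonpos {a b X Y : ℝ} (ha : 0 ≤ a) (ha1 : a ≤ 1) (hb : 0 ≤ b) (hb1 : b ≤ 1)
    (hX : (3 * a - 1) / 2 ≤ X) (hY : (3 * b - 1) / 2 ≤ Y) (hX2 : X ^ 2 ≤ a ^ 3)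
    (hY2 : Y ^ 2 ≤ b ^ 3) :
    -1 + (a + b) / 2 + 2 * (a * b) + (a + b) * (1 - a - b) - (3 - a - b) *
      (2 * b * (1 - b) * (X - 3 / 4 * a ^ 2) + 2 * a * (1 - a) * (Y - 3 / 4 * b ^ 2)) ≤ 0 := by
  have low : ∀ {c Z : ℝ}, 0 ≤ c → c ≤ 1 / 4 → Z ^ 2 ≤ c ^ 3 → -c / 2 ≤ Z := by
    intro c Z hc hc1 h
    nlinarith [mul_le_mul_of_nonneg_left hc1 (sq_nonneg c), sq_nonneg (Z - c / 2)]
  have pa : 0 ≤ 2 * a * (1 - a) := by have := sub_nonneg.2 ha1; positivity
  have pb : 0 ≤ 2 * b * (1 - b) := by have := sub_nonneg.2 hb1; positivity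
  rcases le_total a (1 / 4) with h | h <;> rcases le_total b (1 / 4) with k | k
  · refine e_lo ha h hb k (add_le_add ?_ ?_)
    · exact mul_le_mul_of_nonneg_left (by linarith [low ha h hX2]) pb
    · exact mul_le_mul_of_nonneg_left (by linarith [low hb k hY2]) pa
  · refine e_mid ha h k hb1 (add_le_add ?_ ?_)
    · exact mul_le_mul_of_nonneg_left (by linarith [low ha h hX2]) pb
    · exact mul_le_mul_of_nonneg_left (by linarith) pa
  · have h1 := mul_le_mul_of_nonneg_left (show -b / 2 - 3 / 4 * b ^ 2 ≤ Y - 3 / 4 * b ^ 2 by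
      linarith [low hb k hY2]) pa
    have h2 := mul_le_mul_of_nonneg_left (show (3 * a - 1) / 2 - 3 / 4 * a ^ 2 ≤
      X - 3 / 4 * a ^ 2 by linarith) pb
    have := e_mid (S := 2 * b * (1 - b) * (X - 3 / 4 * a ^ 2) +
      2 * a * (1 - a) * (Y - 3 / 4 * b ^ 2)) hb k h ha1 (by linarith)
    linarith
  · refine e_hi h ha1 k hb1 (add_le_add ?_ ?_)
    · exact mul_le_mul_of_nonneg_left (by linarith) pb
    · exact mul_le_mul_of_nonneg_left (by linarith) pa

theorem mag_key {x y w x' y' w' : ℝ} (h : x + y + w = 1) (h' : x' + y' + w' = 1) :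
    27 * (nsq (x * x') (y * y') (w * w') * ((x * y' + y * w' + w * x') * (x * w' + y * x' + w * y')) +
        nsq (x * y') (y * w') (w * x') * ((x * x' + y * y' + w * w') * (x * w' + y * x' + w * y')) +
        nsq (x * w') (y * x') (w * y') * ((x * x' + y * y' + w * w') * (x * y' + y * w' + w * x'))) -
      (nsq x y w + nsq x' y' w') *
        (27 * ((x * x' + y * y' + w * w') * (x * y' + y * w' + w * x') *
          (x * w' + y * x' + w * y'))) =
      -(1 - nsq x y w) ^ 2 * (1 - nsq x' y' w') ^ 2 -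
      27 * (nsq x' y' w' * (1 - nsq x' y' w') * (x * y * w) +
        nsq x y w * (1 - nsq x y w) * (x' * y' * w')) +
      (1 - nsq x y w - nsq x' y' w') *
        (27 * ((x * x' + y * y' + w * w') * (x * y' + y * w' + w * x') *
          (x * w' + y * x' + w * y'))) := by
  obtain rfl : w = 1 - x - y := by linarith
  obtain rfl : w' = 1 - x' - y' := by linarith
  simp only [nsq]
  ring

theorem q_eq {x y w x' y' w' : ℝ} (h : x + y + w = 1) (h' : x' + y' + w' = 1) :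
    (27 * ((x * x' + y * y' + w * w') * (x * y' + y * w' + w * x') *
        (x * w' + y * x' + w * y')) - 1 + 3 * (nsq x y w * nsq x' y' w')) / 2 =
      cub x y w * cub x' y' w' + 27 / 4 * (vdm x y w * vdm x' y' w') := by
  obtain rfl : w = 1 - x - y := by linarith
  obtain rfl : w' = 1 - x' - y' := by linarith
  simp only [nsq, cub, vdm]
  ring

theorem two_q_le {x y w x' y' w' : ℝ} (h : x + y + w = 1) (h' : x' + y' + w' = 1) :
    27 * ((x * x' + y * y' + w * w') * (x * y' + y * w' + w * x') *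
        (x * w' + y * x' + w * y')) - 1 + 3 * (nsq x y w * nsq x' y' w') ≤
      nsq x y w * nsq x' y' w' * (nsq x y w + nsq x' y' w') := by
  have e := q_eq h h'
  have cx := cub_sq h
  have cy := cub_sq h'
  have a0 := nsq_nonneg x y w
  have b0 := nsq_nonneg x' y' w'
  generalize nsq x y w = a at *
  generalize nsq x' y' w' = b at *
  generalize cub x y w = X at *
  generalize cub x' y' w' = Y at *
  generalize vdm x y w = U at *
  generalize vdm x' y' w' = W at *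
  have h2 : (2 * (X * Y + 27 / 4 * (U * W))) ^ 2 ≤ (a * b * (a + b)) ^ 2 := by
    have : (X * Y + 27 / 4 * (U * W)) ^ 2 ≤ a ^ 3 * b ^ 3 := by
      rw [← cx, ← cy]
      nlinarith [sq_nonneg (X * W - U * Y)]
    nlinarith [mul_nonneg (mul_nonneg (sq_nonneg a) (sq_nonneg b)) (sq_nonneg (a - b))]
  have hr : 0 ≤ a * b * (a + b) := by positivity
  have := le_of_sq_le_sq h2 hr
  linarith

theorem e_final {a b e f X Y P C : ℝ} (a0 : 0 ≤ a) (a1 : a ≤ 1) (b0 : 0 ≤ b) (b1 : b ≤ 1)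
    (he : 0 ≤ e) (hf : 0 ≤ f) (hX : X = (3 * a - 1) / 2 + 27 / 2 * e)
    (hY : Y = (3 * b - 1) / 2 + 27 / 2 * f) (hX2 : X ^ 2 ≤ a ^ 3) (hY2 : Y ^ 2 ≤ b ^ 3)
    (hP : P - 1 + 3 * (a * b) ≤ a * b * (a + b)) (hC0 : 0 ≤ C)
    (hC : C = 1 - a - b +
      (2 * b * (1 - b) * (X - 3 / 4 * a ^ 2) + 2 * a * (1 - a) * (Y - 3 / 4 * b ^ 2))) :
    -(1 - a) ^ 2 * (1 - b) ^ 2 - 27 * (b * (1 - b) * e + a * (1 - a) * f) + C * P ≤ 0 := by
  have hE := e_nonpos a0 a1 b0 b1 (by linarith) (by linarith) hX2 hY2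
  have e3 := mul_nonpos_of_nonneg_of_nonpos (mul_nonneg a0 b0) hE
  have e4 := mul_le_mul_of_nonneg_left hP hC0
  subst hC hX hY
  linarith

/-- One orientation of the magnetisation inequality. -/
theorem mag_coset {x y w x' y' w' : ℝ} (hx : 0 < x) (hy : 0 < y) (hw : 0 < w) (hx' : 0 < x')
    (hy' : 0 < y') (hw' : 0 < w') (h : x + y + w = 1) (h' : x' + y' + w' = 1) :
    mag (x * x') (y * y') (w * w') + mag (x * y') (y * w') (w * x') +
      mag (x * w') (y * x') (w * y') ≤ nsq x y w + nsq x' y' w' -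
        2 * nsq x' y' w' * (1 - nsq x' y' w') * psi x y w -
        2 * nsq x y w * (1 - nsq x y w) * psi x' y' w' := by
  set a := nsq x y w with ha
  set b := nsq x' y' w' with hb
  set S₀ := x * x' + y * y' + w * w' with hS₀
  set S₁ := x * y' + y * w' + w * x' with hS₁
  set S₂ := x * w' + y * x' + w * y' with hS₂
  have h0 : 0 < S₀ := by positivity
  have h1 : 0 < S₁ := by positivity
  have h2 : 0 < S₂ := by positivity
  have hP : 0 < 27 * (S₀ * S₁ * S₂) := by positivity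
  set C := 1 - a - b + (2 * b * (1 - b) * psi x y w + 2 * a * (1 - a) * psi x' y' w') with hC
  set L := mag (x * x') (y * y') (w * w') + mag (x * y') (y * w') (w * x') +
      mag (x * w') (y * x') (w * y') - (a + b - 2 * b * (1 - b) * psi x y w -
        2 * a * (1 - a) * psi x' y' w') with hL
  have key : L * (27 * (S₀ * S₁ * S₂)) = -(1 - a) ^ 2 * (1 - b) ^ 2 -
      27 * (b * (1 - b) * (x * y * w) + a * (1 - a) * (x' * y' * w')) +
      C * (27 * (S₀ * S₁ * S₂)) := by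
    have e := mag_key h h'
    rw [← ha, ← hb] at e
    have f : (mag (x * x') (y * y') (w * w') + mag (x * y') (y * w') (w * x') +
        mag (x * w') (y * x') (w * y')) * (S₀ * S₁ * S₂) =
        nsq (x * x') (y * y') (w * w') * (S₁ * S₂) + nsq (x * y') (y * w') (w * x') * (S₀ * S₂) +
          nsq (x * w') (y * x') (w * y') * (S₀ * S₁) := by
      simp only [mag, ← hS₀, ← hS₁, ← hS₂]
      field_simp
    simp only [← hS₀, ← hS₁, ← hS₂] at e
    rw [hL, hC]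
    linear_combination 27 * f + e
  have a0 := nsq_nonneg x y w
  have b0 := nsq_nonneg x' y' w'
  have a1 := nsq_le_one hx.le hy.le hw.le h
  have b1 := nsq_le_one hx'.le hy'.le hw'.le h'
  rw [← ha] at a0 a1
  rw [← hb] at b0 b1
  suffices L ≤ 0 by rw [hL] at this; linarith
  by_contra hpos
  have hpos' : 0 < L * (27 * (S₀ * S₁ * S₂)) := mul_pos (not_le.1 hpos) hP
  have t1 : 0 ≤ b * (1 - b) * (x * y * w) := by have := sub_nonneg.2 b1; positivity
  have t2 : 0 ≤ a * (1 - a) * (x' * y' * w') := by have := sub_nonneg.2 a1; positivity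
  have t3 : 0 ≤ (1 - a) ^ 2 * (1 - b) ^ 2 := by positivity
  have hCpos : 0 < C := by
    by_contra hc
    have := mul_nonpos_of_nonpos_of_nonneg (not_lt.1 hc) hP.le
    linarith
  -- the oscillating factor
  set Q := (27 * (S₀ * S₁ * S₂) - 1 + 3 * (a * b)) / 2 with hQ
  have hQb : 2 * Q ≤ a * b * (a + b) := by
    have := two_q_le h h'
    rw [← ha, ← hb, ← hS₀, ← hS₁, ← hS₂] at this
    rw [hQ]; linarith
  have cx := cub_sq h
  have cy := cub_sq h'
  rw [← ha] at cx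
  rw [← hb] at cy
  have hE := e_final a0 a1 b0 b1 (e := x * y * w) (f := x' * y' * w') (by positivity) (by positivity)
    (X := cub x y w) (Y := cub x' y' w') rfl rfl (by linarith [sq_nonneg (vdm x y w)])
    (by linarith [sq_nonneg (vdm x' y' w')]) (P := 27 * (S₀ * S₁ * S₂))
    (show 27 * (S₀ * S₁ * S₂) - 1 + 3 * (a * b) ≤ a * b * (a + b) by rw [hQ] at hQb; linarith)
    (C := C) hCpos.le (by rw [hC, psi_eq h, psi_eq h', ← ha, ← hb])
  rw [key] at hpos'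
  linarith

end Vale.Agent.P154.Q3
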