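import Vale.Agent.P154.Cert
import Vale.Agent.P154.Mag

/-!
# Closure of the class: from the certificate to the pointwise inequality
-/

namespace Vale.Agent.P154.Q3

/-- The homogeneous closure inequality. -/
def CI (x y w x' y' w' : ℝ) : Prop :=
  gLHS (2 : ℝ) 3 27 x y w x' y' w' ≤ gRHS (2 : ℝ) 3 27 x y w x' y' w'

theorem gNum_rot (x y w x' y' w' : ℝ) : gNum x y w y' w' x' = gNum x y w x' y' w' := by
  unfold gNum gCube gQd; ring
theorem gPi3_rot (x y w x' y' w' : ℝ) : gPi3 x y w y' w' x' = gPi3 x y w x' y' w' := by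
  unfold gPi3 gCube; ring
theorem gNum_swap (x y w x' y' w' : ℝ) : gNum y x w y' x' w' = gNum x y w x' y' w' := by
  unfold gNum gCube gQd; ring
theorem gPi3_swap (x y w x' y' w' : ℝ) : gPi3 y x w y' x' w' = gPi3 x y w x' y' w' := by
  unfold gPi3 gCube; ring
theorem gNum_cyc (x y w x' y' w' : ℝ) : gNum y w x y' w' x' = gNum x y w x' y' w' := by
  unfold gNum gCube gQd; ring
theorem gPi3_cyc (x y w x' y' w' : ℝ) : gPi3 y w x y' w' x' = gPi3 x y w x' y' w' := by
  unfold gPi3 gCube; ring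
theorem gSum_rot (x y w : ℝ) : gSum y w x = gSum x y w := by unfold gSum; ring
theorem gSum_swap (x y w : ℝ) : gSum y x w = gSum x y w := by unfold gSum; ring
theorem gQd_rot (x y w : ℝ) : gQd y w x = gQd x y w := by unfold gQd; ring
theorem gQd_swap (x y w : ℝ) : gQd y x w = gQd x y w := by unfold gQd; ring
theorem gP5_rot (x y w : ℝ) : gP5 y w x = gP5 x y w := by simp only [gP5, gSum_rot]
theorem gP5_swap (x y w : ℝ) : gP5 y x w = gP5 x y w := by simp only [gP5, gSum_swap]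
theorem gP6_rot (x y w : ℝ) : gP6 y w x = gP6 x y w := by simp only [gP6, gSum_rot]
theorem gP6_swap (x y w : ℝ) : gP6 y x w = gP6 x y w := by simp only [gP6, gSum_swap]
theorem gPhi_rot (x y w : ℝ) : gPhi (3 : ℝ) 27 y w x = gPhi 3 27 x y w := by
  unfold gPhi gCube gSum; ring
theorem gPhi_swap (x y w : ℝ) : gPhi (3 : ℝ) 27 y x w = gPhi 3 27 x y w := by
  unfold gPhi gCube gSum; ring

variable {x y w x' y' w' : ℝ}

theorem ci_rot (h : CI x y w x' y' w') : CI x y w y' w' x' := by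
  simp only [CI, gLHS, gRHS, gNum_rot, gPi3_rot, gSum_rot, gQd_rot, gP5_rot, gP6_rot,
    gPhi_rot] at h ⊢
  exact h

theorem ci_cyc (h : CI x y w x' y' w') : CI y w x y' w' x' := by
  simp only [CI, gLHS, gRHS, gNum_cyc, gPi3_cyc, gSum_rot, gQd_rot, gP5_rot, gP6_rot,
    gPhi_rot] at h ⊢
  exact h

theorem ci_swap (h : CI x y w x' y' w') : CI y x w y' x' w' := by
  simp only [CI, gLHS, gRHS, gNum_swap, gPi3_swap, gSum_swap, gQd_swap, gP5_swap, gP6_swap,
    gPhi_swap] at h ⊢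
  exact h

theorem gSum_scale (k x y w : ℝ) : gSum (k * x) (k * y) (k * w) = k * gSum x y w := by
  unfold gSum; ring
theorem gP5_scale (k x y w : ℝ) : gP5 (k * x) (k * y) (k * w) = k ^ 5 * gP5 x y w := by
  unfold gP5; rw [gSum_scale]; ring
theorem gP6_scale (k x y w : ℝ) : gP6 (k * x) (k * y) (k * w) = k ^ 6 * gP6 x y w := by
  unfold gP6 gCube; rw [gSum_scale]; ring
theorem gQd_scale (k x y w : ℝ) : gQd (k * x) (k * y) (k * w) = k ^ 4 * gQd x y w := by
  unfold gQd; ring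
theorem gPhi_scale (k x y w : ℝ) :
    gPhi (3 : ℝ) 27 (k * x) (k * y) (k * w) = k ^ 6 * gPhi 3 27 x y w := by
  unfold gPhi gCube gSum; ring
theorem gPi3_scale (k l x y w x' y' w' : ℝ) :
    gPi3 (k * x) (k * y) (k * w) (l * x') (l * y') (l * w') =
      k ^ 9 * l ^ 9 * gPi3 x y w x' y' w' := by
  unfold gPi3 gCube; ring
theorem gNum_scale (k l x y w x' y' w' : ℝ) :
    gNum (k * x) (k * y) (k * w) (l * x') (l * y') (l * w') =
      k ^ 10 * l ^ 10 * gNum x y w x' y' w' := by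
  unfold gNum gCube gQd; ring

theorem ci_scale {k l : ℝ} (hk : 0 < k) (hl : 0 < l)
    (h : CI x y w x' y' w') : CI (k * x) (k * y) (k * w) (l * x') (l * y') (l * w') := by
  have e1 : gLHS (2 : ℝ) 3 27 (k * x) (k * y) (k * w) (l * x') (l * y') (l * w') =
      gNum x y w x' y' w' * (2 * 27 * gP5 x y w) * gP5 x' y' w' * (k ^ 15 * l ^ 15) +
        (gPi3 x y w x' y' w' * gP6 x y w * gPhi 3 27 x' y' w' +
          gPi3 x y w x' y' w' * gPhi 3 27 x y w * gP6 x' y' w') * (k ^ 15 * l ^ 15) := by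
    simp only [gLHS, gNum_scale, gPi3_scale, gP5_scale, gP6_scale, gPhi_scale]; ring
  simp only [CI] at h ⊢
  rw [e1]
  simp only [gLHS] at h
  simp only [gRHS, gPi3_scale, gSum_scale, gP6_scale, gQd_scale, gPhi_scale]
  simp only [gRHS] at h
  nlinarith [mul_le_mul_of_nonneg_left h (by positivity : (0:ℝ) ≤ k ^ 15 * l ^ 15)]

theorem ci_sorted (hx : 0 < x) (h1 : x ≤ y) (h2 : y ≤ w) (hx' : 0 < x') (h1' : x' ≤ y')
    (h2' : y' ≤ w') : CI x y w x' y' w' ∧ CI x y w w' y' x' := by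
  have e1 : (y - x) / x ≥ 0 := div_nonneg (by linarith) hx.le
  have e2 : (w - y) / x ≥ 0 := div_nonneg (by linarith) hx.le
  have e3 : (y' - x') / x' ≥ 0 := div_nonneg (by linarith) hx'.le
  have e4 : (w' - y') / x' ≥ 0 := div_nonneg (by linarith) hx'.le
  have a := ci_scale hx hx' (show CI 1 (1 + (y - x) / x) (1 + (y - x) / x + (w - y) / x) 1
    (1 + (y' - x') / x') (1 + (y' - x') / x' + (w' - y') / x') from cert_fwd e1 e2 e3 e4)
  have b := ci_scale hx hx' (show CI 1 (1 + (y - x) / x) (1 + (y - x) / x + (w - y) / x)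
    (1 + (y' - x') / x' + (w' - y') / x') (1 + (y' - x') / x') 1 from cert_rev e1 e2 e3 e4)
  rw [show x * 1 = x by ring, show x * (1 + (y - x) / x) = y by field_simp; ring,
    show x * (1 + (y - x) / x + (w - y) / x) = w by field_simp; ring,
    show x' * 1 = x' by ring, show x' * (1 + (y' - x') / x') = y' by field_simp; ring,
    show x' * (1 + (y' - x') / x' + (w' - y') / x') = w' by field_simp; ring] at a b
  exact ⟨a, b⟩

theorem ci_left_sorted (hx : 0 < x) (h1 : x ≤ y) (h2 : y ≤ w) (hx' : 0 < x') (hy' : 0 < y')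
    (hw' : 0 < w') : CI x y w x' y' w' := by
  rcases le_total x' y' with a | a
  · rcases le_total y' w' with b | b
    · exact (ci_sorted hx h1 h2 hx' a b).1
    · rcases le_total x' w' with c | c
      · exact ci_rot (ci_rot (ci_sorted hx h1 h2 hx' c b).2)
      · exact ci_rot (ci_sorted hx h1 h2 hw' c a).1
  · rcases le_total y' w' with b | b
    · rcases le_total x' w' with c | c
      · exact ci_rot (ci_sorted hx h1 h2 hy' a c).2
      · exact ci_rot (ci_rot (ci_sorted hx h1 h2 hy' b c).1)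
    · exact (ci_sorted hx h1 h2 hw' b a).2

theorem ci_all (hx : 0 < x) (hy : 0 < y) (hw : 0 < w) (hx' : 0 < x') (hy' : 0 < y')
    (hw' : 0 < w') : CI x y w x' y' w' := by
  rcases le_total x y with a | a
  · rcases le_total y w with b | b
    · exact ci_left_sorted hx a b hx' hy' hw'
    · rcases le_total x w with c | c
      · exact ci_cyc (ci_swap (ci_left_sorted (x := x) (y := w)
          (w := y) hx c b hx' hw' hy'))
      · exact ci_cyc (ci_left_sorted (x := w) (y := x) (w := y) hw c a hw' hx' hy')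
  · rcases le_total y w with b | b
    · rcases le_total x w with c | c
      · exact ci_swap (ci_left_sorted (x := y) (y := x) (w := w) hy a c hy' hx' hw')
      · exact ci_cyc (ci_cyc (ci_left_sorted (x := y) (y := w) (w := x) hy b c hy' hw' hx'))
    · exact ci_cyc (ci_cyc (ci_swap (ci_left_sorted (x := w) (y := y) (w := x) hw b a hw' hy' hx')))

/-- The weight in the closure inequality. -/
noncomputable def phi (x y w : ℝ) : ℝ := gPhi (3 : ℝ) 27 x y w / 2

/-- The functional of the class on weight vectors. -/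
noncomputable def psiW (x y w : ℝ) : ℝ := (x + y + w) / 4 - 27 / 4 * qd x y w / (x + y + w) ^ 3

theorem psi_coset_alg {S₀ S₁ S₂ q0 q1 q2 u u' f f' : ℝ} (h0 : 0 < S₀) (h1 : 0 < S₁) (h2 : 0 < S₂)
    (hs : S₀ + S₁ + S₂ = 1)
    (H : (q0 * ((S₁ * S₂) * (S₁ * S₂) * (S₁ * S₂)) + q1 * ((S₀ * S₂) * (S₀ * S₂) * (S₀ * S₂)) +
        q2 * ((S₀ * S₁) * (S₀ * S₁) * (S₀ * S₁))) * 54 +
        (S₀ * S₁ * S₂) * (S₀ * S₁ * S₂) * (S₀ * S₁ * S₂) * (f' + f) ≤
      (S₀ * S₁ * S₂) * (S₀ * S₁ * S₂) * (S₀ * S₁ * S₂) * (2 + 27 * u * f' + 27 * u' * f)) :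
    f' / 2 * (1 / 4 - 27 / 4 * u) + f / 2 * (1 / 4 - 27 / 4 * u') ≤
      S₀ / 4 - 27 / 4 * q0 / S₀ ^ 3 + (S₁ / 4 - 27 / 4 * q1 / S₁ ^ 3) +
        (S₂ / 4 - 27 / 4 * q2 / S₂ ^ 3) := by
  have hp : 0 < (S₀ * S₁ * S₂) ^ 3 := by positivity
  have e : q0 / S₀ ^ 3 + q1 / S₁ ^ 3 + q2 / S₂ ^ 3 ≤
      (2 + (27 * u - 1) * f' + (27 * u' - 1) * f) / 54 := by
    rw [show q0 / S₀ ^ 3 + q1 / S₁ ^ 3 + q2 / S₂ ^ 3 =
      (q0 * (S₁ * S₂) ^ 3 + q1 * (S₀ * S₂) ^ 3 + q2 * (S₀ * S₁) ^ 3) / (S₀ * S₁ * S₂) ^ 3 by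
      field_simp, div_le_iff₀ hp]
    linarith
  have e' : 27 / 4 * q0 / S₀ ^ 3 + 27 / 4 * q1 / S₁ ^ 3 + 27 / 4 * q2 / S₂ ^ 3 =
      27 / 4 * (q0 / S₀ ^ 3 + q1 / S₁ ^ 3 + q2 / S₂ ^ 3) := by ring
  linarith

/-- One orientation of the closure inequality. -/
theorem psi_coset (hx : 0 < x) (hy : 0 < y) (hw : 0 < w) (hx' : 0 < x') (hy' : 0 < y')
    (hw' : 0 < w') (h : x + y + w = 1) (h' : x' + y' + w' = 1) :
    phi x' y' w' * psi x y w + phi x y w * psi x' y' w' ≤
      psiW (x * x') (y * y') (w * w') + psiW (x * y') (y * w') (w * x') +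
        psiW (x * w') (y * x') (w * y') := by
  have H := ci_all hx hy hw hx' hy' hw'
  have s1 : gSum x y w = 1 := h
  have s2 : gSum x' y' w' = 1 := h'
  set S₀ := x * x' + y * y' + w * w' with hS₀
  set S₁ := x * y' + y * w' + w * x' with hS₁
  set S₂ := x * w' + y * x' + w * y' with hS₂
  have h0 : 0 < S₀ := by positivity
  have h1 : 0 < S₁ := by positivity
  have h2 : 0 < S₂ := by positivity
  have hs : S₀ + S₁ + S₂ = 1 := by
    rw [hS₀, hS₁, hS₂]
    linear_combination (x' + y' + w') * h + h'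
  have q : ∀ u v t : ℝ, gQd u v t = qd u v t := fun u v t => by unfold gQd qd; ring
  simp only [CI, gLHS, gRHS, gP5, gP6, gCube, s1, s2, q, gNum, gPi3, ← hS₀, ← hS₁, ← hS₂] at H
  simp only [phi, psi, psiW, ← hS₀, ← hS₁, ← hS₂]
  generalize gPhi (3 : ℝ) 27 x y w = f at *
  generalize gPhi (3 : ℝ) 27 x' y' w' = f' at *
  generalize qd x y w = u at *
  generalize qd x' y' w' = u' at *
  generalize qd (x * x') (y * y') (w * w') = q0 at *
  generalize qd (x * y') (y * w') (w * x') = q1 at *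
  generalize qd (x * w') (y * x') (w * y') = q2 at *
  clear_value S₀ S₁ S₂
  exact psi_coset_alg h0 h1 h2 hs (by linarith only [H])

end Vale.Agent.P154.Q3
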