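import Vale.Agent.P154.Limit

/-!
# Extinction at `λ = 1`
-/

namespace Vale.Agent.P154.Q3

open scoped BigOperators Topology
open Filter

variable {d lam : ℝ}

theorem potts_nonneg (h0 : 0 ≤ lam) (h1 : lam ≤ 1) (i j : Fin 3) : 0 ≤ potts lam i j := by
  unfold potts
  have : 0 ≤ (1 - lam) / 3 := by linarith
  split <;> positivity

theorem potts_sum_one (lam : ℝ) (i : Fin 3) : ∑ j, potts lam i j = 1 := by
  fin_cases i <;> simp [potts, Fin.sum_univ_three] <;> ring

theorem lik_nonneg (h0 : 0 ≤ lam) (h1 : lam ≤ 1) :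
    ∀ (n : ℕ) (t : RTree n) η i, 0 ≤ lik lam n t η i
  | 0, _, η, i => by simp only [lik]; split <;> norm_num
  | n + 1, t, η, i => Finset.prod_nonneg fun c _ => Finset.sum_nonneg fun j _ =>
      mul_nonneg (potts_nonneg h0 h1 i j) (lik_nonneg h0 h1 n _ _ j)

theorem sum_split {n k : ℕ} (f : Fin k → RTree n) (g : (Leaf (n + 1) (node f) → Fin 3) → ℝ) :
    ∑ η, g η = ∑ q : ∀ c : Fin k, Leaf n (f c) → Fin 3, g (fun v => q v.1 v.2) := by
  refine Fintype.sum_equiv (Equiv.piCurry fun (c : Fin k) (_ : Leaf n (f c)) => Fin 3) _ _ ?_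
  intro η
  rfl

theorem lik_sum_one : ∀ (n : ℕ) (t : RTree n) (i : Fin 3), ∑ η, lik lam n t η i = 1
  | 0, t, i => by
    simp only [lik]
    rw [Finset.sum_eq_single (fun _ => i)] <;> simp
    exact fun η hη h => hη (funext fun u => by cases u; exact h)
  | n + 1, ⟨k, f⟩, i => by
    show ∑ η, lik lam (n + 1) (node f) η i = 1
    rw [sum_split f]
    show ∑ q : ∀ c : Fin k, Leaf n (f c) → Fin 3,
      ∏ c : Fin k, ∑ j, potts lam i j * lik lam n (f c) (q c) j = 1
    refine (Fintype.prod_sum fun c (η : Leaf n (f c) → Fin 3) =>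
      ∑ j, potts lam i j * lik lam n (f c) η j).symm.trans (Finset.prod_eq_one fun c _ => ?_)
    rw [Finset.sum_comm, Finset.sum_congr rfl fun j _ => by
      rw [← Finset.mul_sum, lik_sum_one n (f c) j, mul_one]]
    exact potts_sum_one lam i

/-- Difference between joint law and product of marginals. -/
noncomputable def dev (lam : ℝ) (n : ℕ) (t : RTree n) (η : Leaf n t → Fin 3) (i : Fin 3) : ℝ :=
  lik lam n t η i / 3 - (∑ j, lik lam n t η j / 3) / 3

theorem abs_dev_le (h0 : 0 ≤ lam) (h1 : lam ≤ 1) (n : ℕ) (t : RTree n) (η : Leaf n t → Fin 3)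
    (i : Fin 3) : |dev lam n t η i| ≤ lik lam n t η i / 3 + (∑ j, lik lam n t η j / 3) / 3 := by
  have a := lik_nonneg h0 h1 n t η i
  have b : 0 ≤ (∑ j, lik lam n t η j / 3) / 3 := div_nonneg (Finset.sum_nonneg fun j _ =>
    div_nonneg (lik_nonneg h0 h1 n t η j) (by norm_num)) (by norm_num)
  rw [dev, abs_le]; constructor <;> linarith

theorem treeAdv_le_one (h0 : 0 ≤ lam) (h1 : lam ≤ 1) (n : ℕ) (t : RTree n) :
    treeAdv lam n t ≤ 1 := by
  unfold treeAdv
  refine (mul_le_mul_of_nonneg_left (Finset.sum_le_sum fun η _ => Finset.sum_le_sum fun i _ =>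
    abs_dev_le h0 h1 n t η i) (by norm_num : (0:ℝ) ≤ 1 / 2)).trans (le_of_eq ?_)
  simp only [Fin.sum_univ_three, Finset.sum_add_distrib, ← Finset.sum_div, lik_sum_one]
  norm_num

/-- Indicator that there is no vertex at distance `n`. -/
noncomputable def extinct : (n : ℕ) → RTree n → ℝ
  | 0, _ => 0
  | n + 1, t => ∏ c : Fin t.1, extinct n (t.2 c)

theorem extinct_zero_or : ∀ (n : ℕ) (t : RTree n),
    extinct n t = 0 ∨ (extinct n t = 1 ∧ IsEmpty (Leaf n t))
  | 0, _ => Or.inl rfl
  | n + 1, t => by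
    by_cases h : ∀ c : Fin t.1, extinct n (t.2 c) = 1
    · refine Or.inr ⟨Finset.prod_eq_one fun c _ => h c, ⟨fun v => ?_⟩⟩
      rcases extinct_zero_or n (t.2 v.1) with e | ⟨_, e⟩
      · rw [h] at e; norm_num at e
      · exact e.false v.2
    · push Not at h
      obtain ⟨c, hc⟩ := h
      exact Or.inl (Finset.prod_eq_zero (Finset.mem_univ c)
        ((extinct_zero_or n (t.2 c)).resolve_right fun e => hc e.1))

theorem lik_empty : ∀ (n : ℕ) (t : RTree n), IsEmpty (Leaf n t) → ∀ η i j,
    lik lam n t η i = lik lam n t η j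
  | 0, _, h, _, _, _ => (h.false ()).elim
  | n + 1, t, h, η, i, j => by
    refine Finset.prod_congr rfl fun c _ => ?_
    have he : IsEmpty (Leaf n (t.2 c)) := ⟨fun v => h.false ⟨c, v⟩⟩
    have e : ∀ k, lik lam n (t.2 c) (fun v => η ⟨c, v⟩) k = lik lam n (t.2 c) (fun v => η ⟨c, v⟩) i :=
      fun k => lik_empty n _ he _ k i
    simp only [e, ← Finset.sum_mul, potts_sum_one]

theorem treeAdv_le_survive (h0 : 0 ≤ lam) (h1 : lam ≤ 1) (n : ℕ) (t : RTree n) :
    treeAdv lam n t ≤ 1 - extinct n t := by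
  rcases extinct_zero_or n t with e | ⟨e, he⟩
  · rw [e]; simpa using treeAdv_le_one h0 h1 n t
  · rw [e, sub_self]
    refine le_of_eq (mul_eq_zero_of_right _ (Finset.sum_eq_zero fun η _ =>
      Finset.sum_eq_zero fun i _ => ?_))
    simp only [fun j => lik_empty (lam := lam) n t he η j i, Finset.sum_const, Finset.card_univ,
      Fintype.card_fin, nsmul_eq_mul]
    norm_num

theorem extinct_mem (n : ℕ) (t : RTree n) : 0 ≤ extinct n t ∧ extinct n t ≤ 1 := by
  rcases extinct_zero_or n t with e | ⟨e, -⟩ <;> rw [e] <;> norm_num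

/-- Probability of extinction by depth `n`. -/
noncomputable def gwExt (d : ℝ) : ℕ → ℝ
  | 0 => 0
  | n + 1 => Real.exp (-d * (1 - gwExt d n))

theorem hasSum_ext (hd : 0 ≤ d) : ∀ n,
    HasSum (fun t => gwWeight d n t * extinct n t) (gwExt d n)
  | 0 => by simpa [extinct, gwExt] using hasSum_zero
  | n + 1 => by
    refine hasSum_node (a := fun k => poissonWeight d k * gwExt d n ^ k)
      (fun t => mul_nonneg (gwWeight_nonneg hd _ t) (extinct_mem _ t).1) (fun k => ?_) ?_
    · have h := hasSum_pi (fun (_ : Fin k) t => gwWeight d n t * extinct n t) (fun _ => gwExt d n)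
        (fun _ t => mul_nonneg (gwWeight_nonneg hd n t) (extinct_mem n t).1)
        (fun _ => hasSum_ext hd n)
      simp only [Finset.prod_const, Finset.card_univ, Fintype.card_fin] at h
      refine (h.mul_left (poissonWeight d k)).congr_fun fun f => ?_
      simp only [gwWeight, extinct, Finset.prod_mul_distrib]
      exact mul_assoc _ _ _
    · have h := (NormedSpace.expSeries_div_hasSum_exp (d * gwExt d n)).mul_left (Real.exp (-d))
      rw [← congrFun Real.exp_eq_exp_ℝ (d * gwExt d n), ← Real.exp_add] at h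
      rw [gwExt, show -d * (1 - gwExt d n) = -d + d * gwExt d n by ring]
      exact h.congr_fun fun k => by simp [poissonWeight, mul_pow]; ring

theorem gw_tendsto_one (hd : 0 < d) (hd1 : d ≤ 1) : Tendsto (gwAdv d 1) atTop (𝓝 0) := by
  have q0 : ∀ n, 0 ≤ gwExt d n := fun n => by cases n <;> simp [gwExt, (Real.exp_pos _).le]
  have q1 : ∀ n, gwExt d n ≤ 1 := by
    intro n
    induction n with
    | zero => simp [gwExt]
    | succ n ih =>
      refine Real.exp_le_one_iff.2 ?_
      have := mul_nonneg hd.le (sub_nonneg.2 ih)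
      linarith
  have mono : Monotone (gwExt d) := monotone_nat_of_le_succ fun n => by
    induction n with
    | zero => exact q0 1
    | succ n ih =>
      refine Real.exp_le_exp.2 ?_
      have := mul_le_mul_of_nonneg_left ih hd.le
      linarith
  have hL := tendsto_atTop_ciSup mono ⟨1, by rintro _ ⟨n, rfl⟩; exact q1 n⟩
  set L := ⨆ n, gwExt d n
  have hfix : L = Real.exp (-d * (1 - L)) := tendsto_nhds_unique
    (hL.comp (tendsto_add_atTop_nat 1))
    (((hL.const_sub 1).const_mul (-d)).rexp)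
  have hL1 : L = 1 := by
    have h2 : L ≤ 1 := le_of_tendsto' hL q1
    by_contra hne
    have h3 : -(1 - L) ≠ 0 := fun h => hne (by linarith)
    have := Real.add_one_lt_exp h3
    have : Real.exp (-(1 - L)) ≤ Real.exp (-d * (1 - L)) := Real.exp_le_exp.2 (by
      have := mul_le_mul_of_nonneg_right hd1 (sub_nonneg.2 h2)
      linarith)
    linarith
  have hlim : Tendsto (fun n => 1 - gwExt d n) atTop (𝓝 0) := by
    simpa [hL1] using hL.const_sub 1
  refine squeeze_zero (fun n => tsum_nonneg fun t =>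
    mul_nonneg (gwWeight_nonneg hd.le n t) (treeAdv_nonneg n t)) (fun n => ?_) hlim
  have hB := (hasSum_gw hd.le n).sub (hasSum_ext hd.le n)
  have hle : ∀ t, gwWeight d n t * treeAdv 1 n t ≤
      gwWeight d n t - gwWeight d n t * extinct n t := fun t => by
    have := mul_le_mul_of_nonneg_left (treeAdv_le_survive zero_le_one le_rfl n t)
      (gwWeight_nonneg hd.le n t)
    linarith
  exact hasSum_le hle (Summable.of_nonneg_of_le (fun t => mul_nonneg (gwWeight_nonneg hd.le n t)
    (treeAdv_nonneg n t)) hle hB.summable).hasSum hB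

end Vale.Agent.P154.Q3
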