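import Vale.Agent.P154.Model

/-!
# Broadcasting with the three-state Potts channel on finite rooted trees
-/

namespace Vale.Agent.P154.Q3

open scoped BigOperators

/-- The three-state Potts channel `P(j | i) = λ [i = j] + (1 - λ) / 3`. -/
noncomputable def potts (lam : ℝ) (i j : Fin 3) : ℝ :=
  lam * (if i = j then 1 else 0) + (1 - lam) / 3

/-- Ordered rooted trees cut at depth `n`: a tree of depth `n + 1` is the list of its root's
subtrees, of any length. -/
abbrev RTree : ℕ → Type := Shape

/-- The vertices at distance exactly `n` from the root. -/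
def Leaf : (n : ℕ) → RTree n → Type
  | 0, _ => Unit
  | n + 1, t => Σ c : Fin t.1, Leaf n (t.2 c)

instance instLeafFintype : (n : ℕ) → (t : RTree n) → Fintype (Leaf n t)
  | 0, _ => inferInstanceAs (Fintype Unit)
  | n + 1, t =>
      haveI : ∀ c : Fin t.1, Fintype (Leaf n (t.2 c)) := fun c => instLeafFintype n (t.2 c)
      inferInstanceAs (Fintype (Σ c : Fin t.1, Leaf n (t.2 c)))

instance instLeafDecidableEq : (n : ℕ) → (t : RTree n) → DecidableEq (Leaf n t)
  | 0, _ => inferInstanceAs (DecidableEq Unit)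
  | n + 1, t =>
      haveI : ∀ c : Fin t.1, DecidableEq (Leaf n (t.2 c)) := fun c => instLeafDecidableEq n (t.2 c)
      inferInstanceAs (DecidableEq (Σ c : Fin t.1, Leaf n (t.2 c)))

/-- `lik lam n t η i` is the probability that the spins at distance `n` are `η`, given root spin
`i`: the children's spins are drawn independently from the channel, recursively. -/
noncomputable def lik (lam : ℝ) : (n : ℕ) → (t : RTree n) → (Leaf n t → Fin 3) → Fin 3 → ℝ
  | 0, _, η, i => if η () = i then 1 else 0
  | n + 1, t, η, i => ∏ c : Fin t.1, ∑ j, potts lam i j * lik lam n (t.2 c) (fun v => η ⟨c, v⟩) j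

/-- `(1/2) E Σ_i |P(root = i | spins at distance n) - 1/3|` on the given tree, written as
`(1/2) Σ_η Σ_i |P(root = i, η) - P(η)/3|`. -/
noncomputable def treeAdv (lam : ℝ) (n : ℕ) (t : RTree n) : ℝ :=
  1 / 2 * ∑ η : Leaf n t → Fin 3, ∑ i : Fin 3,
    |lik lam n t η i / 3 - (∑ j, lik lam n t η j / 3) / 3|

/-- The rooted `d`-ary tree. -/
def regTree (d : ℕ) : (n : ℕ) → RTree n
  | 0 => ()
  | n + 1 => ⟨d, fun _ => regTree d n⟩

/-- Poisson weights. -/
noncomputable def poissonWeight (d : ℝ) (k : ℕ) : ℝ := Real.exp (-d) * d ^ k / k.factorial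

/-- The law of the Galton-Watson tree with Poisson(d) offspring cut at depth `n`. -/
noncomputable def gwWeight (d : ℝ) : (n : ℕ) → RTree n → ℝ
  | 0, _ => 1
  | n + 1, t => poissonWeight d t.1 * ∏ c : Fin t.1, gwWeight d n (t.2 c)

/-- `a_n` for the `d`-ary tree. -/
noncomputable def regAdv (d : ℕ) (lam : ℝ) (n : ℕ) : ℝ := treeAdv lam n (regTree d n)

/-- `a_n` for the Galton-Watson tree with Poisson(d) offspring. -/
noncomputable def gwAdv (d lam : ℝ) (n : ℕ) : ℝ :=
  ∑' t : RTree n, gwWeight d n t * treeAdv lam n t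

end Vale.Agent.P154.Q3
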