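import Vale.Agent.P154.Bridge

/-!
# Nonreconstruction from a potential on trees

A potential `g` of the tree (any nonlinear function of its channel) that dominates the
magnetisation and satisfies `g(node) ≤ λ² ∑ g(children)`, with some loss when two children are
present, gives nonreconstruction for `d λ² ≤ 1` on regular and Poisson trees.
-/

namespace Vale.Agent.P154

open Finset Filter Topology

variable {q : ℕ} {lam : ℝ}

/-- A potential: bounded, dominating the magnetisation, subadditive at every node whose children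
have depth at least `n₀`, with loss `κ k` times the sum over ordered pairs of the `k` children. -/
structure IsPot (q : ℕ) (lam : ℝ) (n₀ : ℕ) (c B : ℝ) (κ : ℕ → ℝ)
    (g : (n : ℕ) → Shape n → ℝ) : Prop where
  c_pos : 0 < c
  kappa_pos : ∀ k, 2 ≤ k → 0 < κ k
  dom : ∀ n, n₀ ≤ n → ∀ t, c * mag q lam n t ≤ g n t
  le_bound : ∀ n, n₀ ≤ n → ∀ t, g n t ≤ B
  node : ∀ n, n₀ ≤ n → ∀ t : Shape (n + 1), g (n + 1) t ≤ lam ^ 2 * (∑ j, g n (t.2 j))
    - κ t.1 * ((∑ j, g n (t.2 j)) ^ 2 - ∑ j, g n (t.2 j) ^ 2)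

variable {n₀ : ℕ} {c B : ℝ} {κ : ℕ → ℝ} {g : (n : ℕ) → Shape n → ℝ}

theorem IsPot.nonneg (hg : IsPot q lam n₀ c B κ g) (h : Adm q lam) (m : ℕ) (t : Shape (m + n₀)) :
    0 ≤ g (m + n₀) t :=
  (mul_nonneg hg.c_pos.le (mag_nonneg h _ t)).trans (hg.dom _ (Nat.le_add_left _ _) t)

/-- The mean potential on the Poisson tree. -/
noncomputable def potPoisson (d : ℝ) (g : (n : ℕ) → Shape n → ℝ) (n : ℕ) : ℝ :=
  ∑' t : Shape n, gwWeight d n t * g n t

theorem IsPot.summable (hg : IsPot q lam n₀ c B κ g) (h : Adm q lam) {d : ℝ} (hd : 0 ≤ d)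
    (m : ℕ) : Summable fun t => gwWeight d (m + n₀) t * g (m + n₀) t :=
  Summable.of_nonneg_of_le (fun t => mul_nonneg (gwWeight_nonneg hd _ t) (hg.nonneg h m t))
    (fun t => mul_le_mul_of_nonneg_left (hg.le_bound _ (Nat.le_add_left _ _) t)
      (gwWeight_nonneg hd _ t))
    ((hasSum_gwWeight hd _).summable.mul_right B)

theorem IsPot.potPoisson_nonneg (hg : IsPot q lam n₀ c B κ g) (h : Adm q lam) {d : ℝ}
    (hd : 0 ≤ d) (m : ℕ) : 0 ≤ potPoisson d g (m + n₀) :=
  tsum_nonneg fun t => mul_nonneg (gwWeight_nonneg hd _ t) (hg.nonneg h m t)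

/-- The mean of the node inequality; only nodes with two children are used for the loss. -/
theorem IsPot.potPoisson_step (hg : IsPot q lam n₀ c B κ g) (h : Adm q lam) {d : ℝ}
    (hd : 0 ≤ d) (hκ : ∀ k, 0 ≤ κ k) (m : ℕ) :
    potPoisson d g (m + 1 + n₀) ≤ d * lam ^ 2 * potPoisson d g (m + n₀)
      - 2 * κ 2 * poisson d 2 * potPoisson d g (m + n₀) ^ 2 := by
  rw [Nat.add_right_comm m 1 n₀]
  have hw := gwWeight_nonneg hd (m + n₀)
  have hn := hg.nonneg h m
  have hbase := (hg.summable h hd m).hasSum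
  set x := potPoisson d g (m + n₀)
  have h1 : HasSum (fun t : Σ k : ℕ, Fin k → Shape (m + n₀) => poisson d t.1
      * ((∏ j, gwWeight d (m + n₀) (t.2 j)) * ∑ j, g (m + n₀) (t.2 j))) (d * x) := by
    refine hasSum_node (β := Shape (m + n₀)) (fun k => (k : ℝ) * x) (poisson_nonneg hd)
      (fun t => mul_nonneg (prod_nonneg fun j _ => hw _) (sum_nonneg fun j _ => hn _))
      (fun k => hasSum_pi_one hw hn (hasSum_gwWeight hd _) hbase) ?_
    exact ((hasSum_poisson_mean d).mul_right _).congr_fun fun k => by ring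
  have h2 : HasSum (fun t : Σ k : ℕ, Fin k → Shape (m + n₀) => poisson d t.1
      * ((if t.1 = 2 then κ 2 else 0) * ((∏ j, gwWeight d (m + n₀) (t.2 j))
        * ((∑ j, g (m + n₀) (t.2 j)) ^ 2 - ∑ j, g (m + n₀) (t.2 j) ^ 2))))
      (2 * κ 2 * poisson d 2 * x ^ 2) := by
    refine hasSum_node (β := Shape (m + n₀))
      (fun k => (if k = 2 then κ 2 else 0) * ((k : ℝ) * ((k : ℝ) - 1) * x ^ 2)) (poisson_nonneg hd)
      (fun t => mul_nonneg (by split <;> first | exact hκ 2 | exact le_rfl)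
        (mul_nonneg (prod_nonneg fun j _ => hw _)
          (sub_nonneg.2 (sum_sq_le_sq_sum_of_nonneg fun j _ => hn _))))
      (fun k => (hasSum_pi_two hw hn (hasSum_gwWeight hd _) hbase).mul_left _) ?_
    refine (hasSum_ite_eq (2 : ℕ) (2 * κ 2 * poisson d 2 * x ^ 2)).congr_fun fun k => ?_
    by_cases hk : k = 2
    · subst hk; norm_num; ring
    · simp [hk]
  refine hasSum_le (fun t => ?_)
    (show HasSum (fun t => gwWeight d (m + n₀ + 1) t * g (m + n₀ + 1) t)
      (potPoisson d g (m + n₀ + 1)) by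
      have := (hg.summable h hd (m + 1)).hasSum
      rw [Nat.add_right_comm m 1 n₀] at this
      exact this)
    (((h1.mul_left (lam ^ 2)).sub h2).congr_fun fun _ => rfl) |>.trans (le_of_eq (by ring))
  have hpair : 0 ≤ (∑ j, g (m + n₀) (t.2 j)) ^ 2 - ∑ j, g (m + n₀) (t.2 j) ^ 2 :=
    sub_nonneg.2 (sum_sq_le_sq_sum_of_nonneg fun j _ => hn _)
  have hloss : (if t.1 = 2 then κ 2 else 0) *
      ((∑ j, g (m + n₀) (t.2 j)) ^ 2 - ∑ j, g (m + n₀) (t.2 j) ^ 2) ≤
      κ t.1 * ((∑ j, g (m + n₀) (t.2 j)) ^ 2 - ∑ j, g (m + n₀) (t.2 j) ^ 2) := by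
    refine mul_le_mul_of_nonneg_right ?_ hpair
    split
    · next hk => rw [hk]
    · exact hκ _
  refine (mul_le_mul_of_nonneg_left ((hg.node _ (Nat.le_add_left _ _) t).trans
    (sub_le_sub_left hloss _)) (gwWeight_nonneg hd _ t)).trans (le_of_eq ?_)
  simp only [gwWeight]
  ring

theorem tendsto_aPoisson_of_pot (h : Adm q lam) (hg : IsPot q lam n₀ c B κ g)
    (hκ : ∀ k, 0 ≤ κ k) {d : ℝ} (hd : 0 < d) (hr : d * lam ^ 2 ≤ 1) :
    Tendsto (aPoisson q d lam) atTop (𝓝 0) := by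
  have hp : 0 < poisson d 2 := by unfold poisson; positivity
  have hx := hg.potPoisson_nonneg h hd.le
  have hlim : Tendsto (fun m => potPoisson d g (m + n₀)) atTop (𝓝 0) :=
    tendsto_zero_of_quadratic (c := 2 * κ 2 * poisson d 2)
      (by have := hg.kappa_pos 2 le_rfl; positivity) hx fun m => by
      have := mul_le_mul_of_nonneg_right hr (hx m)
      linarith [hg.potPoisson_step h hd.le hκ m]
  refine tendsto_aPoisson h hd.le ((tendsto_add_atTop_iff_nat n₀).1 ?_)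
  have hu := hlim.div_const c
  rw [zero_div] at hu
  refine squeeze_zero (fun m => magPoisson_nonneg h hd.le _) (fun m => ?_) hu
  refine hasSum_le (fun t => ?_) (summable_magPoisson h hd.le (m + n₀)).hasSum
    ((hg.summable h hd.le m).hasSum.div_const c)
  rw [le_div_iff₀ hg.c_pos, mul_assoc, mul_comm _ c]
  exact mul_le_mul_of_nonneg_left (hg.dom _ (Nat.le_add_left _ _) t) (gwWeight_nonneg hd.le _ t)

theorem tendsto_aRegular_of_pot (h : Adm q lam) (hg : IsPot q lam n₀ c B κ g) {d : ℕ}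
    (hd : 2 ≤ d) (hr : (d : ℝ) * lam ^ 2 ≤ 1) :
    Tendsto (aRegular q d lam) atTop (𝓝 0) := by
  have hd' : (2 : ℝ) ≤ d := by exact_mod_cast hd
  set x := fun m => g (m + n₀) (regular d (m + n₀)) with hxdef
  have hx : ∀ m, 0 ≤ x m := fun m => hg.nonneg h m _
  have hlim : Tendsto x atTop (𝓝 0) := by
    refine tendsto_zero_of_quadratic (c := κ d * ((d : ℝ) * ((d : ℝ) - 1)))
      (mul_pos (hg.kappa_pos d hd) (mul_pos (by linarith) (by linarith))) hx fun m => ?_
    have e : x (m + 1) = g (m + n₀ + 1) (regular d (m + n₀ + 1)) := by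
      simp only [hxdef]; rw [Nat.add_right_comm m 1 n₀]
    have h1 : g (m + n₀ + 1) (regular d (m + n₀ + 1)) ≤ lam ^ 2 * (∑ _j : Fin d, x m)
        - κ d * ((∑ _j : Fin d, x m) ^ 2 - ∑ _j : Fin d, x m ^ 2) :=
      hg.node (m + n₀) (Nat.le_add_left _ _) (regular d (m + n₀ + 1))
    simp only [sum_const, card_univ, Fintype.card_fin, nsmul_eq_mul] at h1
    rw [e]
    linarith [mul_le_mul_of_nonneg_right hr (hx m)]
  refine tendsto_aRegular h ((tendsto_add_atTop_iff_nat n₀).1 ?_)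
  have hu := hlim.div_const c
  rw [zero_div] at hu
  refine squeeze_zero (fun m => mag_nonneg h _ _) (fun m => ?_) hu
  rw [le_div_iff₀ hg.c_pos, mul_comm]
  exact hg.dom _ (Nat.le_add_left _ _) _

theorem one_sub_prod_le_sum {ι : Type*} (s : Finset ι) {u : ι → ℝ} (h0 : ∀ i ∈ s, 0 ≤ u i)
    (h1 : ∀ i ∈ s, u i ≤ 1) : 1 - ∏ i ∈ s, (1 - u i) ≤ ∑ i ∈ s, u i := by
  classical
  induction s using Finset.induction with
  | empty => simp
  | insert a s ha ih =>
    rw [sum_insert ha, prod_insert ha]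
    have hu0 := h0 a (mem_insert_self a s)
    have hp : ∏ i ∈ s, (1 - u i) ≤ 1 := prod_le_one
      (fun i hi => sub_nonneg.2 (h1 i (mem_insert_of_mem hi)))
      fun i hi => by linarith [h0 i (mem_insert_of_mem hi)]
    have := ih (fun i hi => h0 i (mem_insert_of_mem hi)) fun i hi => h1 i (mem_insert_of_mem hi)
    nlinarith [mul_nonneg hu0 (sub_nonneg.2 hp)]

theorem one_sub_prod_le_sub {ι : Type*} (s : Finset ι) {u : ι → ℝ} (h0 : ∀ i ∈ s, 0 ≤ u i)
    (h1 : ∀ i ∈ s, u i ≤ 1) {i j : ι} (hi : i ∈ s) (hj : j ∈ s) (hij : i ≠ j) :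
    1 - ∏ l ∈ s, (1 - u l) ≤ (∑ l ∈ s, u l) - u i * u j := by
  classical
  have hj' : j ∈ s.erase i := mem_erase.2 ⟨hij.symm, hj⟩
  set r := (s.erase i).erase j
  have hr : ∀ l ∈ r, l ∈ s := fun l hl => mem_of_mem_erase (mem_of_mem_erase hl)
  rw [← mul_prod_erase s _ hi, ← mul_prod_erase (s.erase i) _ hj',
    ← add_sum_erase s _ hi, ← add_sum_erase (s.erase i) _ hj']
  have hP : 1 - ∏ l ∈ r, (1 - u l) ≤ ∑ l ∈ r, u l :=
    one_sub_prod_le_sum r (fun l hl => h0 l (hr l hl)) fun l hl => h1 l (hr l hl)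
  have ha := h0 i hi
  have hb := h0 j hj
  have hab : 0 ≤ (1 - u i) * (1 - u j) := mul_nonneg (by linarith [h1 i hi]) (by linarith [h1 j hj])
  have hS : 0 ≤ ∑ l ∈ r, u l := sum_nonneg fun l hl => h0 l (hr l hl)
  have hab1 : (1 - u i) * (1 - u j) ≤ 1 :=
    mul_le_one₀ (by linarith) (by linarith [h1 j hj]) (by linarith)
  nlinarith [mul_le_mul_of_nonneg_left hP hab, mul_le_mul_of_nonneg_right hab1 hS]

/-- A loss for every pair gives a loss for the sum over pairs. -/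
theorem pairs_le_of_forall {k : ℕ} {u : Fin k → ℝ} {L : ℝ} (hL : 0 ≤ L)
    (h : ∀ i j, i ≠ j → u i * u j ≤ L) :
    (∑ i, u i) ^ 2 - ∑ i, u i ^ 2 ≤ (k : ℝ) ^ 2 * L := by
  rw [sq, sum_mul_sum, ← sum_sub_distrib]
  have e : ∀ i, (∑ j, u i * u j) - u i ^ 2 = ∑ j ∈ univ.erase i, u i * u j := fun i => by
    rw [← add_sum_erase univ _ (mem_univ i)]; ring
  simp only [e]
  calc ∑ i, ∑ j ∈ univ.erase i, u i * u j ≤ ∑ _i : Fin k, (k : ℝ) * L := by
        refine sum_le_sum fun i _ => ?_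
        refine (sum_le_card_nsmul _ _ L fun j hj => h i j (ne_of_mem_erase hj).symm).trans ?_
        rw [nsmul_eq_mul]
        refine mul_le_mul_of_nonneg_right ?_ hL
        exact_mod_cast (card_erase_le.trans (by simp))
    _ = (k : ℝ) ^ 2 * L := by simp; ring

/-- The product form of the node inequality, obtained by adding the children one at a time, gives
a potential. -/
theorem isPot_of_prod (h : Adm q lam) {a : ℝ} (hc : 0 < c) (ha : 0 < a) (hl : lam ≠ 0)
    (dom : ∀ n, n₀ ≤ n → ∀ t, c * mag q lam n t ≤ g n t)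
    (le_bound : ∀ n, n₀ ≤ n → ∀ t, g n t ≤ B) (small : ∀ n, n₀ ≤ n → ∀ t, a * lam ^ 2 * g n t ≤ 1)
    (node : ∀ n, n₀ ≤ n → ∀ t : Shape (n + 1),
      g (n + 1) t ≤ (1 - ∏ j, (1 - a * lam ^ 2 * g n (t.2 j))) / a) :
    IsPot q lam n₀ c B (fun k => a * lam ^ 4 / ((k : ℝ) ^ 2 + 1)) g where
  c_pos := hc
  kappa_pos k _ := by positivity
  dom := dom
  le_bound := le_bound
  node n hn t := by
    set u := fun j => a * lam ^ 2 * g n (t.2 j) with hu
    have hu0 : ∀ j ∈ univ, 0 ≤ u j := fun j _ => mul_nonneg (by positivity)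
      ((mul_nonneg hc.le (mag_nonneg h n _)).trans (dom n hn _))
    have hu1 : ∀ j ∈ univ, u j ≤ 1 := fun j _ => small n hn _
    set L := (∑ j, u j) - (1 - ∏ j, (1 - u j)) with hL
    have hL0 : 0 ≤ L := sub_nonneg.2 (one_sub_prod_le_sum univ hu0 hu1)
    have hp := pairs_le_of_forall (u := u) hL0 fun i j hij => by
      have := one_sub_prod_le_sub univ hu0 hu1 (mem_univ i) (mem_univ j) hij
      linarith
    have hS : ∑ j, u j = a * lam ^ 2 * ∑ j, g n (t.2 j) := (mul_sum _ _ _).symm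
    have hQ : ∑ j, u j ^ 2 = (a * lam ^ 2) ^ 2 * ∑ j, g n (t.2 j) ^ 2 := by
      rw [mul_sum]; exact sum_congr rfl fun j _ => mul_pow _ _ 2
    rw [hS, hQ] at hp
    have hk : (0 : ℝ) < (t.1 : ℝ) ^ 2 + 1 := by positivity
    have h1 := node n hn t
    rw [le_div_iff₀ ha] at h1
    refine le_of_mul_le_mul_right ?_ ha
    have h2 : a * lam ^ 4 / ((t.1 : ℝ) ^ 2 + 1) *
        ((∑ j, g n (t.2 j)) ^ 2 - ∑ j, g n (t.2 j) ^ 2) * a ≤ L := by
      rw [div_mul_eq_mul_div, div_mul_eq_mul_div, div_le_iff₀ hk]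
      nlinarith [hp, hL0]
    rw [hL, hS] at h2
    rw [sub_mul]
    linarith

end Vale.Agent.P154
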