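import Vale.Agent.P154.NegTree
import Vale.Agent.P154.Potential

/-!
# A prefix inequality at a reference edge `μ` gives every `λ ∈ [μ, 0)`

The potential has to drop by `κ X(prefix) X(child)` when a child is attached through the edge
`μ`, and to scale by at most `s²` through an edge `s ∈ [0, 1]`.
-/

namespace Vale.Agent.P154.Q3

open scoped BigOperators Topology
open Filter

variable {lam : ℝ} {Ω Ω' : Type} [Fintype Ω] [Fintype Ω'] {L : Ω → Fin 3 → ℝ} {M : Ω' → Fin 3 → ℝ}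

/-- A channel without any symmetry or positivity. -/
def IsStoch (L : Ω → Fin 3 → ℝ) : Prop := (∀ η i, 0 ≤ L η i) ∧ ∀ i, ∑ η, L η i = 1

theorem IsStoch.congr {L' : Ω' → Fin 3 → ℝ} (hL : IsStoch L) (e : Ω' ≃ Ω)
    (h : ∀ a, L' a = L (e a)) : IsStoch L' :=
  ⟨fun a i => by rw [h]; exact hL.1 _ i,
    fun i => by simp only [h]; rw [e.sum_comp fun b => L b i]; exact hL.2 i⟩

theorem IsStoch.tens (hL : IsStoch L) (hM : IsStoch M) : IsStoch (tens L M) :=
  ⟨fun _ i => mul_nonneg (hL.1 _ i) (hM.1 _ i), fun i => by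
    simp only [Q3.tens, Fintype.sum_prod_type, ← Finset.mul_sum, hM.2, mul_one, hL.2]⟩

theorem IsStoch.edge (hL : IsStoch L) {s : ℝ} (h0 : -1 / 2 ≤ s) (h1 : s ≤ 1) :
    IsStoch (edge s L) := by
  refine ⟨fun η i => ?_, fun i => ?_⟩
  · show 0 ≤ s * L η i + (1 - s) / 3 * tot (L η)
    have e : s * L η i + (1 - s) / 3 * tot (L η) =
        (1 + 2 * s) / 3 * L η i + (1 - s) / 3 * (tot (L η) - L η i) := by ring
    have h2 : 0 ≤ tot (L η) - L η i := by
      have := hL.1 η 0; have := hL.1 η 1; have := hL.1 η 2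
      fin_cases i <;> simp [tot] <;> linarith
    rw [e]
    exact add_nonneg (mul_nonneg (by linarith) (hL.1 η i)) (mul_nonneg (by linarith) h2)
  · simp only [Q3.edge, push, tot, Finset.sum_add_distrib, ← Finset.mul_sum, hL.2]
    ring

theorem magV_nonneg {v : Fin 3 → ℝ} (hv : ∀ i, 0 ≤ v i) : 0 ≤ magV v :=
  div_nonneg (nsq_nonneg _ _ _) (add_nonneg (add_nonneg (hv 0) (hv 1)) (hv 2))

theorem magV_add_le {u v : Fin 3 → ℝ} (hu : ∀ i, 0 ≤ u i) (hv : ∀ i, 0 ≤ v i) :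
    magV (u + v) ≤ magV u + magV v := by
  have u0 := hu 0; have u1 := hu 1; have u2 := hu 2
  have v0 := hv 0; have v1 := hv 1; have v2 := hv 2
  simp only [magV, mag, Pi.add_apply]
  set S := u 0 + u 1 + u 2 with hS
  set T := v 0 + v 1 + v 2 with hT
  rcases (show 0 ≤ S by positivity).eq_or_lt with h | h
  · have : u 0 = 0 ∧ u 1 = 0 ∧ u 2 = 0 := ⟨by linarith, by linarith, by linarith⟩
    simp [hT, hS, this.1, this.2.1, this.2.2, nsq]
  rcases (show 0 ≤ T by positivity).eq_or_lt with k | k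
  · have : v 0 = 0 ∧ v 1 = 0 ∧ v 2 = 0 := ⟨by linarith, by linarith, by linarith⟩
    simp [hT, hS, this.1, this.2.1, this.2.2, nsq]
  rw [show u 0 + v 0 + (u 1 + v 1) + (u 2 + v 2) = S + T by rw [hS, hT]; ring,
    div_add_div _ _ h.ne' k.ne', div_le_div_iff₀ (add_pos h k) (mul_pos h k)]
  linarith [nsq_nonneg (u 0 * T - v 0 * S) (u 1 * T - v 1 * S) (u 2 * T - v 2 * S),
    show nsq (u 0 * T - v 0 * S) (u 1 * T - v 1 * S) (u 2 * T - v 2 * S) =
      (nsq (u 0) (u 1) (u 2) * T + S * nsq (v 0) (v 1) (v 2)) * (S + T) -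
        nsq (u 0 + v 0) (u 1 + v 1) (u 2 + v 2) * (S * T) by simp only [nsq]; ring]

theorem magV_sum_le {ι : Type} (s : Finset ι) (f : ι → Fin 3 → ℝ) (hf : ∀ j i, 0 ≤ f j i) :
    magV (∑ j ∈ s, f j) ≤ ∑ j ∈ s, magV (f j) := by
  classical
  induction s using Finset.induction with
  | empty => simp [magV, mag, nsq]
  | insert a s ha ih =>
    rw [Finset.sum_insert ha, Finset.sum_insert ha]
    exact (magV_add_le (hf a) fun i => by
      rw [Finset.sum_apply]; exact Finset.sum_nonneg fun j _ => hf j i).trans (by linarith)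

theorem cX_nonneg' (hL : IsStoch L) : 0 ≤ cX L :=
  Finset.sum_nonneg fun η _ => div_nonneg (magV_nonneg (hL.1 η)) (by norm_num)

/-- More children carry at least as much magnetisation. -/
theorem cX_le_tens (hL : IsStoch L) (hM : IsStoch M) : cX L ≤ cX (tens L M) := by
  simp only [cX, Fintype.sum_prod_type]
  refine Finset.sum_le_sum fun η _ => ?_
  rw [← Finset.sum_div]
  refine div_le_div_of_nonneg_right ?_ (by norm_num)
  refine (le_of_eq (congrArg magV ?_)).trans (magV_sum_le Finset.univ (fun η' => tens L M (η, η'))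
    fun η' i => mul_nonneg (hL.1 η i) (hM.1 η' i))
  funext i
  simp [Finset.sum_apply, tens, ← Finset.mul_sum, hM.2]

theorem cX_le_tens' (hL : IsStoch L) (hM : IsStoch M) : cX M ≤ cX (tens L M) := by
  rw [cX_congr (L := tens M L) (Equiv.prodComm Ω Ω') fun p => by
    funext i; simp [tens, mul_comm]]
  exact cX_le_tens hM hL

/-- A class of channels and a potential on it, controlled at the edge `μ` and at `s ∈ [0,1]`. -/
structure EdgePot (μ c C κ : ℝ) where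
  /-- The class. -/
  K : ∀ (Ω : Type) [Fintype Ω], (Ω → Fin 3 → ℝ) → Prop
  /-- The potential. -/
  G : ∀ (Ω : Type) [Fintype Ω], (Ω → Fin 3 → ℝ) → ℝ
  congr : ∀ (Ω Ω' : Type) [Fintype Ω] [Fintype Ω'] (e : Ω' ≃ Ω) (L : Ω → Fin 3 → ℝ)
    (L' : Ω' → Fin 3 → ℝ), (∀ a, L' a = L (e a)) → K Ω L → K Ω' L' ∧ G Ω' L' = G Ω L
  leaf : ∀ t : RTree 0, K (Leaf 0 t → Fin 3) (lik 0 0 t)
  trivial : K Unit (fun _ _ => 1) ∧ G Unit (fun _ _ => 1) ≤ 0
  attach : ∀ (Ω Ω' : Type) [Fintype Ω] [Fintype Ω'] (P : Ω → Fin 3 → ℝ) (L : Ω' → Fin 3 → ℝ),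
    IsStoch P → IsStoch L → K Ω P → K Ω' L →
      K (Ω × Ω') (tens P (edge μ L)) ∧
        G (Ω × Ω') (tens P (edge μ L)) ≤ G Ω P + μ ^ 2 * G Ω' L - κ * (cX P * cX L)
  scale : ∀ (Ω : Type) [Fintype Ω] (L : Ω → Fin 3 → ℝ) (s : ℝ), 0 ≤ s → s ≤ 1 → IsStoch L →
    K Ω L → K Ω (edge s L) ∧ G Ω (edge s L) ≤ s ^ 2 * G Ω L
  dom : ∀ (Ω : Type) [Fintype Ω] (L : Ω → Fin 3 → ℝ), IsStoch L → K Ω L →
    c * cX L ≤ G Ω L ∧ G Ω L ≤ C * cX L

variable {μ c C κ : ℝ}

/-- Attaching the children one at a time. -/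
theorem EdgePot.prod_spec (P : EdgePot μ c C κ) (hμ : -1 / 2 ≤ μ) (hμ0 : μ < 0) (hκ : 0 ≤ κ) :
    ∀ (k : ℕ) (α : Fin k → Type) [∀ j, Fintype (α j)] (L : ∀ j, α j → Fin 3 → ℝ),
      (∀ j, IsStoch (L j)) → (∀ j, P.K (α j) (L j)) →
      IsStoch (prodL fun j => edge μ (L j)) ∧
        P.K (∀ j, α j) (prodL fun j => edge μ (L j)) ∧
        (∀ j, μ ^ 2 * cX (L j) ≤ cX (prodL fun j => edge μ (L j))) ∧
        P.G (∀ j, α j) (prodL fun j => edge μ (L j)) ≤ μ ^ 2 * ∑ j, P.G (α j) (L j) ∧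
        ∀ i j, i ≠ j → P.G (∀ j, α j) (prodL fun j => edge μ (L j)) ≤
          μ ^ 2 * (∑ l, P.G (α l) (L l)) - κ * μ ^ 2 * (cX (L i) * cX (L j)) := by
  intro k
  induction k with
  | zero =>
    intro α _ L _ _
    let e : (∀ j, α j) ≃ Unit := Equiv.ofUnique _ _
    have he : ∀ η, prodL (fun j => edge μ (L j)) η =
        (fun (_ : Unit) (_ : Fin 3) => (1 : ℝ)) (e η) := fun η => by funext i; simp [prodL]
    obtain ⟨hK, hG⟩ := P.congr _ _ e _ _ he P.trivial.1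
    refine ⟨⟨fun η i => by simp [prodL], fun i => by simp [prodL]⟩, hK, fun j => j.elim0, ?_,
      fun i => i.elim0⟩
    rw [hG]; simpa using P.trivial.2
  | succ k ih =>
    intro α _ L hS hK
    obtain ⟨rS, rK, rX, rG, rP⟩ := ih (fun j => α j.succ) (fun j => L j.succ) (fun j => hS _)
      (fun j => hK _)
    set R := prodL fun j : Fin k => edge μ (L j.succ)
    let e : (∀ j, α j) ≃ (∀ j : Fin k, α j.succ) × α 0 :=
      (Fin.consEquiv α).symm.trans (Equiv.prodComm _ _)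
    have he : ∀ η, prodL (fun j => edge μ (L j)) η = tens R (edge μ (L 0)) (e η) :=
      fun η => by
        funext i; simp [R, e, prodL, tens, Fin.prod_univ_succ, Fin.consEquiv, Fin.tail, mul_comm]
    have eS := (hS 0).edge hμ (by linarith)
    obtain ⟨aK, aG⟩ := P.attach _ _ R (L 0) rS (hS 0) rK (hK 0)
    obtain ⟨pK, pG⟩ := P.congr _ _ e _ _ he aK
    have x0 := cX_nonneg' rS
    have y0 : ∀ j, 0 ≤ cX (L j) := fun j => cX_nonneg' (hS j)
    have hp : 0 ≤ κ * (cX R * cX (L 0)) := mul_nonneg hκ (mul_nonneg x0 (y0 0))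
    refine ⟨(rS.tens eS).congr e he, pK, fun j => ?_, ?_, fun i j hij => ?_⟩
    · rw [cX_congr e he]
      refine Fin.cases ?_ (fun j => (rX j).trans (cX_le_tens rS eS)) j
      refine le_trans (le_of_eq ?_) (cX_le_tens' rS eS)
      rw [cX_edge]
    · rw [pG, Fin.sum_univ_succ]; linarith
    · rw [pG, Fin.sum_univ_succ]
      obtain ⟨i, rfl⟩ | rfl := (Fin.eq_zero_or_eq_succ i).symm.imp (fun h => h) id
      · obtain rfl | ⟨j, rfl⟩ := Fin.eq_zero_or_eq_succ j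
        · have := mul_le_mul_of_nonneg_left
            (mul_le_mul_of_nonneg_right (rX i) (y0 0)) hκ
          linarith
        · have := rP i j fun h => hij (by rw [h])
          linarith
      · obtain rfl | ⟨j, rfl⟩ := Fin.eq_zero_or_eq_succ j
        · exact absurd rfl hij
        · have := mul_le_mul_of_nonneg_left
            (mul_le_mul_of_nonneg_left (rX j) (y0 0)) hκ
          linarith

omit [Fintype Ω] in
theorem edge_factor_at (hμ0 : μ < 0) (lam : ℝ) (L : Ω → Fin 3 → ℝ) :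
    edge lam L = edge μ (edge (lam / μ) L) := by
  funext η
  show push lam (L η) = push μ (push (lam / μ) (L η))
  rw [push_push, mul_div_cancel₀ _ hμ0.ne]

theorem EdgePot.tree_spec (P : EdgePot μ c C κ) (hμ : -1 / 2 ≤ μ) (hμ0 : μ < 0) (hκ : 0 ≤ κ) (h0 : μ ≤ lam)
    (h1 : lam ≤ 0) :
    ∀ (n : ℕ) (t : RTree n),
      IsStoch (lik lam n t) ∧ P.K (Leaf n t → Fin 3) (lik lam n t) := by
  have hr0 : 0 ≤ lam / μ := div_nonneg_of_nonpos (by linarith) hμ0.le
  have hr1 : lam / μ ≤ 1 := (div_le_one_of_neg hμ0).2 h0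
  intro n
  induction n with
  | zero =>
    intro t
    obtain ⟨a, -, -⟩ := lik_spec (lam := 0) le_rfl one_pos 0 t
    exact ⟨⟨a.nonneg, a.sum_one⟩, P.leaf t⟩
  | succ n ih =>
    intro t
    have hs := fun c : Fin t.1 => P.scale _ (lik lam n (t.2 c)) (lam / μ) (hr0)
      (by linarith) (ih _).1 (ih _).2
    obtain ⟨pS, pK, -⟩ := P.prod_spec hμ hμ0 hκ t.1 _ (fun c => edge (lam / μ) (lik lam n (t.2 c)))
      (fun c => (ih _).1.edge (by linarith) (by linarith)) (fun c => (hs c).1)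
    have e : childChan lam t = fun c => edge μ (edge (lam / μ) (lik lam n (t.2 c))) :=
      funext fun c => edge_factor_at hμ0 _ _
    rw [← e] at pS pK
    exact ⟨pS.congr _ (lik_succ t), (P.congr _ _ _ _ _ (lik_succ t) pK).1⟩

theorem EdgePot.isPot (P : EdgePot μ c C κ) (hμ : -1 / 2 ≤ μ) (hμ0 : μ < 0) (hc : 0 < c)
    (hC : 0 < C) (hκ : 0 < κ) (h0 : μ ≤ lam) (h1 : lam < 0) :
    IsPot 3 lam 0 (3 / 2 * c) (3 * C) (fun k => κ / μ ^ 2 * lam ^ 4 / (C ^ 2 * ((k : ℝ) ^ 2 + 1)))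
      fun n t => P.G (Leaf n t → Fin 3) (lik lam n t) := by
  have hr0 : 0 ≤ lam / μ := div_nonneg_of_nonpos (by linarith) hμ0.le
  have hr1 : lam / μ ≤ 1 := (div_le_one_of_neg hμ0).2 h0
  have hμ2 : 0 < μ ^ 2 := by have := hμ0.ne; positivity
  have hr2 : μ ^ 2 * (lam / μ) ^ 2 = lam ^ 2 := by
    rw [← mul_pow, mul_div_cancel₀ _ hμ0.ne]
  have hr4 : κ * μ ^ 2 * ((lam / μ) ^ 2 * (lam / μ) ^ 2) = κ / μ ^ 2 * lam ^ 4 := by
    have := hμ0.ne; field_simp
  have hA : Adm 3 lam := adm_three' (hμ.trans h0) (by linarith)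
  have spec := P.tree_spec hμ hμ0 hκ.le h0 h1.le
  have dom := fun n (t : RTree n) => P.dom _ _ (spec n t).1 (spec n t).2
  refine ⟨by linarith, fun k _ => ?_, fun n _ t => ?_, fun n _ t => ?_, fun n _ t => ?_⟩
  · have : 0 < lam ^ 4 := by have := h1.ne; have := hμ0.ne; positivity
    positivity
  · have := (dom n t).1
    rw [mag_eq lam n t, treeX]
    linarith
  · refine (dom n t).2.trans ?_
    have := mag_le_two hA n t
    rw [mag_eq lam n t, treeX] at this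
    have := mul_le_mul_of_nonneg_left (show cX (lik lam n t) ≤ 3 by linarith) hC.le
    linarith
  · set x := fun c : Fin t.1 => cX (lik lam n (t.2 c))
    set g := fun c : Fin t.1 => P.G _ (lik lam n (t.2 c))
    have e : childChan lam t = fun c => edge μ (edge (lam / μ) (lik lam n (t.2 c))) :=
      funext fun c => edge_factor_at hμ0 _ _
    have hs := fun c : Fin t.1 => P.scale _ (lik lam n (t.2 c)) (lam / μ) (hr0)
      (by linarith) (spec n _).1 (spec n _).2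
    obtain ⟨-, pK, -, pG, pP⟩ := P.prod_spec hμ hμ0 hκ.le t.1 _
      (fun c => edge (lam / μ) (lik lam n (t.2 c)))
      (fun c => (spec n _).1.edge (by linarith) (by linarith)) (fun c => (hs c).1)
    rw [← e] at pK pG pP
    obtain ⟨-, hG⟩ := P.congr _ _ _ _ _ (lik_succ t) pK
    show P.G _ (lik lam (n + 1) t) ≤ lam ^ 2 * ∑ c, g c - _ * ((∑ c, g c) ^ 2 - ∑ c, g c ^ 2)
    rw [hG]
    set N := P.G _ (prodL (childChan lam t))
    have hsum : μ ^ 2 * ∑ c, P.G _ (edge (lam / μ) (lik lam n (t.2 c))) ≤ lam ^ 2 * ∑ c, g c := by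
      rw [Finset.mul_sum, Finset.mul_sum]
      refine Finset.sum_le_sum fun c _ => ?_
      rw [← hr2, mul_assoc]
      exact mul_le_mul_of_nonneg_left (hs c).2 hμ2.le
    set D := lam ^ 2 * ∑ c, g c - N with hD
    have hD0 : 0 ≤ D := by rw [hD]; linarith
    have hx : ∀ c, 0 ≤ x c := fun c => cX_nonneg' (spec n _).1
    have hg : ∀ c, 0 ≤ g c ∧ g c ≤ C * x c := fun c =>
      ⟨(mul_nonneg hc.le (hx c)).trans (dom n _).1, (dom n _).2⟩
    have hp := pairs_le_of_forall (u := g) (L := C ^ 2 / (κ / μ ^ 2 * lam ^ 4) * D)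
      (mul_nonneg (by positivity) hD0) fun i j hij => by
        have h2 := pP i j hij
        rw [cX_edge, cX_edge] at h2
        have h3 : κ / μ ^ 2 * lam ^ 4 * (x i * x j) ≤ D := by
          rw [hD, ← hr4]
          simp only [x]
          linarith
        calc g i * g j ≤ C * x i * (C * x j) :=
              mul_le_mul (hg i).2 (hg j).2 (hg j).1 (mul_nonneg hC.le (hx i))
          _ ≤ C ^ 2 / (κ / μ ^ 2 * lam ^ 4) * D := by
            rw [div_mul_eq_mul_div, le_div_iff₀ (by have := h1.ne; have := hμ0.ne; positivity)]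
            nlinarith [mul_le_mul_of_nonneg_left h3 (sq_nonneg C)]
    have hfin : κ / μ ^ 2 * lam ^ 4 / (C ^ 2 * ((t.1 : ℝ) ^ 2 + 1)) *
        ((∑ c, g c) ^ 2 - ∑ c, g c ^ 2) ≤ D := by
      have hl : 0 < κ / μ ^ 2 * lam ^ 4 := by have := h1.ne; have := hμ0.ne; positivity
      rw [div_mul_eq_mul_div, div_le_iff₀ (by positivity)]
      calc κ / μ ^ 2 * lam ^ 4 * ((∑ c, g c) ^ 2 - ∑ c, g c ^ 2)
          ≤ κ / μ ^ 2 * lam ^ 4 * ((t.1 : ℝ) ^ 2 * (C ^ 2 / (κ / μ ^ 2 * lam ^ 4) * D)) :=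
            mul_le_mul_of_nonneg_left hp hl.le
        _ = C ^ 2 * (t.1 : ℝ) ^ 2 * D := by have := h1.ne; have := hμ0.ne; field_simp
        _ ≤ _ := by nlinarith [mul_nonneg (sq_nonneg C) hD0]
    linarith

/-- Nonreconstruction from a potential at the edge `μ`, for every `λ ∈ [μ, 0)`. -/
theorem EdgePot.nonreconstruction (P : EdgePot μ c C κ) (hμ : -1 / 2 ≤ μ) (hμ0 : μ < 0) (hc : 0 < c)
    (hC : 0 < C) (hκ : 0 < κ) (h0 : μ ≤ lam) (h1 : lam < 0) :
    (∀ d : ℕ, 2 ≤ d → (d : ℝ) * lam ^ 2 ≤ 1 → Tendsto (aRegular 3 d lam) atTop (𝓝 0)) ∧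
      ∀ d : ℝ, 0 < d → d * lam ^ 2 ≤ 1 → Tendsto (aPoisson 3 d lam) atTop (𝓝 0) :=
  have hA : Adm 3 lam := adm_three' (hμ.trans h0) (by linarith)
  ⟨fun _ hd hr => tendsto_aRegular_of_pot hA (P.isPot hμ hμ0 hc hC hκ h0 h1) hd hr,
    fun _ hd hr => tendsto_aPoisson_of_pot hA (P.isPot hμ hμ0 hc hC hκ h0 h1)
      (fun _ => by have := h1.ne; have := hμ0.ne; positivity) hd hr⟩

end Vale.Agent.P154.Q3
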