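import Vale.Agent.P154.Bridge

/-!
A node inequality in product form, `mag ≤ (1 - ∏ⱼ (1 - c λ² magⱼ)) / c`, gives nonreconstruction
for `d λ² ≤ 1`; this is what iterating `X'' ≤ X + X' - c X X'` over the children yields.
-/

namespace Vale.Agent.P154

open Finset Filter Topology

variable {q : ℕ} {lam : ℝ}

theorem exp_neg_ge {u : ℝ} (h0 : 0 ≤ u) (h1 : u ≤ 1) : 1 - u + u ^ 2 / 4 ≤ Real.exp (-u) := by
  have h := Real.exp_bound (x := -u) (by rw [abs_neg, abs_of_nonneg h0]; exact h1)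
    (n := 3) (by norm_num)
  simp only [sum_range_succ, sum_range_zero, abs_neg, abs_of_nonneg h0] at h
  norm_num at h
  have h3 : u ^ 3 ≤ u ^ 2 := pow_le_pow_of_le_one h0 h1 (by norm_num)
  have := abs_le.1 h
  nlinarith [sq_nonneg u]

theorem one_sub_pow_le {u : ℝ} (h0 : 0 ≤ u) (h1 : u ≤ 1) :
    ∀ d : ℕ, 2 ≤ d → 1 - (1 - u) ^ d ≤ d * u - u ^ 2 := by
  intro d hd
  induction d, hd using Nat.le_induction with
  | base => norm_num; ring_nf; rfl
  | succ k _ ih =>
    have hp : (1 - u) ^ k ≤ 1 := pow_le_one₀ (by linarith) (by linarith)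
    have := mul_le_mul_of_nonneg_left hp h0
    rw [pow_succ]
    push_cast
    nlinarith

/-- The product form of the node inequality. -/
def ProdNode (q : ℕ) (lam c : ℝ) : Prop :=
  ∀ (n : ℕ) (t : Shape (n + 1)),
    mag q lam (n + 1) t ≤ (1 - ∏ j, (1 - c * lam ^ 2 * mag q lam n (t.2 j))) / c

theorem mul_mag_le_one (h : Adm q lam) {c : ℝ} (hc : 0 < c) (hc2 : c ≤ 1 / 2)
    (hl : lam ^ 2 ≤ 1) (n : ℕ) (t : Shape n) : c * lam ^ 2 * mag q lam n t ≤ 1 :=
  calc c * lam ^ 2 * mag q lam n t ≤ 1 / 2 * 1 * 2 :=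
        mul_le_mul (mul_le_mul hc2 hl (sq_nonneg _) (by norm_num)) (mag_le_two h n t)
          (mag_nonneg h n t) (by norm_num)
    _ = 1 := by norm_num

theorem magPoisson_le_two (h : Adm q lam) {d : ℝ} (hd : 0 ≤ d) (n : ℕ) :
    magPoisson q d lam n ≤ 2 := by
  have := (hasSum_gwWeight hd n).mul_left 2
  rw [mul_one] at this
  refine hasSum_le (fun t => ?_) (summable_magPoisson h hd n).hasSum this
  exact (mul_le_mul_of_nonneg_left (mag_le_two h n t) (gwWeight_nonneg hd n t)).trans_eq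
    (mul_comm _ _)

theorem magPoisson_step_prod (h : Adm q lam) {d c : ℝ} (hd : 0 ≤ d) (hc : 0 < c) (hc2 : c ≤ 1 / 2)
    (hl : lam ^ 2 ≤ 1) (hnode : ProdNode q lam c) (n : ℕ) :
    magPoisson q d lam (n + 1)
      ≤ (1 - Real.exp (-(c * (d * lam ^ 2) * magPoisson q d lam n))) / c := by
  set x := magPoisson q d lam n
  set P := fun u : Shape n => 1 - c * lam ^ 2 * mag q lam n u with hP
  have hw := gwWeight_nonneg hd n
  have hP0 : ∀ u, 0 ≤ P u := fun u => sub_nonneg.2 (mul_mag_le_one h hc hc2 hl n u)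
  have hwP : HasSum (fun u => gwWeight d n u * P u) (1 - c * lam ^ 2 * x) := by
    refine ((hasSum_gwWeight hd n).sub
      ((summable_magPoisson h hd n).hasSum.mul_left (c * lam ^ 2))).congr_fun fun u => ?_
    simp only [hP]; ring
  have hser : HasSum (fun k => poisson d k * (1 - c * lam ^ 2 * x) ^ k)
      (Real.exp (-(c * (d * lam ^ 2) * x))) := by
    have h2 := (hasSum_poisson (d * (1 - c * lam ^ 2 * x))).mul_left
      (Real.exp (-(c * (d * lam ^ 2) * x)))
    rw [mul_one] at h2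
    refine h2.congr_fun fun k => ?_
    unfold poisson
    rw [mul_pow, ← mul_assoc, ← mul_div_assoc, ← mul_assoc, ← Real.exp_add]
    ring_nf
  have hnodeSum : HasSum (fun t : Σ k : ℕ, Fin k → Shape n => poisson d t.1
      * ∏ j, (gwWeight d n (t.2 j) * P (t.2 j))) (Real.exp (-(c * (d * lam ^ 2) * x))) := by
    refine hasSum_node (β := Shape n) (fun k => (1 - c * lam ^ 2 * x) ^ k) (poisson_nonneg hd)
      (fun t => prod_nonneg fun j _ => mul_nonneg (hw _) (hP0 _)) (fun k => ?_) hser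
    have := hasSum_pi_prod k (fun _ u => gwWeight d n u * P u) (fun _ => 1 - c * lam ^ 2 * x)
      (fun _ u => mul_nonneg (hw u) (hP0 u)) (fun _ => hwP)
    rwa [Fin.prod_const] at this
  refine hasSum_le (fun t => ?_) (summable_magPoisson h hd (n + 1)).hasSum
    (((hasSum_gwWeight hd (n + 1)).sub hnodeSum).div_const c)
  refine (mul_le_mul_of_nonneg_left (hnode n t) (gwWeight_nonneg hd (n + 1) t)).trans (le_of_eq ?_)
  simp only [gwWeight, prod_mul_distrib, hP]
  ring

theorem tendsto_aPoisson_of_prodNode (h : Adm q lam) {d c : ℝ} (hd : 0 < d) (hc : 0 < c)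
    (hc2 : c ≤ 1 / 2) (hl : lam ^ 2 ≤ 1) (hr : d * lam ^ 2 ≤ 1) (hnode : ProdNode q lam c) :
    Tendsto (aPoisson q d lam) atTop (𝓝 0) := by
  refine tendsto_aPoisson h hd.le (tendsto_zero_of_quadratic (c := c / 4) (by positivity)
    (magPoisson_nonneg h hd.le) fun n => ?_)
  have hx := magPoisson_nonneg h hd.le (q := q) (lam := lam) n
  have hcx : c * magPoisson q d lam n ≤ 1 :=
    (mul_le_mul hc2 (magPoisson_le_two h hd.le n) hx (by norm_num)).trans_eq (by norm_num)
  refine (magPoisson_step_prod h hd.le hc hc2 hl hnode n).trans ?_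
  have hmono : Real.exp (-(c * magPoisson q d lam n))
      ≤ Real.exp (-(c * (d * lam ^ 2) * magPoisson q d lam n)) := by
    refine Real.exp_le_exp.2 (neg_le_neg (mul_le_mul_of_nonneg_right ?_ hx))
    exact mul_le_of_le_one_right hc.le hr
  have := exp_neg_ge (mul_nonneg hc.le hx) hcx
  rw [div_le_iff₀ hc]
  nlinarith

theorem tendsto_aRegular_of_prodNode (h : Adm q lam) {d : ℕ} {c : ℝ} (hd : 2 ≤ d) (hc : 0 < c)
    (hc2 : c ≤ 1 / 2) (hr : (d : ℝ) * lam ^ 2 ≤ 1) (hnode : ProdNode q lam c) :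
    Tendsto (aRegular q d lam) atTop (𝓝 0) := by
  have hd' : (2 : ℝ) ≤ d := by exact_mod_cast hd
  have hl : lam ^ 2 ≤ 1 := by nlinarith [sq_nonneg lam]
  refine tendsto_aRegular h ?_
  rcases eq_or_ne lam 0 with hz | hz
  · refine (tendsto_add_atTop_iff_nat 1).1 (tendsto_const_nhds.congr' ?_)
    refine Eventually.of_forall fun n => (le_antisymm ?_ (mag_nonneg h _ _)).symm
    refine (hnode n (regular d (n + 1))).trans (le_of_eq ?_)
    subst hz; simp
  have hl0 : 0 < lam ^ 2 := by positivity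
  refine tendsto_zero_of_quadratic (c := c * (lam ^ 2) ^ 2) (by positivity)
    (fun n => mag_nonneg h n _) fun n => ?_
  set x := mag q lam n (regular d n)
  have h1 : mag q lam (n + 1) (regular d (n + 1))
      ≤ (1 - ∏ _j : Fin d, (1 - c * lam ^ 2 * x)) / c := hnode n (regular d (n + 1))
  simp only [prod_const, card_univ, Fintype.card_fin] at h1
  have hu0 : 0 ≤ c * lam ^ 2 * x := mul_nonneg (by positivity) (mag_nonneg h n _)
  have h2 := one_sub_pow_le hu0 (mul_mag_le_one h hc hc2 hl n _) d hd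
  refine h1.trans ((div_le_iff₀ hc).2 ?_)
  have h3 := mul_le_mul_of_nonneg_right hr (mul_nonneg hc.le (mag_nonneg h n (regular d n)))
  nlinarith

end Vale.Agent.P154
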