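import Vale.Agent.P154.KS
import Vale.Agent.P154.Converse

/-!
# From the three-state development to the general model
-/

namespace Vale.Agent.P154.Q3

open Filter Topology

/-- Spin configurations on the last level, in the two encodings. -/
def obsEquiv : (n : ℕ) → (t : RTree n) → ((Leaf n t → Fin 3) ≃ Obs 3 n t)
  | 0, _ => Equiv.funUnique Unit (Fin 3)
  | n + 1, t => (Equiv.piCurry fun (c : Fin t.1) (_ : Leaf n (t.2 c)) => Fin 3).trans
      (Equiv.piCongrRight fun c => obsEquiv n (t.2 c))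

theorem potts_eq (lam : ℝ) (i j : Fin 3) : potts lam i j = P154.potts 3 lam i j := by
  unfold potts P154.potts
  norm_num

theorem lik_eq (lam : ℝ) : ∀ (n : ℕ) (t : RTree n) (η : Leaf n t → Fin 3) (i : Fin 3),
    P154.lik 3 lam n t i (obsEquiv n t η) = lik lam n t η i
  | 0, _, η, i => rfl
  | n + 1, t, η, i => by
    show ∏ c : Fin t.1, ∑ a, P154.potts 3 lam i a *
        P154.lik 3 lam n (t.2 c) a (obsEquiv n (t.2 c) fun v => η ⟨c, v⟩) =
      ∏ c : Fin t.1, ∑ a, potts lam i a * lik lam n (t.2 c) (fun v => η ⟨c, v⟩) a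
    simp only [potts_eq, lik_eq lam n]

theorem treeAdv_eq (lam : ℝ) (n : ℕ) (t : RTree n) : treeAdv lam n t = advantage 3 lam n t := by
  unfold treeAdv advantage
  rw [Finset.mul_sum]
  refine Fintype.sum_equiv (obsEquiv n t) _ _ fun η => ?_
  simp only [lik_eq]
  rw [show ((3 : ℕ) : ℝ) = 3 by norm_num, Finset.mul_sum, Finset.mul_sum]
  refine Finset.sum_congr rfl fun i _ => ?_
  rw [← Finset.sum_div, ← sub_div, abs_div, abs_of_pos (by norm_num : (0 : ℝ) < 3)]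
  ring

theorem gwWeight_eq (d : ℝ) : ∀ (n : ℕ) (t : RTree n), gwWeight d n t = P154.gwWeight d n t
  | 0, _ => rfl
  | n + 1, t => by
    show poissonWeight d t.1 * ∏ c : Fin t.1, gwWeight d n (t.2 c) =
      poisson d t.1 * ∏ c : Fin t.1, P154.gwWeight d n (t.2 c)
    simp only [gwWeight_eq d n]
    rfl

theorem regTree_eq (d : ℕ) : ∀ n, regTree d n = regular d n
  | 0 => rfl
  | n + 1 => by
    show (⟨d, fun _ => regTree d n⟩ : RTree (n + 1)) = ⟨d, fun _ => regular d n⟩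
    rw [regTree_eq d n]

theorem regAdv_eq (d : ℕ) (lam : ℝ) : regAdv d lam = aRegular 3 d lam := by
  funext n
  rw [regAdv, treeAdv_eq, regTree_eq]
  rfl

theorem gwAdv_eq (d lam : ℝ) : gwAdv d lam = aPoisson 3 d lam := by
  funext n
  exact tsum_congr fun t => by rw [gwWeight_eq, treeAdv_eq]

theorem gw_tendsto {d lam : ℝ} (hd : 0 < d) (h0 : 0 ≤ lam) (h1 : lam ≤ 1)
    (h : d * lam ^ 2 ≤ 1) : Tendsto (gwAdv d lam) atTop (𝓝 0) := by
  rcases h1.lt_or_eq with hlt | rfl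
  · exact gw_tendsto_lt hd h0 hlt h
  · exact gw_tendsto_one hd (by simpa using h)

theorem not_tendsto_of_le {a : ℕ → ℝ} {c : ℝ} (hc : 0 < c) (h : ∀ n, c ≤ a n) :
    ¬ Tendsto a atTop (𝓝 0) := fun ht => hc.not_ge (ge_of_tendsto' ht h)

theorem adm_three {lam : ℝ} (h0 : 0 ≤ lam) (h1 : lam ≤ 1) : Adm 3 lam :=
  ⟨by norm_num, le_trans (by norm_num) h0, h1⟩

theorem reg_iff {d : ℕ} (hd : 2 ≤ d) {lam : ℝ} (h0 : 0 ≤ lam) (h1 : lam ≤ 1) :
    (Tendsto (aRegular 3 d lam) atTop (𝓝 0) ↔ (d : ℝ) * lam ^ 2 ≤ 1) ∧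
      (1 < (d : ℝ) * lam ^ 2 → ∃ c > 0, ∀ n, c ≤ aRegular 3 d lam n) := by
  have key : 1 < (d : ℝ) * lam ^ 2 → ∃ c > 0, ∀ n, c ≤ aRegular 3 d lam n := fun h =>
    ⟨_, ksBound_pos (adm_three h0 h1) h, ksBound_le_aRegular (adm_three h0 h1) (by omega) h⟩
  refine ⟨⟨fun ht => not_lt.1 fun hlt => ?_, fun h => regAdv_eq d lam ▸ reg_tendsto hd h0 h⟩, key⟩
  obtain ⟨c, hc, hle⟩ := key hlt
  exact not_tendsto_of_le hc hle ht

theorem gw_iff {d : ℝ} (hd : 0 < d) {lam : ℝ} (h0 : 0 ≤ lam) (h1 : lam ≤ 1) :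
    (Tendsto (aPoisson 3 d lam) atTop (𝓝 0) ↔ d * lam ^ 2 ≤ 1) ∧
      (1 < d * lam ^ 2 → ∃ c > 0, ∀ n, c ≤ aPoisson 3 d lam n) := by
  have key : 1 < d * lam ^ 2 → ∃ c > 0, ∀ n, c ≤ aPoisson 3 d lam n := fun h =>
    ⟨_, ksBound_pos (adm_three h0 h1) h, ksBound_le_aPoisson (adm_three h0 h1) hd h⟩
  refine ⟨⟨fun ht => not_lt.1 fun hlt => ?_, fun h => gwAdv_eq d lam ▸ gw_tendsto hd h0 h1 h⟩, key⟩
  obtain ⟨c, hc, hle⟩ := key hlt
  exact not_tendsto_of_le hc hle ht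

end Vale.Agent.P154.Q3
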