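import Vale.Agent.P154.NegPoint
import Vale.Agent.P154.Transfer
import Vale.Agent.P154.ProdNode

/-!
# The node inequality for eigenvalues in `(-7/36, 0]`
-/

namespace Vale.Agent.P154.Q3

open scoped BigOperators Topology
open Filter

variable {lam : ℝ} {Ω Ω' : Type} [Fintype Ω] [Fintype Ω'] {L : Ω → Fin 3 → ℝ} {M : Ω' → Fin 3 → ℝ}

/-- The class functional of a channel on the antiferromagnetic side. -/
noncomputable def cPsiA (L : Ω → Fin 3 → ℝ) : ℝ := ∑ η, psiA (L η 0) (L η 1) (L η 2) / 3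

theorem cPsiA_congr {A B : Type} [Fintype A] [Fintype B] {L : B → Fin 3 → ℝ}
    {L' : A → Fin 3 → ℝ} (e : A ≃ B) (h : ∀ a, L' a = L (e a)) : cPsiA L' = cPsiA L := by
  simp only [cPsiA, h]; exact e.sum_comp fun b => psiA (L b 0) (L b 1) (L b 2) / 3

theorem push_neg_apply (m : Fin 3 → ℝ) :
    push (-7 / 36) m 0 = negPush (m 0) (m 1) (m 2) ∧
      push (-7 / 36) m 1 = negPush (m 1) (m 2) (m 0) ∧
        push (-7 / 36) m 2 = negPush (m 2) (m 0) (m 1) := by
  simp only [push, tot, negPush, gPush, Nat.cast_ofNat]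
  refine ⟨?_, ?_, ?_⟩ <;> ring

theorem push_push (a b : ℝ) (l : Fin 3 → ℝ) : push a (push b l) = push (a * b) l := by
  funext i
  show a * push b l i + (1 - a) / 3 * tot (push b l) = _
  rw [tot_push]; simp only [push]; ring

theorem isPos_edge_neg (pM : IsPos M) : IsPos (edge (-7 / 36) M) := fun η i => by
  have h := push_neg_apply (M η)
  fin_cases i
  · show 0 < push (-7 / 36) (M η) 0
    rw [h.1]; exact gPush_pos (pM η 0) (pM η 1) (pM η 2)
  · show 0 < push (-7 / 36) (M η) 1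
    rw [h.2.1]; exact gPush_pos (pM η 1) (pM η 2) (pM η 0)
  · show 0 < push (-7 / 36) (M η) 2
    rw [h.2.2]; exact gPush_pos (pM η 2) (pM η 0) (pM η 1)

theorem isChan_edge_neg (hM : IsChan M) (pM : IsPos M) : IsChan (edge (-7 / 36) M) where
  nonneg η i := (isPos_edge_neg pM η i).le
  tpos η := Or.inl ((isPos_edge_neg pM).tot η)
  sum_one i := by
    simp only [edge, push, tot, Finset.sum_add_distrib, ← Finset.mul_sum, hM.sum_one]
    ring
  symm σ := by
    obtain ⟨e, he⟩ := hM.symm σ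
    refine ⟨e, fun η i => ?_⟩
    have : tot (M (e η)) = tot (M η) := by
      have h := Equiv.sum_comp σ fun j => M η j
      simp only [Fin.sum_univ_three] at h
      simp only [tot, he]; linarith
    simp only [edge, push, he, this]

theorem neg_point {l m : Fin 3 → ℝ} (hl : ∀ i, 0 < l i) (hm : ∀ i, 0 < m i) :
    2 * (tot (push (-7 / 36) m) * (1 - 3 * rad (push (-7 / 36) m)) * psiA (l 0) (l 1) (l 2)) ≤
        ∑ k, psiA (l 0 * push (-7 / 36) m (six k 0)) (l 1 * push (-7 / 36) m (six k 1))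
          (l 2 * push (-7 / 36) m (six k 2)) ∧
      ∑ k, magV (fun i => l i * push (-7 / 36) m (six k i)) ≤
        2 * (magV l * tot (push (-7 / 36) m) + tot l * magV (push (-7 / 36) m) -
          1 / 100 * (magV l * magV (push (-7 / 36) m)) -
          2 * rad (push (-7 / 36) m) * (1 + 2 * rad (push (-7 / 36) m)) *
            tot (push (-7 / 36) m) * psiA (l 0) (l 1) (l 2)) := by
  obtain ⟨a, b, c⟩ := push_neg_apply m
  obtain ⟨h1, h2⟩ := good_all (hl 0) (hl 1) (hl 2) (hm 0) (hm 1) (hm 2)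
  rw [← a, ← b, ← c] at h1 h2
  simp only [Fin.sum_univ_six, six, magV, rad, tot, Matrix.cons_val, gSum, sixSum] at h1 h2 ⊢
  exact ⟨by linarith, by linarith⟩

theorem cPsiA_tens_ge (hM : IsChan M) (pL : IsPos L) (pM : IsPos M) :
    cAvg (edge (-7 / 36) M) (fun m => 1 - 3 * rad m) * cPsiA L ≤
      cPsiA (tens L (edge (-7 / 36) M)) := by
  have hE := isChan_edge_neg hM pM
  have e := sum_tens_eq (L := L) hE (fun l => psiA (l 0) (l 1) (l 2))
  have le : ∑ η, ∑ η', 2 * (tot (edge (-7 / 36) M η') * (1 - 3 * rad (edge (-7 / 36) M η')) *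
      psiA (L η 0) (L η 1) (L η 2)) ≤
      6 * ∑ p, psiA (tens L (edge (-7 / 36) M) p 0) (tens L (edge (-7 / 36) M) p 1)
        (tens L (edge (-7 / 36) M) p 2) := by
    rw [e]
    exact Finset.sum_le_sum fun η _ => Finset.sum_le_sum fun η' _ => (neg_point (pL η) (pM η')).1
  have e2 : ∑ η, ∑ η', 2 * (tot (edge (-7 / 36) M η') * (1 - 3 * rad (edge (-7 / 36) M η')) *
      psiA (L η 0) (L η 1) (L η 2)) =
      18 * (cAvg (edge (-7 / 36) M) (fun m => 1 - 3 * rad m) * cPsiA L) := by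
    simp only [cAvg, cPsiA, Finset.sum_mul, Finset.mul_sum]
    exact Finset.sum_congr rfl fun η _ => Finset.sum_congr rfl fun η' _ => by ring
  rw [e2] at le
  simp only [cPsiA, ← Finset.sum_div] at le ⊢
  linarith

theorem cX_tens_neg_le (hL : IsChan L) (hM : IsChan M) (pL : IsPos L) (pM : IsPos M) :
    cX (tens L (edge (-7 / 36) M)) ≤ cX L + cX (edge (-7 / 36) M) -
      1 / 100 * (cX L * cX (edge (-7 / 36) M)) -
      2 * (cAvg (edge (-7 / 36) M) fun m => rad m * (1 + 2 * rad m)) * cPsiA L := by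
  have hE := isChan_edge_neg hM pM
  have e := sum_tens_eq (L := L) hE magV
  set E := edge (-7 / 36) M with hEdef
  have le : 6 * ∑ p, magV (tens L E p) ≤ ∑ η, ∑ η', 2 * (magV (L η) * tot (E η') +
      tot (L η) * magV (E η') - 1 / 100 * (magV (L η) * magV (E η')) -
      2 * rad (E η') * (1 + 2 * rad (E η')) * tot (E η') * psiA (L η 0) (L η 1) (L η 2)) := by
    rw [e]
    exact Finset.sum_le_sum fun η _ => Finset.sum_le_sum fun η' _ => (neg_point (pL η) (pM η')).2
  have e2 : ∑ η, ∑ η', 2 * (magV (L η) * tot (E η') + tot (L η) * magV (E η') -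
      1 / 100 * (magV (L η) * magV (E η')) -
      2 * rad (E η') * (1 + 2 * rad (E η')) * tot (E η') * psiA (L η 0) (L η 1) (L η 2)) =
      18 * (cX L * ∑ η', tot (E η') / 3 + (∑ η, tot (L η) / 3) * cX E -
        1 / 100 * (cX L * cX E) -
        2 * (cAvg E fun m => rad m * (1 + 2 * rad m)) * cPsiA L) := by
    rw [Finset.sum_congr rfl fun η _ => Finset.sum_congr rfl fun η' _ => show
      2 * (magV (L η) * tot (E η') + tot (L η) * magV (E η') -
        1 / 100 * (magV (L η) * magV (E η')) -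
        2 * rad (E η') * (1 + 2 * rad (E η')) * tot (E η') * psiA (L η 0) (L η 1) (L η 2)) =
      18 * ((magV (L η) / 3) * (tot (E η') / 3) + (tot (L η) / 3) * (magV (E η') / 3) -
        1 / 100 * ((magV (L η) / 3) * (magV (E η') / 3)) -
        2 * ((psiA (L η 0) (L η 1) (L η 2) / 3) *
          (tot (E η') / 3 * (rad (E η') * (1 + 2 * rad (E η')))))) by ring]
    simp only [← Finset.mul_sum, Finset.sum_sub_distrib, Finset.sum_add_distrib, ← Finset.sum_mul]
    simp only [cX, cPsiA, cAvg]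
    ring
  rw [e2, hL.tot_avg, hE.tot_avg] at le
  have : cX (tens L E) = (∑ p, magV (tens L E p)) / 3 := by simp only [cX, Finset.sum_div]
  linarith

theorem cX_le_one (h : IsChan L) : cX L ≤ 1 := by
  rw [cX_eq_avg h, ← h.tot_avg]
  exact Finset.sum_le_sum fun η _ => mul_le_of_le_one_right (div_nonneg (by
    have := h.nonneg η 0; have := h.nonneg η 1; have := h.nonneg η 2
    unfold tot; linarith) (by norm_num)) (rad_le_one (h.nonneg η))

theorem avg_neg_factor_nonneg (hM : IsChan M) (pM : IsPos M) :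
    0 ≤ cAvg (edge (-7 / 36) M) (fun m => 1 - 3 * rad m) ∧
      0 ≤ cAvg (edge (-7 / 36) M) (fun m => rad m * (1 + 2 * rad m)) := by
  refine ⟨Finset.sum_nonneg fun η _ => mul_nonneg ?_ ?_,
    Finset.sum_nonneg fun η _ => mul_nonneg ?_ ?_⟩
  · exact div_nonneg ((isPos_edge_neg pM).tot η).le (by norm_num)
  · have := rad_le_one (hM.nonneg η)
    simp only [edge, rad_push]
    linarith
  · exact div_nonneg ((isPos_edge_neg pM).tot η).le (by norm_num)
  · have := rad_nonneg (edge (-7 / 36) M η)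
    positivity

theorem neg_prod_spec : ∀ (k : ℕ) (Ω : Fin k → Type) [∀ c, Fintype (Ω c)]
    (L : ∀ c, Ω c → Fin 3 → ℝ), (∀ c, IsChan (L c)) → (∀ c, IsPos (L c)) →
      IsChan (prodL fun c => edge (-7 / 36) (L c)) ∧ IsPos (prodL fun c => edge (-7 / 36) (L c)) ∧
        0 ≤ cPsiA (prodL fun c => edge (-7 / 36) (L c)) ∧
        1 / 100 * cX (prodL fun c => edge (-7 / 36) (L c)) ≤
          1 - ∏ c, (1 - 1 / 100 * cX (edge (-7 / 36) (L c))) := by
  intro k
  induction k with
  | zero =>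
    intro Ω _ L _ _
    have hp : IsPos (prodL fun c => edge (-7 / 36) (L c)) := fun η i => by simp [prodL]
    refine ⟨⟨fun η i => (hp η i).le, fun η => Or.inl (tot_pos (hp η)), fun i => by simp [prodL],
      fun σ => ⟨Equiv.refl _, fun η i => by simp [prodL]⟩⟩, hp, ?_, ?_⟩
    · simp [cPsiA, psiA, gAp, gAm, gSum, gQd, gE2, prodL]; norm_num
    · simp [cX, magV, mag, nsq, prodL]
  | succ k ih =>
    intro Ω _ L hC hP
    obtain ⟨rC, rP, rK, rX⟩ := ih (fun c => Ω c.succ) (fun c => L c.succ) (fun c => hC _)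
      (fun c => hP _)
    set R := prodL fun c : Fin k => edge (-7 / 36) (L c.succ)
    have he : ∀ η, prodL (fun c => edge (-7 / 36) (L c)) η = tens R (edge (-7 / 36) (L 0))
        (((Fin.consEquiv Ω).symm.trans (Equiv.prodComm _ _)) η) := fun η => by
      funext i; simp [R, prodL, tens, Fin.prod_univ_succ, Fin.consEquiv, Fin.tail, mul_comm]
    have eC := isChan_edge_neg (hC 0) (hP 0)
    have eP := isPos_edge_neg (hP 0)
    obtain ⟨f1, f2⟩ := avg_neg_factor_nonneg (hC 0) (hP 0)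
    refine ⟨isChan_congr _ he (isChan_tens rC eC rP eP),
      fun η i => Finset.prod_pos fun c _ => isPos_edge_neg (hP c) _ i, ?_, ?_⟩
    · rw [cPsiA_congr _ he]
      exact (mul_nonneg f1 rK).trans (cPsiA_tens_ge (hC 0) rP (hP 0))
    · rw [cX_congr _ he, Fin.prod_univ_succ]
      have h1 := cX_tens_neg_le rC (hC 0) rP (hP 0)
      have h2 := mul_nonneg f2 rK
      have h3 := mul_le_mul_of_nonneg_left rX
        (by linarith [cX_le_one eC] : (0 : ℝ) ≤ 1 - 1 / 100 * cX (edge (-7 / 36) (L 0)))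
      linarith

omit [Fintype Ω] in
theorem edge_factor (lam : ℝ) (L : Ω → Fin 3 → ℝ) :
    edge lam L = edge (-7 / 36) (edge (-36 / 7 * lam) L) := by
  funext η
  show push lam (L η) = push (-7 / 36) (push (-36 / 7 * lam) (L η))
  rw [push_push]
  congr 1
  ring

theorem neg_spec (h0 : -7 / 36 < lam) (h1 : lam ≤ 0) : ∀ (n : ℕ) (t : RTree n),
    IsChan (lik lam n t) ∧ ∀ η, 0 < tot (lik lam n t η) := by
  intro n
  induction n with
  | zero =>
    intro t
    obtain ⟨a, b, -⟩ := lik_spec (lam := 0) le_rfl one_pos 0 t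
    exact ⟨a, b⟩
  | succ n ih =>
    intro t
    have e : childChan lam t = fun c => edge (-7 / 36) (edge (-36 / 7 * lam) (lik lam n (t.2 c))) :=
      funext fun c => edge_factor _ _
    obtain ⟨pC, pP, -, -⟩ := neg_prod_spec t.1 _
      (fun c => edge (-36 / 7 * lam) (lik lam n (t.2 c)))
      (fun c => isChan_edge (by linarith) (by linarith) (ih _).1)
      (fun c => isPos_edge (by linarith) (by linarith) (ih _).1 (ih _).2)
    rw [← e] at pC pP
    exact ⟨isChan_congr _ (lik_succ t) pC, fun η => by rw [lik_succ]; exact pP.tot _⟩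

theorem treeX_neg_le (h0 : -7 / 36 < lam) (h1 : lam ≤ 0) {n : ℕ} (t : RTree (n + 1)) :
    1 / 100 * treeX lam (n + 1) t ≤
      1 - ∏ c : Fin t.1, (1 - 1 / 100 * (lam ^ 2 * treeX lam n (t.2 c))) := by
  have e : childChan lam t = fun c => edge (-7 / 36) (edge (-36 / 7 * lam) (lik lam n (t.2 c))) :=
    funext fun c => edge_factor _ _
  have h := (neg_prod_spec t.1 _ (fun c => edge (-36 / 7 * lam) (lik lam n (t.2 c)))
    (fun c => isChan_edge (by linarith) (by linarith) (neg_spec h0 h1 n _).1)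
    (fun c => isPos_edge (by linarith) (by linarith) (neg_spec h0 h1 n _).1
      (neg_spec h0 h1 n _).2)).2.2.2
  rw [← e] at h
  simp only [← edge_factor, cX_edge] at h
  rw [treeX, cX_congr _ (lik_succ t)]
  exact h

theorem mag_eq (lam : ℝ) (n : ℕ) (t : RTree n) :
    P154.mag 3 lam n t = 2 / 3 * treeX lam n t := by
  rw [treeX, cX, Finset.mul_sum]
  unfold P154.mag
  refine (Fintype.sum_equiv (obsEquiv n t) _ _ fun η => ?_).symm
  simp only [lik_eq, Fin.sum_univ_three, magV, mag, nsq, Nat.cast_ofNat]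
  generalize lik lam n t η = l
  rcases eq_or_ne (l 0 + l 1 + l 2) 0 with h | h
  · simp [h]
  · field_simp; ring

theorem neg_prodNode (h0 : -7 / 36 < lam) (h1 : lam ≤ 0) : ProdNode 3 lam (3 / 200) := by
  intro n t
  rw [le_div_iff₀ (by norm_num)]
  simp only [mag_eq]
  have h := treeX_neg_le h0 h1 t
  have e : ∀ c, (1 : ℝ) - 3 / 200 * lam ^ 2 * (2 / 3 * treeX lam n (t.2 c)) =
      1 - 1 / 100 * (lam ^ 2 * treeX lam n (t.2 c)) := fun c => by ring
  rw [Finset.prod_congr rfl fun c _ => e c]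
  linarith

theorem small_of_le {d lam : ℝ} (hd : 27 ≤ d) (h : d * lam ^ 2 ≤ 1) : -7 / 36 < lam := by
  by_contra hc
  push Not at hc
  have h1 : (7 / 36 : ℝ) ^ 2 ≤ lam ^ 2 := by nlinarith
  have := mul_le_mul hd h1 (by norm_num) (by linarith)
  linarith

theorem adm_three' {lam : ℝ} (h0 : -1 / 2 ≤ lam) (h1 : lam ≤ 1) : Adm 3 lam :=
  ⟨by norm_num, by norm_num; linarith, h1⟩

theorem reg_iff_large {d : ℕ} (hd : 27 ≤ d) (h0 : -1 / 2 ≤ lam) (h1 : lam ≤ 1) :
    (Tendsto (aRegular 3 d lam) atTop (𝓝 0) ↔ (d : ℝ) * lam ^ 2 ≤ 1) ∧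
      (1 < (d : ℝ) * lam ^ 2 → ∃ c > 0, ∀ n, c ≤ aRegular 3 d lam n) := by
  rcases le_total 0 lam with hp | hn
  · exact reg_iff (by omega) hp h1
  have hA := adm_three' h0 h1
  have key : 1 < (d : ℝ) * lam ^ 2 → ∃ c > 0, ∀ n, c ≤ aRegular 3 d lam n := fun h =>
    ⟨_, ksBound_pos hA h, ksBound_le_aRegular hA (by omega) h⟩
  refine ⟨⟨fun ht => not_lt.1 fun hlt => ?_, fun h => ?_⟩, key⟩
  · obtain ⟨c, hc, hle⟩ := key hlt
    exact not_tendsto_of_le hc hle ht
  · exact tendsto_aRegular_of_prodNode hA (by omega) (by norm_num) (by norm_num) h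
      (neg_prodNode (small_of_le (by exact_mod_cast hd) h) hn)

theorem gw_iff_large {d : ℝ} (hd : 27 ≤ d) (h0 : -1 / 2 ≤ lam) (h1 : lam ≤ 1) :
    (Tendsto (aPoisson 3 d lam) atTop (𝓝 0) ↔ d * lam ^ 2 ≤ 1) ∧
      (1 < d * lam ^ 2 → ∃ c > 0, ∀ n, c ≤ aPoisson 3 d lam n) := by
  rcases le_total 0 lam with hp | hn
  · exact gw_iff (by linarith) hp h1
  have hA := adm_three' h0 h1
  have key : 1 < d * lam ^ 2 → ∃ c > 0, ∀ n, c ≤ aPoisson 3 d lam n := fun h =>
    ⟨_, ksBound_pos hA h, ksBound_le_aPoisson hA (by linarith) h⟩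
  refine ⟨⟨fun ht => not_lt.1 fun hlt => ?_, fun h => ?_⟩, key⟩
  · obtain ⟨c, hc, hle⟩ := key hlt
    exact not_tendsto_of_le hc hle ht
  · exact tendsto_aPoisson_of_prodNode hA (by linarith) (by norm_num) (by norm_num)
      (by nlinarith) h (neg_prodNode (small_of_le hd h) hn)

end Vale.Agent.P154.Q3
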