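import Vale.Agent.P154.NegCert

/-!
# Positivity certificates for the class `E a² ≤ (9/2) (E a)²` at the edge `-1/2`

With `a`, `b` the squared magnetisations of the two normalised vectors and `r` the cubic invariant
of the first one, averaged over three rotations
`F ≤ a² + b² + (11/2) a b - 2 r b` and `G ≥ a + b - (23/16) a b - r b`,
where `F`, `G` are the contributions of the product to `E a''²`, `E a''`.
-/

namespace Vale.Agent.P154.Q3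

section Formula
variable {R : Type} [Add R] [Mul R]

/-- Product of the three coordinates. -/
def gE3 (x y w : R) : R := x * y * w
/-- Fourth power of the sum. -/
def gQuad (x y w : R) : R := gSq x y w * gSq x y w
/-- Positive part of the cube of the sum times twice the cubic invariant. -/
def gRp (c : ℕ → R) (x y w : R) : R := c 2 * gCube (gSum x y w) + c 27 * gE3 x y w
/-- Its negative part. -/
def gRn (c : ℕ → R) (x y w : R) : R := c 9 * (gE2 x y w * gSum x y w)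
/-- Positive part of the square of `nsq`. -/
def gN2p (c : ℕ → R) (x y w : R) : R := gQuad x y w + c 9 * (gE2 x y w * gE2 x y w)
/-- Its negative part. -/
def gN2n (c : ℕ → R) (x y w : R) : R := c 6 * (gSq x y w * gE2 x y w)
/-- The negative part of `nsq` times the square of the sum. -/
def gN1n (c : ℕ → R) (x y w : R) : R := c 3 * (gSq x y w * gE2 x y w)
/-- Positive part of the product term. -/
def gABp (c : ℕ → R) (x y w u v z : R) : R :=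
  gSq x y w * gSq u v z * (gSq x y w * gSq u v z + c 9 * (gE2 x y w * gE2 u v z))
/-- Its negative part. -/
def gABn (c : ℕ → R) (x y w u v z : R) : R :=
  c 3 * (gSq x y w * gSq u v z * (gSq x y w * gE2 u v z + gSq u v z * gE2 x y w))
/-- Positive part of the cubic term. -/
def gRBp (c : ℕ → R) (x y w u v z : R) : R :=
  gSum x y w * gSq u v z * (gRp c x y w * gSq u v z + gRn c x y w * (c 3 * gE2 u v z))
/-- Its negative part. -/
def gRBn (c : ℕ → R) (x y w u v z : R) : R :=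
  gSum x y w * gSq u v z * (gRn c x y w * gSq u v z + gRp c x y w * (c 3 * gE2 u v z))
/-- Smaller side, mean square. -/
def gAL (c : ℕ → R) (x y w u v z : R) : R :=
  c 2 * (gCube (gSum x y w) * gCube (gSum u v z) * gKsum (gN2p c) x y w u v z) +
    gCube (gPi x y w u v z) * (c 2 * (gN2n c x y w * gQuad u v z + gQuad x y w * gN2n c u v z) +
      c 11 * gABn c x y w u v z + c 2 * gRBp c x y w u v z)
/-- Larger side, mean square. -/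
def gAR (c : ℕ → R) (x y w u v z : R) : R :=
  c 2 * (gCube (gSum x y w) * gCube (gSum u v z) * gKsum (gN2n c) x y w u v z) +
    gCube (gPi x y w u v z) * (c 2 * (gN2p c x y w * gQuad u v z + gQuad x y w * gN2p c u v z) +
      c 11 * gABp c x y w u v z + c 2 * gRBn c x y w u v z)
/-- Smaller side, magnetisation. -/
def gBL (c : ℕ → R) (x y w u v z : R) : R :=
  c 16 * (gCube (gSum x y w) * gCube (gSum u v z) * gKsum (gN1n c) x y w u v z) +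
    gCube (gPi x y w u v z) * (c 32 * (gQuad x y w * gQuad u v z) +
      c 23 * gABn c x y w u v z + c 8 * gRBn c x y w u v z)
/-- Larger side, magnetisation. -/
def gBR (c : ℕ → R) (x y w u v z : R) : R :=
  c 16 * (gCube (gSum x y w) * gCube (gSum u v z) * gKsum gQuad x y w u v z) +
    gCube (gPi x y w u v z) * (c 16 * (gN1n c x y w * gQuad u v z + gQuad x y w * gN1n c u v z) +
      c 23 * gABp c x y w u v z + c 8 * gRBp c x y w u v z)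

end Formula

theorem four_deg_Afwd :
    let u := gAL GV.const
      (GV.const 1) ((GV.const 1) + GV.X1) ((GV.const 1) + GV.X1 + GV.X2)
      (((GV.const 1) + GV.X3) + ((GV.const 1) + GV.X3 + GV.X4)) (((GV.const 1) + GV.X3 + GV.X4) + (GV.const 1)) ((GV.const 1) + ((GV.const 1) + GV.X3))
    let v := gAR GV.const
      (GV.const 1) ((GV.const 1) + GV.X1) ((GV.const 1) + GV.X1 + GV.X2)
      (((GV.const 1) + GV.X3) + ((GV.const 1) + GV.X3 + GV.X4)) (((GV.const 1) + GV.X3 + GV.X4) + (GV.const 1)) ((GV.const 1) + ((GV.const 1) + GV.X3))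
    u.a ≤ 13 ∧ u.b ≤ 13 ∧ u.c ≤ 13 ∧ u.d ≤ 13 ∧
      v.a ≤ 13 ∧ v.b ≤ 13 ∧ v.c ≤ 13 ∧ v.d ≤ 13 := by
  decide +kernel

theorem four_small_Afwd :
    gAL (fun k : ℕ => k)
      1 (1 + 1) (1 + 1 + 1)
      ((1 + 1) + (1 + 1 + 1)) ((1 + 1 + 1) + 1) (1 + (1 + 1)) < (2 ^ 128) ∧
    gAR (fun k : ℕ => k)
      1 (1 + 1) (1 + 1 + 1)
      ((1 + 1) + (1 + 1 + 1)) ((1 + 1 + 1) + 1) (1 + (1 + 1)) < (2 ^ 128) := by decide +kernel

theorem four_chk_Afwd :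
    chk4 (2 ^ 128) 14 (gAL (fun k : ℕ => k)
      1 (1 + (((2 ^ 128) ^ 14) ^ 14) ^ 14) (1 + (((2 ^ 128) ^ 14) ^ 14) ^ 14 + ((2 ^ 128) ^ 14) ^ 14)
      ((1 + (2 ^ 128) ^ 14) + (1 + (2 ^ 128) ^ 14 + (2 ^ 128))) ((1 + (2 ^ 128) ^ 14 + (2 ^ 128)) + 1) (1 + (1 + (2 ^ 128) ^ 14)))
      (gAR (fun k : ℕ => k)
      1 (1 + (((2 ^ 128) ^ 14) ^ 14) ^ 14) (1 + (((2 ^ 128) ^ 14) ^ 14) ^ 14 + ((2 ^ 128) ^ 14) ^ 14)
      ((1 + (2 ^ 128) ^ 14) + (1 + (2 ^ 128) ^ 14 + (2 ^ 128))) ((1 + (2 ^ 128) ^ 14 + (2 ^ 128)) + 1) (1 + (1 + (2 ^ 128) ^ 14))) = true := by decide +kernel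

theorem four_cert_Afwd {a b c d : ℝ} (ha : 0 ≤ a) (hb : 0 ≤ b) (hc : 0 ≤ c) (hd : 0 ≤ d) :
    gAL (fun k : ℕ => (k : ℝ))
      1 (1 + a) (1 + a + b)
      ((1 + c) + (1 + c + d)) ((1 + c + d) + 1) (1 + (1 + c)) ≤
    gAR (fun k : ℕ => (k : ℝ))
      1 (1 + a) (1 + a + b)
      ((1 + c) + (1 + c + d)) ((1 + c + d) + 1) (1 + (1 + c)) := by
  set u := gAL GV.const
      (GV.const 1) ((GV.const 1) + GV.X1) ((GV.const 1) + GV.X1 + GV.X2)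
      (((GV.const 1) + GV.X3) + ((GV.const 1) + GV.X3 + GV.X4)) (((GV.const 1) + GV.X3 + GV.X4) + (GV.const 1)) ((GV.const 1) + ((GV.const 1) + GV.X3)) with hu
  set v := gAR GV.const
      (GV.const 1) ((GV.const 1) + GV.X1) ((GV.const 1) + GV.X1 + GV.X2)
      (((GV.const 1) + GV.X3) + ((GV.const 1) + GV.X3 + GV.X4)) (((GV.const 1) + GV.X3 + GV.X4) + (GV.const 1)) ((GV.const 1) + ((GV.const 1) + GV.X3)) with hv
  obtain ⟨h1, h2, h3, h4, k1, k2, k3, k4⟩ := four_deg_Afwd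
  have hL : ∀ {S : Type} [CommSemiring S] (x y z w : S), u.q.ev x y z w =
      gAL (fun k : ℕ => (k : S))
      1 (1 + w) (1 + w + z)
      ((1 + y) + (1 + y + x)) ((1 + y + x) + 1) (1 + (1 + y)) := fun x y z w => by
    simp only [hu, gAL, gN2p, gN2n, gABn, gRBp, gKsum, gPi, gRp, gRn, gQuad, gSq, gE2, gE3, gCube, gSum, GV.q_add, GV.q_mul, GV.const, GV.X1, GV.X2, GV.X3, GV.X4,
      Q4.ev_add, Q4.ev_mul, Q4.ev_const, Q4.ev_X1, Q4.ev_X2, Q4.ev_X3, Q4.ev_X4, Nat.cast_one]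
  have hR : ∀ {S : Type} [CommSemiring S] (x y z w : S), v.q.ev x y z w =
      gAR (fun k : ℕ => (k : S))
      1 (1 + w) (1 + w + z)
      ((1 + y) + (1 + y + x)) ((1 + y + x) + 1) (1 + (1 + y)) := fun x y z w => by
    simp only [hv, gAR, gN2p, gN2n, gABp, gRBn, gKsum, gPi, gRp, gRn, gQuad, gSq, gE2, gE3, gCube, gSum, GV.q_add, GV.q_mul, GV.const, GV.X1, GV.X2, GV.X3, GV.X4,
      Q4.ev_add, Q4.ev_mul, Q4.ev_const, Q4.ev_X1, Q4.ev_X2, Q4.ev_X3, Q4.ev_X4, Nat.cast_one]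
  rw [← hL d c b a, ← hR d c b a]
  exact Q4.ev_le (n := 14) (B := (2 ^ 128)) (by norm_num) (u.deg.mono h1 h2 h3 h4)
    (v.deg.mono k1 k2 k3 k4) (by norm_num) (by norm_num) (by norm_num)
    (by rw [hL]; exact four_small_Afwd.1) (by rw [hR]; exact four_small_Afwd.2)
    (by rw [hL, hR]; exact four_chk_Afwd) hd hc hb ha

theorem four_deg_Arev :
    let u := gAL GV.const
      (GV.const 1) ((GV.const 1) + GV.X1) ((GV.const 1) + GV.X1 + GV.X2)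
      (((GV.const 1) + GV.X3) + (GV.const 1)) ((GV.const 1) + ((GV.const 1) + GV.X3 + GV.X4)) (((GV.const 1) + GV.X3 + GV.X4) + ((GV.const 1) + GV.X3))
    let v := gAR GV.const
      (GV.const 1) ((GV.const 1) + GV.X1) ((GV.const 1) + GV.X1 + GV.X2)
      (((GV.const 1) + GV.X3) + (GV.const 1)) ((GV.const 1) + ((GV.const 1) + GV.X3 + GV.X4)) (((GV.const 1) + GV.X3 + GV.X4) + ((GV.const 1) + GV.X3))
    u.a ≤ 13 ∧ u.b ≤ 13 ∧ u.c ≤ 13 ∧ u.d ≤ 13 ∧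
      v.a ≤ 13 ∧ v.b ≤ 13 ∧ v.c ≤ 13 ∧ v.d ≤ 13 := by
  decide +kernel

theorem four_small_Arev :
    gAL (fun k : ℕ => k)
      1 (1 + 1) (1 + 1 + 1)
      ((1 + 1) + 1) (1 + (1 + 1 + 1)) ((1 + 1 + 1) + (1 + 1)) < (2 ^ 128) ∧
    gAR (fun k : ℕ => k)
      1 (1 + 1) (1 + 1 + 1)
      ((1 + 1) + 1) (1 + (1 + 1 + 1)) ((1 + 1 + 1) + (1 + 1)) < (2 ^ 128) := by decide +kernel

theorem four_chk_Arev :
    chk4 (2 ^ 128) 14 (gAL (fun k : ℕ => k)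
      1 (1 + (((2 ^ 128) ^ 14) ^ 14) ^ 14) (1 + (((2 ^ 128) ^ 14) ^ 14) ^ 14 + ((2 ^ 128) ^ 14) ^ 14)
      ((1 + (2 ^ 128) ^ 14) + 1) (1 + (1 + (2 ^ 128) ^ 14 + (2 ^ 128))) ((1 + (2 ^ 128) ^ 14 + (2 ^ 128)) + (1 + (2 ^ 128) ^ 14)))
      (gAR (fun k : ℕ => k)
      1 (1 + (((2 ^ 128) ^ 14) ^ 14) ^ 14) (1 + (((2 ^ 128) ^ 14) ^ 14) ^ 14 + ((2 ^ 128) ^ 14) ^ 14)
      ((1 + (2 ^ 128) ^ 14) + 1) (1 + (1 + (2 ^ 128) ^ 14 + (2 ^ 128))) ((1 + (2 ^ 128) ^ 14 + (2 ^ 128)) + (1 + (2 ^ 128) ^ 14))) = true := by decide +kernel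

theorem four_cert_Arev {a b c d : ℝ} (ha : 0 ≤ a) (hb : 0 ≤ b) (hc : 0 ≤ c) (hd : 0 ≤ d) :
    gAL (fun k : ℕ => (k : ℝ))
      1 (1 + a) (1 + a + b)
      ((1 + c) + 1) (1 + (1 + c + d)) ((1 + c + d) + (1 + c)) ≤
    gAR (fun k : ℕ => (k : ℝ))
      1 (1 + a) (1 + a + b)
      ((1 + c) + 1) (1 + (1 + c + d)) ((1 + c + d) + (1 + c)) := by
  set u := gAL GV.const
      (GV.const 1) ((GV.const 1) + GV.X1) ((GV.const 1) + GV.X1 + GV.X2)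
      (((GV.const 1) + GV.X3) + (GV.const 1)) ((GV.const 1) + ((GV.const 1) + GV.X3 + GV.X4)) (((GV.const 1) + GV.X3 + GV.X4) + ((GV.const 1) + GV.X3)) with hu
  set v := gAR GV.const
      (GV.const 1) ((GV.const 1) + GV.X1) ((GV.const 1) + GV.X1 + GV.X2)
      (((GV.const 1) + GV.X3) + (GV.const 1)) ((GV.const 1) + ((GV.const 1) + GV.X3 + GV.X4)) (((GV.const 1) + GV.X3 + GV.X4) + ((GV.const 1) + GV.X3)) with hv
  obtain ⟨h1, h2, h3, h4, k1, k2, k3, k4⟩ := four_deg_Arev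
  have hL : ∀ {S : Type} [CommSemiring S] (x y z w : S), u.q.ev x y z w =
      gAL (fun k : ℕ => (k : S))
      1 (1 + w) (1 + w + z)
      ((1 + y) + 1) (1 + (1 + y + x)) ((1 + y + x) + (1 + y)) := fun x y z w => by
    simp only [hu, gAL, gN2p, gN2n, gABn, gRBp, gKsum, gPi, gRp, gRn, gQuad, gSq, gE2, gE3, gCube, gSum, GV.q_add, GV.q_mul, GV.const, GV.X1, GV.X2, GV.X3, GV.X4,
      Q4.ev_add, Q4.ev_mul, Q4.ev_const, Q4.ev_X1, Q4.ev_X2, Q4.ev_X3, Q4.ev_X4, Nat.cast_one]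
  have hR : ∀ {S : Type} [CommSemiring S] (x y z w : S), v.q.ev x y z w =
      gAR (fun k : ℕ => (k : S))
      1 (1 + w) (1 + w + z)
      ((1 + y) + 1) (1 + (1 + y + x)) ((1 + y + x) + (1 + y)) := fun x y z w => by
    simp only [hv, gAR, gN2p, gN2n, gABp, gRBn, gKsum, gPi, gRp, gRn, gQuad, gSq, gE2, gE3, gCube, gSum, GV.q_add, GV.q_mul, GV.const, GV.X1, GV.X2, GV.X3, GV.X4,
      Q4.ev_add, Q4.ev_mul, Q4.ev_const, Q4.ev_X1, Q4.ev_X2, Q4.ev_X3, Q4.ev_X4, Nat.cast_one]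
  rw [← hL d c b a, ← hR d c b a]
  exact Q4.ev_le (n := 14) (B := (2 ^ 128)) (by norm_num) (u.deg.mono h1 h2 h3 h4)
    (v.deg.mono k1 k2 k3 k4) (by norm_num) (by norm_num) (by norm_num)
    (by rw [hL]; exact four_small_Arev.1) (by rw [hR]; exact four_small_Arev.2)
    (by rw [hL, hR]; exact four_chk_Arev) hd hc hb ha

theorem four_deg_Bfwd :
    let u := gBL GV.const
      (GV.const 1) ((GV.const 1) + GV.X1) ((GV.const 1) + GV.X1 + GV.X2)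
      (((GV.const 1) + GV.X3) + ((GV.const 1) + GV.X3 + GV.X4)) (((GV.const 1) + GV.X3 + GV.X4) + (GV.const 1)) ((GV.const 1) + ((GV.const 1) + GV.X3))
    let v := gBR GV.const
      (GV.const 1) ((GV.const 1) + GV.X1) ((GV.const 1) + GV.X1 + GV.X2)
      (((GV.const 1) + GV.X3) + ((GV.const 1) + GV.X3 + GV.X4)) (((GV.const 1) + GV.X3 + GV.X4) + (GV.const 1)) ((GV.const 1) + ((GV.const 1) + GV.X3))
    u.a ≤ 13 ∧ u.b ≤ 13 ∧ u.c ≤ 13 ∧ u.d ≤ 13 ∧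
      v.a ≤ 13 ∧ v.b ≤ 13 ∧ v.c ≤ 13 ∧ v.d ≤ 13 := by
  decide +kernel

theorem four_small_Bfwd :
    gBL (fun k : ℕ => k)
      1 (1 + 1) (1 + 1 + 1)
      ((1 + 1) + (1 + 1 + 1)) ((1 + 1 + 1) + 1) (1 + (1 + 1)) < (2 ^ 128) ∧
    gBR (fun k : ℕ => k)
      1 (1 + 1) (1 + 1 + 1)
      ((1 + 1) + (1 + 1 + 1)) ((1 + 1 + 1) + 1) (1 + (1 + 1)) < (2 ^ 128) := by decide +kernel

theorem four_chk_Bfwd :
    chk4 (2 ^ 128) 14 (gBL (fun k : ℕ => k)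
      1 (1 + (((2 ^ 128) ^ 14) ^ 14) ^ 14) (1 + (((2 ^ 128) ^ 14) ^ 14) ^ 14 + ((2 ^ 128) ^ 14) ^ 14)
      ((1 + (2 ^ 128) ^ 14) + (1 + (2 ^ 128) ^ 14 + (2 ^ 128))) ((1 + (2 ^ 128) ^ 14 + (2 ^ 128)) + 1) (1 + (1 + (2 ^ 128) ^ 14)))
      (gBR (fun k : ℕ => k)
      1 (1 + (((2 ^ 128) ^ 14) ^ 14) ^ 14) (1 + (((2 ^ 128) ^ 14) ^ 14) ^ 14 + ((2 ^ 128) ^ 14) ^ 14)
      ((1 + (2 ^ 128) ^ 14) + (1 + (2 ^ 128) ^ 14 + (2 ^ 128))) ((1 + (2 ^ 128) ^ 14 + (2 ^ 128)) + 1) (1 + (1 + (2 ^ 128) ^ 14))) = true := by decide +kernel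

theorem four_cert_Bfwd {a b c d : ℝ} (ha : 0 ≤ a) (hb : 0 ≤ b) (hc : 0 ≤ c) (hd : 0 ≤ d) :
    gBL (fun k : ℕ => (k : ℝ))
      1 (1 + a) (1 + a + b)
      ((1 + c) + (1 + c + d)) ((1 + c + d) + 1) (1 + (1 + c)) ≤
    gBR (fun k : ℕ => (k : ℝ))
      1 (1 + a) (1 + a + b)
      ((1 + c) + (1 + c + d)) ((1 + c + d) + 1) (1 + (1 + c)) := by
  set u := gBL GV.const
      (GV.const 1) ((GV.const 1) + GV.X1) ((GV.const 1) + GV.X1 + GV.X2)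
      (((GV.const 1) + GV.X3) + ((GV.const 1) + GV.X3 + GV.X4)) (((GV.const 1) + GV.X3 + GV.X4) + (GV.const 1)) ((GV.const 1) + ((GV.const 1) + GV.X3)) with hu
  set v := gBR GV.const
      (GV.const 1) ((GV.const 1) + GV.X1) ((GV.const 1) + GV.X1 + GV.X2)
      (((GV.const 1) + GV.X3) + ((GV.const 1) + GV.X3 + GV.X4)) (((GV.const 1) + GV.X3 + GV.X4) + (GV.const 1)) ((GV.const 1) + ((GV.const 1) + GV.X3)) with hv
  obtain ⟨h1, h2, h3, h4, k1, k2, k3, k4⟩ := four_deg_Bfwd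
  have hL : ∀ {S : Type} [CommSemiring S] (x y z w : S), u.q.ev x y z w =
      gBL (fun k : ℕ => (k : S))
      1 (1 + w) (1 + w + z)
      ((1 + y) + (1 + y + x)) ((1 + y + x) + 1) (1 + (1 + y)) := fun x y z w => by
    simp only [hu, gBL, gN1n, gABn, gRBn, gKsum, gPi, gRp, gRn, gQuad, gSq, gE2, gE3, gCube, gSum, GV.q_add, GV.q_mul, GV.const, GV.X1, GV.X2, GV.X3, GV.X4,
      Q4.ev_add, Q4.ev_mul, Q4.ev_const, Q4.ev_X1, Q4.ev_X2, Q4.ev_X3, Q4.ev_X4, Nat.cast_one]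
  have hR : ∀ {S : Type} [CommSemiring S] (x y z w : S), v.q.ev x y z w =
      gBR (fun k : ℕ => (k : S))
      1 (1 + w) (1 + w + z)
      ((1 + y) + (1 + y + x)) ((1 + y + x) + 1) (1 + (1 + y)) := fun x y z w => by
    simp only [hv, gBR, gN1n, gABp, gRBp, gKsum, gPi, gRp, gRn, gQuad, gSq, gE2, gE3, gCube, gSum, GV.q_add, GV.q_mul, GV.const, GV.X1, GV.X2, GV.X3, GV.X4,
      Q4.ev_add, Q4.ev_mul, Q4.ev_const, Q4.ev_X1, Q4.ev_X2, Q4.ev_X3, Q4.ev_X4, Nat.cast_one]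
  rw [← hL d c b a, ← hR d c b a]
  exact Q4.ev_le (n := 14) (B := (2 ^ 128)) (by norm_num) (u.deg.mono h1 h2 h3 h4)
    (v.deg.mono k1 k2 k3 k4) (by norm_num) (by norm_num) (by norm_num)
    (by rw [hL]; exact four_small_Bfwd.1) (by rw [hR]; exact four_small_Bfwd.2)
    (by rw [hL, hR]; exact four_chk_Bfwd) hd hc hb ha

theorem four_deg_Brev :
    let u := gBL GV.const
      (GV.const 1) ((GV.const 1) + GV.X1) ((GV.const 1) + GV.X1 + GV.X2)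
      (((GV.const 1) + GV.X3) + (GV.const 1)) ((GV.const 1) + ((GV.const 1) + GV.X3 + GV.X4)) (((GV.const 1) + GV.X3 + GV.X4) + ((GV.const 1) + GV.X3))
    let v := gBR GV.const
      (GV.const 1) ((GV.const 1) + GV.X1) ((GV.const 1) + GV.X1 + GV.X2)
      (((GV.const 1) + GV.X3) + (GV.const 1)) ((GV.const 1) + ((GV.const 1) + GV.X3 + GV.X4)) (((GV.const 1) + GV.X3 + GV.X4) + ((GV.const 1) + GV.X3))
    u.a ≤ 13 ∧ u.b ≤ 13 ∧ u.c ≤ 13 ∧ u.d ≤ 13 ∧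
      v.a ≤ 13 ∧ v.b ≤ 13 ∧ v.c ≤ 13 ∧ v.d ≤ 13 := by
  decide +kernel

theorem four_small_Brev :
    gBL (fun k : ℕ => k)
      1 (1 + 1) (1 + 1 + 1)
      ((1 + 1) + 1) (1 + (1 + 1 + 1)) ((1 + 1 + 1) + (1 + 1)) < (2 ^ 128) ∧
    gBR (fun k : ℕ => k)
      1 (1 + 1) (1 + 1 + 1)
      ((1 + 1) + 1) (1 + (1 + 1 + 1)) ((1 + 1 + 1) + (1 + 1)) < (2 ^ 128) := by decide +kernel

theorem four_chk_Brev :
    chk4 (2 ^ 128) 14 (gBL (fun k : ℕ => k)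
      1 (1 + (((2 ^ 128) ^ 14) ^ 14) ^ 14) (1 + (((2 ^ 128) ^ 14) ^ 14) ^ 14 + ((2 ^ 128) ^ 14) ^ 14)
      ((1 + (2 ^ 128) ^ 14) + 1) (1 + (1 + (2 ^ 128) ^ 14 + (2 ^ 128))) ((1 + (2 ^ 128) ^ 14 + (2 ^ 128)) + (1 + (2 ^ 128) ^ 14)))
      (gBR (fun k : ℕ => k)
      1 (1 + (((2 ^ 128) ^ 14) ^ 14) ^ 14) (1 + (((2 ^ 128) ^ 14) ^ 14) ^ 14 + ((2 ^ 128) ^ 14) ^ 14)
      ((1 + (2 ^ 128) ^ 14) + 1) (1 + (1 + (2 ^ 128) ^ 14 + (2 ^ 128))) ((1 + (2 ^ 128) ^ 14 + (2 ^ 128)) + (1 + (2 ^ 128) ^ 14))) = true := by decide +kernel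

theorem four_cert_Brev {a b c d : ℝ} (ha : 0 ≤ a) (hb : 0 ≤ b) (hc : 0 ≤ c) (hd : 0 ≤ d) :
    gBL (fun k : ℕ => (k : ℝ))
      1 (1 + a) (1 + a + b)
      ((1 + c) + 1) (1 + (1 + c + d)) ((1 + c + d) + (1 + c)) ≤
    gBR (fun k : ℕ => (k : ℝ))
      1 (1 + a) (1 + a + b)
      ((1 + c) + 1) (1 + (1 + c + d)) ((1 + c + d) + (1 + c)) := by
  set u := gBL GV.const
      (GV.const 1) ((GV.const 1) + GV.X1) ((GV.const 1) + GV.X1 + GV.X2)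
      (((GV.const 1) + GV.X3) + (GV.const 1)) ((GV.const 1) + ((GV.const 1) + GV.X3 + GV.X4)) (((GV.const 1) + GV.X3 + GV.X4) + ((GV.const 1) + GV.X3)) with hu
  set v := gBR GV.const
      (GV.const 1) ((GV.const 1) + GV.X1) ((GV.const 1) + GV.X1 + GV.X2)
      (((GV.const 1) + GV.X3) + (GV.const 1)) ((GV.const 1) + ((GV.const 1) + GV.X3 + GV.X4)) (((GV.const 1) + GV.X3 + GV.X4) + ((GV.const 1) + GV.X3)) with hv
  obtain ⟨h1, h2, h3, h4, k1, k2, k3, k4⟩ := four_deg_Brev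
  have hL : ∀ {S : Type} [CommSemiring S] (x y z w : S), u.q.ev x y z w =
      gBL (fun k : ℕ => (k : S))
      1 (1 + w) (1 + w + z)
      ((1 + y) + 1) (1 + (1 + y + x)) ((1 + y + x) + (1 + y)) := fun x y z w => by
    simp only [hu, gBL, gN1n, gABn, gRBn, gKsum, gPi, gRp, gRn, gQuad, gSq, gE2, gE3, gCube, gSum, GV.q_add, GV.q_mul, GV.const, GV.X1, GV.X2, GV.X3, GV.X4,
      Q4.ev_add, Q4.ev_mul, Q4.ev_const, Q4.ev_X1, Q4.ev_X2, Q4.ev_X3, Q4.ev_X4, Nat.cast_one]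
  have hR : ∀ {S : Type} [CommSemiring S] (x y z w : S), v.q.ev x y z w =
      gBR (fun k : ℕ => (k : S))
      1 (1 + w) (1 + w + z)
      ((1 + y) + 1) (1 + (1 + y + x)) ((1 + y + x) + (1 + y)) := fun x y z w => by
    simp only [hv, gBR, gN1n, gABp, gRBp, gKsum, gPi, gRp, gRn, gQuad, gSq, gE2, gE3, gCube, gSum, GV.q_add, GV.q_mul, GV.const, GV.X1, GV.X2, GV.X3, GV.X4,
      Q4.ev_add, Q4.ev_mul, Q4.ev_const, Q4.ev_X1, Q4.ev_X2, Q4.ev_X3, Q4.ev_X4, Nat.cast_one]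
  rw [← hL d c b a, ← hR d c b a]
  exact Q4.ev_le (n := 14) (B := (2 ^ 128)) (by norm_num) (u.deg.mono h1 h2 h3 h4)
    (v.deg.mono k1 k2 k3 k4) (by norm_num) (by norm_num) (by norm_num)
    (by rw [hL]; exact four_small_Brev.1) (by rw [hR]; exact four_small_Brev.2)
    (by rw [hL, hR]; exact four_chk_Brev) hd hc hb ha

end Vale.Agent.P154.Q3
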