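import Vale.Agent.P154.FourPoint
import Vale.Agent.P154.EdgePotential

/-!
# The class `E a² ≤ (9/2) (E a)²` is closed at the edge `-1/2`

`cM` is `E a²` and `cX` is `E a`. The class is kept by attaching a child through the edge `-1/2`
and by every edge `s ∈ [0, 1]`; it holds at a leaf and at the trivial channel.
-/

namespace Vale.Agent.P154.Q3

open scoped BigOperators

variable {Ω Ω' : Type} [Fintype Ω] [Fintype Ω'] {L : Ω → Fin 3 → ℝ} {M : Ω' → Fin 3 → ℝ}
  {P : Ω → Fin 3 → ℝ}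

/-- Invariance of a channel under relabelling the colours. -/
def IsSymm (L : Ω → Fin 3 → ℝ) : Prop :=
  ∀ σ : Equiv.Perm (Fin 3), ∃ e : Ω ≃ Ω, ∀ η i, L (e η) i = L η (σ i)

omit [Fintype Ω] [Fintype Ω'] in
theorem IsSymm.tens (hL : IsSymm L) (hM : IsSymm M) : IsSymm (tens L M) := fun σ => by
  obtain ⟨e, he⟩ := hL σ
  obtain ⟨f, hf⟩ := hM σ
  exact ⟨e.prodCongr f, fun p i => by simp [Q3.tens, he, hf]⟩

omit [Fintype Ω] in
theorem IsSymm.edge (hL : IsSymm L) (s : ℝ) : IsSymm (edge s L) := fun σ => by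
  obtain ⟨e, he⟩ := hL σ
  refine ⟨e, fun η i => ?_⟩
  have : tot (L (e η)) = tot (L η) := by
    have h := Equiv.sum_comp σ fun j => L η j
    simp only [Fin.sum_univ_three] at h
    simp only [tot, he]; linarith
  simp only [Q3.edge, push, he, this]

omit [Fintype Ω] [Fintype Ω'] in
theorem IsSymm.congr {L' : Ω' → Fin 3 → ℝ} (hL : IsSymm L) (e : Ω' ≃ Ω)
    (h : ∀ a, L' a = L (e a)) : IsSymm L' := fun σ => by
  obtain ⟨f, hf⟩ := hL σ
  exact ⟨(e.trans f).trans e.symm, fun a i => by simp [h, hf]⟩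

theorem tot_eq_zero {l : Fin 3 → ℝ} (h : ∀ i, 0 ≤ l i) (h0 : tot l = 0) : l = 0 := by
  have := h 0; have := h 1; have := h 2
  simp only [tot] at h0
  funext i; fin_cases i <;> simp <;> linarith

theorem IsStoch.isChan (hL : IsStoch L) (hs : IsSymm L) : IsChan L where
  nonneg := hL.1
  tpos η := by
    rcases eq_or_ne (tot (L η)) 0 with h | h
    · exact Or.inr (tot_eq_zero (hL.1 η) h)
    · exact Or.inl (lt_of_le_of_ne (by
        have := hL.1 η 0; have := hL.1 η 1; have := hL.1 η 2; unfold tot; linarith) h.symm)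
  sum_one := hL.2
  symm := hs

theorem IsStoch.tot_avg (hL : IsStoch L) : ∑ η, tot (L η) / 3 = 1 := by
  simp only [tot, ← Finset.sum_div, Finset.sum_add_distrib, hL.2]
  norm_num

/-- The mean of the cubic invariant. -/
noncomputable def cR (L : Ω → Fin 3 → ℝ) : ℝ := ∑ η, cubW (L η 0) (L η 1) (L η 2) / 3

/-- Total times the square of the normalised magnetisation. -/
noncomputable def sqV (l : Fin 3 → ℝ) : ℝ := sqW (l 0) (l 1) (l 2)

theorem sqV_eq (l : Fin 3 → ℝ) : sqV l = tot l * rad l ^ 2 := by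
  rcases eq_or_ne (tot l) 0 with h | h
  · rw [h, zero_mul]
    simp only [sqV, sqW, gSum, tot] at h ⊢
    simp [h]
  · simp only [sqV, sqW, gSum, rad, tot] at *; field_simp

theorem cM_eq_sum (L : Ω → Fin 3 → ℝ) : cM L = ∑ η, sqV (L η) / 3 := by
  simp only [cM, cAvg, sqV_eq]
  exact Finset.sum_congr rfl fun η _ => by ring

theorem cR_congr (e : Ω' ≃ Ω) {L' : Ω' → Fin 3 → ℝ} (h : ∀ a, L' a = L (e a)) : cR L' = cR L := by
  simp only [cR, h]; exact e.sum_comp fun b => cubW (L b 0) (L b 1) (L b 2) / 3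

theorem cM_congr (e : Ω' ≃ Ω) {L' : Ω' → Fin 3 → ℝ} (h : ∀ a, L' a = L (e a)) : cM L' = cM L := by
  simp only [cM_eq_sum, h]; exact e.sum_comp fun b => sqV (L b) / 3

theorem cM_edge (s : ℝ) (L : Ω → Fin 3 → ℝ) : cM (edge s L) = s ^ 4 * cM L := by
  simp only [cM, cAvg, edge, tot_push, rad_push, Finset.mul_sum]
  exact Finset.sum_congr rfl fun η _ => by ring

theorem cM_le_cX (hL : IsStoch L) : cM L ≤ cX L := by
  rw [cM_eq_sum]
  refine Finset.sum_le_sum fun η _ => div_le_div_of_nonneg_right ?_ (by norm_num)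
  rcases eq_or_ne (tot (L η)) 0 with h | h
  · rw [sqV_eq, h, zero_mul]; exact magV_nonneg (hL.1 η)
  · rw [sqV_eq, magV_eq h, sq]
    have := rad_le_one (hL.1 η)
    have := rad_nonneg (L η)
    have : 0 ≤ tot (L η) := by
      have := hL.1 η 0; have := hL.1 η 1; have := hL.1 η 2; unfold tot; linarith
    exact mul_le_mul_of_nonneg_left (mul_le_of_le_one_left ‹0 ≤ rad (L η)› (rad_le_one (hL.1 η))) this

theorem cubW_abs {x y w : ℝ} (hx : 0 ≤ x) (hy : 0 ≤ y) (hw : 0 ≤ w) :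
    |cubW x y w| ≤ (sqW x y w + mag x y w) / 2 := by
  have hs : 0 ≤ gSum x y w := by unfold gSum; positivity
  rcases hs.eq_or_lt with h | h
  · simp [cubW, sqW, mag_eq_div, ← h]
  set R := 2 * gSum x y w ^ 3 - 9 * (gE2 x y w * gSum x y w) + 27 * (x * y * w) with hR
  set N := nsq x y w with hN
  set s := gSum x y w with hS
  have h4 : R ^ 2 ≤ 4 * N ^ 3 := by
    have : 4 * N ^ 3 - R ^ 2 = 27 * vdm x y w ^ 2 := by
      rw [hN, hR, hS]; unfold nsq gSum gE2 vdm; ring
    nlinarith [sq_nonneg (vdm x y w)]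
  have hN0 : 0 ≤ N := nsq_nonneg _ _ _
  have h5 : |R * s| ≤ N ^ 2 + N * s ^ 2 := by
    refine abs_le_of_sq_le_sq ?_ (by positivity)
    nlinarith [mul_le_mul_of_nonneg_right h4 (sq_nonneg s), sq_nonneg (N ^ 2 - N * s ^ 2)]
  have e : cubW x y w = R * s / (2 * s ^ 3) := by
    show R / (2 * s ^ 2) = _
    field_simp
  have e' : (sqW x y w + mag x y w) / 2 = (N ^ 2 + N * s ^ 2) / (2 * s ^ 3) := by
    show (N ^ 2 / s ^ 3 + N / s) / 2 = _
    field_simp
  rw [e, e', abs_div, abs_of_pos (by positivity : (0 : ℝ) < 2 * s ^ 3)]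
  exact div_le_div_of_nonneg_right h5 (by positivity)

theorem abs_cR_le (hL : IsStoch L) : |cR L| ≤ (cM L + cX L) / 2 := by
  simp only [cR, cM_eq_sum, cX, ← Finset.sum_add_distrib, Finset.sum_div]
  refine (Finset.abs_sum_le_sum_abs _ _).trans (Finset.sum_le_sum fun η _ => ?_)
  rw [abs_div, abs_of_pos (by norm_num : (0 : ℝ) < 3)]
  have := cubW_abs (hL.1 η 0) (hL.1 η 1) (hL.1 η 2)
  simp only [sqV, magV]
  linarith

theorem push_half_apply (m : Fin 3 → ℝ) :
    push (-1 / 2) m 0 = 1 / 2 * (m 1 + m 2) ∧ push (-1 / 2) m 1 = 1 / 2 * (m 2 + m 0) ∧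
      push (-1 / 2) m 2 = 1 / 2 * (m 0 + m 1) := by
  simp only [push, tot]; refine ⟨?_, ?_, ?_⟩ <;> ring

theorem four_point {l m : Fin 3 → ℝ} (hl : ∀ i, 0 ≤ l i) (hm : ∀ i, 0 ≤ m i) :
    ∑ k, sqV (fun i => l i * push (-1 / 2) m (six k i)) ≤
        2 * (sqV l * tot (push (-1 / 2) m) + tot l * sqV (push (-1 / 2) m) +
          11 / 2 * (magV l * magV (push (-1 / 2) m)) -
          2 * (cubW (l 0) (l 1) (l 2) * magV (push (-1 / 2) m))) ∧
      2 * (magV l * tot (push (-1 / 2) m) + tot l * magV (push (-1 / 2) m) -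
          23 / 16 * (magV l * magV (push (-1 / 2) m)) -
          cubW (l 0) (l 1) (l 2) * magV (push (-1 / 2) m)) ≤
        ∑ k, magV (fun i => l i * push (-1 / 2) m (six k i)) := by
  rcases eq_or_ne (tot l) 0 with h | h
  · rw [tot_eq_zero hl h]
    simp [sqV, sqW, cubW, magV, mag, nsq, tot, gSum, gE2]
  rcases eq_or_ne (tot m) 0 with k | k
  · have e : push (-1 / 2) m = 0 := by rw [tot_eq_zero hm k]; funext i; simp [push, tot]
    simp [e, sqV, sqW, magV, mag, nsq, tot, gSum]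
  obtain ⟨a, b, c⟩ := push_half_apply m
  have k' : gSum (m 1 + m 2) (m 2 + m 0) (m 0 + m 1) ≠ 0 := by
    intro h0; apply k; simp only [gSum, tot] at *; linarith
  have hh : FourGood (l 0) (l 1) (l 2) (1 / 2 * (m 1 + m 2)) (1 / 2 * (m 2 + m 0))
      (1 / 2 * (m 0 + m 1)) := by
    have := four_scale one_pos (by norm_num : (0 : ℝ) < 1 / 2)
      (four_good (hl 0) (hl 1) (hl 2) (hm 0) (hm 1) (hm 2) h k')
    simpa only [one_mul] using this
  rw [← a, ← b, ← c] at hh
  obtain ⟨h1, h2⟩ := hh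
  simp only [Fin.sum_univ_six, six, sqV, magV, tot, Matrix.cons_val, gSum, sixSum] at h1 h2 ⊢
  exact ⟨by linarith, by linarith⟩

/-- The bilinear bounds for attaching a child through the edge `-1/2`. -/
theorem four_attach (hP : IsStoch P) (hM : IsStoch M) (sM : IsSymm M) :
    cM (tens P (edge (-1 / 2) M)) ≤ cM P + cM (edge (-1 / 2) M) +
        11 / 2 * (cX P * cX (edge (-1 / 2) M)) - 2 * (cR P * cX (edge (-1 / 2) M)) ∧
      cX P + cX (edge (-1 / 2) M) - 23 / 16 * (cX P * cX (edge (-1 / 2) M)) -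
        cR P * cX (edge (-1 / 2) M) ≤ cX (tens P (edge (-1 / 2) M)) := by
  have hE := (hM.edge (le_refl (-1 / 2 : ℝ)) (by norm_num)).isChan (sM.edge (-1 / 2))
  have tP := hP.tot_avg
  have tE := hE.tot_avg
  have eA := sum_tens_eq (L := P) hE sqV
  have eB := sum_tens_eq (L := P) hE magV
  have pt := fun η η' => four_point (hP.1 η) (hM.1 η')
  constructor
  · have le : 6 * ∑ p, sqV (tens P (edge (-1 / 2) M) p) ≤ ∑ η, ∑ η', 2 * (sqV (P η) *
        tot (edge (-1 / 2) M η') + tot (P η) * sqV (edge (-1 / 2) M η') +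
        11 / 2 * (magV (P η) * magV (edge (-1 / 2) M η')) -
        2 * (cubW (P η 0) (P η 1) (P η 2) * magV (edge (-1 / 2) M η'))) := by
      rw [eA]
      exact Finset.sum_le_sum fun η _ => Finset.sum_le_sum fun η' _ => (pt η η').1
    have e : ∑ η, ∑ η', 2 * (sqV (P η) *
        tot (edge (-1 / 2) M η') + tot (P η) * sqV (edge (-1 / 2) M η') +
        11 / 2 * (magV (P η) * magV (edge (-1 / 2) M η')) -
        2 * (cubW (P η 0) (P η 1) (P η 2) * magV (edge (-1 / 2) M η'))) =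
        18 * ((∑ η, sqV (P η) / 3) * (∑ η', tot (edge (-1 / 2) M η') / 3) +
          (∑ η, tot (P η) / 3) * (∑ η', sqV (edge (-1 / 2) M η') / 3) +
          11 / 2 * (cX P * cX (edge (-1 / 2) M)) - 2 * (cR P * cX (edge (-1 / 2) M))) := by
      simp only [cX, cR, Finset.mul_sum, Finset.sum_mul, ← Finset.sum_add_distrib,
        ← Finset.sum_sub_distrib]
      rw [Finset.sum_comm]
      exact Finset.sum_congr rfl fun η' _ => Finset.sum_congr rfl fun η _ => by ring
    rw [e, tP, tE, ← cM_eq_sum P, ← cM_eq_sum (edge (-1 / 2) M)] at le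
    have : cM (tens P (edge (-1 / 2) M)) = (∑ p, sqV (tens P (edge (-1 / 2) M) p)) / 3 := by
      rw [cM_eq_sum, Finset.sum_div]
    linarith
  · have le : ∑ η, ∑ η', 2 * (magV (P η) *
        tot (edge (-1 / 2) M η') + tot (P η) * magV (edge (-1 / 2) M η') -
        23 / 16 * (magV (P η) * magV (edge (-1 / 2) M η')) -
        cubW (P η 0) (P η 1) (P η 2) * magV (edge (-1 / 2) M η')) ≤
        6 * ∑ p, magV (tens P (edge (-1 / 2) M) p) := by
      rw [eB]
      exact Finset.sum_le_sum fun η _ => Finset.sum_le_sum fun η' _ => (pt η η').2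
    have e : ∑ η, ∑ η', 2 * (magV (P η) *
        tot (edge (-1 / 2) M η') + tot (P η) * magV (edge (-1 / 2) M η') -
        23 / 16 * (magV (P η) * magV (edge (-1 / 2) M η')) -
        cubW (P η 0) (P η 1) (P η 2) * magV (edge (-1 / 2) M η')) =
        18 * (cX P * (∑ η', tot (edge (-1 / 2) M η') / 3) +
          (∑ η, tot (P η) / 3) * cX (edge (-1 / 2) M) -
          23 / 16 * (cX P * cX (edge (-1 / 2) M)) - cR P * cX (edge (-1 / 2) M)) := by
      simp only [cX, cR, Finset.mul_sum, Finset.sum_mul, ← Finset.sum_add_distrib,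
        ← Finset.sum_sub_distrib]
      rw [Finset.sum_comm]
      exact Finset.sum_congr rfl fun η' _ => Finset.sum_congr rfl fun η _ => by ring
    rw [e, tP, tE] at le
    have : cX (tens P (edge (-1 / 2) M)) = (∑ p, magV (tens P (edge (-1 / 2) M) p)) / 3 := by
      simp only [cX, Finset.sum_div]
    linarith

/-- The scalar step. -/
theorem four_scalar {X Y R F G : ℝ} (hX : 0 ≤ X) (hY : 0 ≤ Y)
    (hR : |R| ≤ (9 / 2 * X ^ 2 + X) / 2) (hGX : X ≤ G) (hGY : Y ≤ G)
    (hG : X + Y - 23 / 16 * (X * Y) - R * Y ≤ G)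
    (hF : F ≤ 9 / 2 * (X ^ 2 + Y ^ 2) + 11 / 2 * (X * Y) - 2 * (R * Y)) (hFG : F ≤ G) :
    F ≤ 9 / 2 * G ^ 2 := by
  rcases le_or_gt (2 / 9) G with h | h
  · refine hFG.trans ?_
    calc G = 9 / 2 * G * (2 / 9) := by ring
      _ ≤ 9 / 2 * G * G := mul_le_mul_of_nonneg_left h (by linarith)
      _ = 9 / 2 * G ^ 2 := by ring
  have hX2 : X ≤ 2 / 9 := by linarith
  have hY2 : Y ≤ 2 / 9 := by linarith
  have hR1 : |R| ≤ X := hR.trans (by nlinarith [mul_le_mul_of_nonneg_left hX2 hX])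
  obtain ⟨r1, r2⟩ := abs_le.1 hR1
  set p := X * Y with hp
  set q := 23 / 16 * p + R * Y with hq
  have p0 : 0 ≤ p := mul_nonneg hX hY
  have q1 : 7 / 16 * p ≤ q := by
    have := mul_le_mul_of_nonneg_right r1 hY; rw [hq, hp]; linarith
  have q2 : q ≤ 39 / 16 * p := by
    have := mul_le_mul_of_nonneg_right r2 hY; rw [hq, hp]; linarith
  have hS : X + Y - q ≤ G := by rw [hq]; linarith
  have p4 : p ≤ (X + Y) ^ 2 / 4 := by nlinarith [sq_nonneg (X - Y)]
  have hs : X + Y ≤ 4 / 9 := by linarith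
  have hs2 : (X + Y) ^ 2 ≤ 4 / 9 * (X + Y) := by
    rw [sq]; exact mul_le_mul_of_nonneg_right hs (by linarith)
  have hs3 : X + Y ≤ 32 / 105 := by linarith
  have hp2 : p ≤ 256 / 11025 := p4.trans (by
    have := mul_le_mul hs3 hs3 (by linarith : 0 ≤ X + Y) (by norm_num : (0 : ℝ) ≤ 32 / 105)
    linarith)
  have hSq : 0 ≤ X + Y - q := by linarith
  have k1 : (X + Y - q) ^ 2 ≤ G ^ 2 := pow_le_pow_left₀ hSq hS 2
  have k2 : -9 * q ^ 2 ≤ q * (2 - 9 * (X + Y)) := by
    have := mul_le_mul_of_nonneg_left (show -9 * q ≤ 2 - 9 * (X + Y) by linarith)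
      (show 0 ≤ q by linarith)
    linarith
  have k3 : 9 / 2 * q ^ 2 ≤ 5 / 8 * p := by
    have a := pow_le_pow_left₀ (show 0 ≤ q by linarith) q2 2
    have b := mul_le_mul_of_nonneg_left hp2 p0
    linarith
  have e : 9 / 2 * (X + Y - q) ^ 2 - (9 / 2 * (X ^ 2 + Y ^ 2) + 11 / 2 * p - 2 * (R * Y)) =
      5 / 8 * p + q * (2 - 9 * (X + Y)) + 9 / 2 * q ^ 2 := by rw [hq, hp]; ring
  linarith

/-- The class: symmetric channels with `E a² ≤ (9/2) (E a)²`. -/
def InFour (L : Ω → Fin 3 → ℝ) : Prop := IsSymm L ∧ cM L ≤ 9 / 2 * cX L ^ 2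

theorem InFour.congr {L' : Ω' → Fin 3 → ℝ} (hL : InFour L) (e : Ω' ≃ Ω)
    (h : ∀ a, L' a = L (e a)) : InFour L' :=
  ⟨hL.1.congr e h, by rw [cM_congr e h, cX_congr e h]; exact hL.2⟩

theorem InFour.edge (hL : InFour L) (s : ℝ) : InFour (edge s L) := by
  refine ⟨hL.1.edge s, ?_⟩
  rw [cM_edge, cX_edge]
  have := mul_le_mul_of_nonneg_left hL.2 (by positivity : (0 : ℝ) ≤ s ^ 4)
  linarith

theorem InFour.leaf (t : RTree 0) : InFour (lik 0 0 t) := by
  obtain ⟨a, -, -⟩ := lik_spec (lam := 0) le_rfl one_pos 0 t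
  refine ⟨a.symm, ?_⟩
  have hX : cX (lik 0 0 t) = 1 := by
    have h : ∀ η : Leaf 0 t → Fin 3, magV (lik 0 0 t η) = 1 := fun η => by
      simp only [magV, mag, nsq, lik]
      generalize η () = b
      fin_cases b <;> simp
    have hc : Fintype.card (Leaf 0 t → Fin 3) = 3 := by
      rw [Fintype.card_fun]
      exact (congrArg (fun k => Fintype.card (Fin 3) ^ k) Fintype.card_unit).trans (by simp)
    simp only [cX, h, Finset.sum_const, Finset.card_univ, hc]
    norm_num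
  have := cM_le_cX (L := lik 0 0 t) ⟨a.nonneg, a.sum_one⟩
  rw [hX] at this ⊢
  linarith

theorem InFour.trivial : InFour (fun (_ : Unit) (_ : Fin 3) => (1 : ℝ)) := by
  refine ⟨fun _ => ⟨Equiv.refl _, fun _ _ => rfl⟩, ?_⟩
  simp [cM, cAvg, cX, magV, mag, rad, nsq, tot]

/-- Attaching a child through the edge `-1/2` keeps the class. -/
theorem InFour.attach (hP : IsStoch P) (hM : IsStoch M) (kP : InFour P) (kM : InFour M) :
    InFour (tens P (Q3.edge (-1 / 2) M)) := by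
  refine ⟨kP.1.tens (kM.1.edge _), ?_⟩
  obtain ⟨hA, hB⟩ := four_attach hP hM kM.1
  have eS := hM.edge (le_refl (-1 / 2 : ℝ)) (by norm_num)
  have kE := (kM.edge (-1 / 2)).2
  refine four_scalar (X := cX P) (Y := cX (Q3.edge (-1 / 2) M)) (R := cR P) (cX_nonneg' hP)
    (cX_nonneg' eS) ?_ (cX_le_tens hP eS) (cX_le_tens' hP eS) hB ?_ (cM_le_cX (hP.tens eS))
  · exact (abs_cR_le hP).trans (by linarith [kP.2])
  · linarith [kP.2, kE]

end Vale.Agent.P154.Q3
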