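import Vale.Agent.P154.Closure

/-!
# The two pointwise inequalities on three-component weight vectors
-/

namespace Vale.Agent.P154.Q3

/-- Sum of a weight vector. -/
def tot (l : Fin 3 → ℝ) : ℝ := l 0 + l 1 + l 2
/-- Magnetisation of a weight vector. -/
noncomputable def magV (l : Fin 3 → ℝ) : ℝ := mag (l 0) (l 1) (l 2)
/-- Class functional of a weight vector. -/
noncomputable def psiV (l : Fin 3 → ℝ) : ℝ := psiW (l 0) (l 1) (l 2)
/-- Squared magnetisation of the normalised vector. -/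
noncomputable def rad (l : Fin 3 → ℝ) : ℝ := nsq (l 0) (l 1) (l 2) / tot l ^ 2
/-- Closure weight of the normalised vector. -/
noncomputable def phiV (l : Fin 3 → ℝ) : ℝ :=
  phi (l 0 / tot l) (l 1 / tot l) (l 2 / tot l)

/-- The six colour permutations. -/
def six : Fin 6 → Fin 3 → Fin 3 :=
  ![![0, 1, 2], ![1, 2, 0], ![2, 0, 1], ![0, 2, 1], ![2, 1, 0], ![1, 0, 2]]

theorem six_bij : ∀ k, Function.Bijective (six k) := by decide

theorem mag_scale (c x y w : ℝ) : mag (c * x) (c * y) (c * w) = c * mag x y w := by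
  rcases eq_or_ne c 0 with rfl | hc
  · simp [mag, nsq]
  rcases eq_or_ne (x + y + w) 0 with h | h
  · simp [mag, show c * x + c * y + c * w = 0 by linear_combination c * h, h]
  · simp only [mag, nsq]; field_simp

theorem psiW_scale (c x y w : ℝ) : psiW (c * x) (c * y) (c * w) = c * psiW x y w := by
  rcases eq_or_ne c 0 with rfl | hc
  · simp [psiW, qd]
  rcases eq_or_ne (x + y + w) 0 with h | h
  · simp [psiW, show c * x + c * y + c * w = 0 by linear_combination c * h, h]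
  · simp only [psiW, qd]; field_simp

theorem phi_swap (x y w : ℝ) : phi x w y = phi x y w := by
  simp only [phi, gPhi, gCube, gSum]; ring

theorem magV_eq {l : Fin 3 → ℝ} (h : tot l ≠ 0) : magV l = tot l * rad l := by
  simp only [magV, mag, rad, tot] at *; field_simp

theorem psiV_eq {l : Fin 3 → ℝ} (h : tot l ≠ 0) :
    psiV l = tot l * psi (l 0 / tot l) (l 1 / tot l) (l 2 / tot l) := by
  simp only [psiV, psiW, psi, qd, tot] at *; field_simp

theorem rad_eq {l : Fin 3 → ℝ} (h : tot l ≠ 0) :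
    rad l = nsq (l 0 / tot l) (l 1 / tot l) (l 2 / tot l) := by
  simp only [rad, nsq, tot] at *; field_simp

theorem rad_nonneg (l : Fin 3 → ℝ) : 0 ≤ rad l := div_nonneg (nsq_nonneg _ _ _) (sq_nonneg _)

theorem rad_le_one {l : Fin 3 → ℝ} (h : ∀ i, 0 ≤ l i) : rad l ≤ 1 := by
  rcases (show 0 ≤ tot l by have := h 0; have := h 1; have := h 2; unfold tot; linarith).lt_or_eq
    with ht | ht
  · rw [rad_eq ht.ne']
    refine nsq_le_one (div_nonneg (h 0) ht.le) (div_nonneg (h 1) ht.le) (div_nonneg (h 2) ht.le) ?_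
    unfold tot at *; field_simp
  · simp [rad, ← ht]

theorem phiV_nonneg {l : Fin 3 → ℝ} (h : ∀ i, 0 ≤ l i) : 0 ≤ phiV l := by
  have := h 0; have := h 1; have := h 2
  simp only [phiV, phi, gPhi, gCube, gSum, tot]
  positivity

theorem tot_pos {l : Fin 3 → ℝ} (h : ∀ i, 0 < l i) : 0 < tot l := by
  have := h 0; have := h 1; have := h 2; unfold tot; linarith

theorem mag_point {l m : Fin 3 → ℝ} (hl : ∀ i, 0 < l i) (hm : ∀ i, 0 < m i) :
    ∑ k, magV (fun i => l i * m (six k i)) ≤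
      2 * (magV l * tot m + tot l * magV m - 2 * (tot m * rad m * (1 - rad m)) * psiV l -
        2 * (tot l * rad l * (1 - rad l)) * psiV m) := by
  have hs := tot_pos hl
  have ht := tot_pos hm
  obtain ⟨x, hx, ex⟩ : ∃ x, 0 < x ∧ l 0 = tot l * x :=
    ⟨_, div_pos (hl 0) hs, (mul_div_cancel₀ _ hs.ne').symm⟩
  obtain ⟨y, hy, ey⟩ : ∃ x, 0 < x ∧ l 1 = tot l * x :=
    ⟨_, div_pos (hl 1) hs, (mul_div_cancel₀ _ hs.ne').symm⟩
  obtain ⟨w, hw, ew⟩ : ∃ x, 0 < x ∧ l 2 = tot l * x :=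
    ⟨_, div_pos (hl 2) hs, (mul_div_cancel₀ _ hs.ne').symm⟩
  obtain ⟨x', hx', ex'⟩ : ∃ x, 0 < x ∧ m 0 = tot m * x :=
    ⟨_, div_pos (hm 0) ht, (mul_div_cancel₀ _ ht.ne').symm⟩
  obtain ⟨y', hy', ey'⟩ : ∃ x, 0 < x ∧ m 1 = tot m * x :=
    ⟨_, div_pos (hm 1) ht, (mul_div_cancel₀ _ ht.ne').symm⟩
  obtain ⟨w', hw', ew'⟩ : ∃ x, 0 < x ∧ m 2 = tot m * x :=
    ⟨_, div_pos (hm 2) ht, (mul_div_cancel₀ _ ht.ne').symm⟩
  have e : x + y + w = 1 := mul_left_cancel₀ hs.ne' (by
    rw [mul_one, mul_add, mul_add, ← ex, ← ey, ← ew]; rfl)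
  have e' : x' + y' + w' = 1 := mul_left_cancel₀ ht.ne' (by
    rw [mul_one, mul_add, mul_add, ← ex', ← ey', ← ew']; rfl)
  have A := mag_coset hx hy hw hx' hy' hw' e e'
  have B := mag_coset hx hy hw hx' hw' hy' e (by linarith : x' + w' + y' = 1)
  have n1 : nsq x' w' y' = nsq x' y' w' := by simp only [nsq]; ring
  have n2 : psi x' w' y' = psi x' y' w' := by simp only [psi, qd]; ring
  rw [n1, n2] at B
  rw [magV_eq hs.ne', magV_eq ht.ne', psiV_eq hs.ne', psiV_eq ht.ne', rad_eq hs.ne', rad_eq ht.ne']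
  simp only [show l 0 / tot l = x from by rw [ex]; field_simp, show l 1 / tot l = y from by
    rw [ey]; field_simp, show l 2 / tot l = w from by rw [ew]; field_simp,
    show m 0 / tot m = x' from by rw [ex']; field_simp, show m 1 / tot m = y' from by
    rw [ey']; field_simp, show m 2 / tot m = w' from by rw [ew']; field_simp]
  have key : ∀ a b c : ℝ, mag (l 0 * (tot m * a)) (l 1 * (tot m * b)) (l 2 * (tot m * c)) =
      tot l * tot m * mag (x * a) (y * b) (w * c) := fun a b c => by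
    rw [← mag_scale]; congr 1
    · rw [ex]; ring
    · rw [ey]; ring
    · rw [ew]; ring
  simp only [Fin.sum_univ_six, magV, six, Matrix.cons_val, ex', ey', ew', key]
  have hst : 0 < tot l * tot m := mul_pos hs ht
  have := mul_le_mul_of_nonneg_left (add_le_add A B) hst.le
  linarith

theorem psi_point {l m : Fin 3 → ℝ} (hl : ∀ i, 0 < l i) (hm : ∀ i, 0 < m i) :
    2 * (tot m * phiV m * psiV l + tot l * phiV l * psiV m) ≤
      ∑ k, psiV (fun i => l i * m (six k i)) := by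
  have hs := tot_pos hl
  have ht := tot_pos hm
  obtain ⟨x, hx, ex⟩ : ∃ x, 0 < x ∧ l 0 = tot l * x :=
    ⟨_, div_pos (hl 0) hs, (mul_div_cancel₀ _ hs.ne').symm⟩
  obtain ⟨y, hy, ey⟩ : ∃ x, 0 < x ∧ l 1 = tot l * x :=
    ⟨_, div_pos (hl 1) hs, (mul_div_cancel₀ _ hs.ne').symm⟩
  obtain ⟨w, hw, ew⟩ : ∃ x, 0 < x ∧ l 2 = tot l * x :=
    ⟨_, div_pos (hl 2) hs, (mul_div_cancel₀ _ hs.ne').symm⟩
  obtain ⟨x', hx', ex'⟩ : ∃ x, 0 < x ∧ m 0 = tot m * x :=
    ⟨_, div_pos (hm 0) ht, (mul_div_cancel₀ _ ht.ne').symm⟩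
  obtain ⟨y', hy', ey'⟩ : ∃ x, 0 < x ∧ m 1 = tot m * x :=
    ⟨_, div_pos (hm 1) ht, (mul_div_cancel₀ _ ht.ne').symm⟩
  obtain ⟨w', hw', ew'⟩ : ∃ x, 0 < x ∧ m 2 = tot m * x :=
    ⟨_, div_pos (hm 2) ht, (mul_div_cancel₀ _ ht.ne').symm⟩
  have e : x + y + w = 1 := mul_left_cancel₀ hs.ne' (by
    rw [mul_one, mul_add, mul_add, ← ex, ← ey, ← ew]; rfl)
  have e' : x' + y' + w' = 1 := mul_left_cancel₀ ht.ne' (by
    rw [mul_one, mul_add, mul_add, ← ex', ← ey', ← ew']; rfl)
  have A := psi_coset hx hy hw hx' hy' hw' e e'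
  have B := psi_coset hx hy hw hx' hw' hy' e (by linarith : x' + w' + y' = 1)
  have n2 : psi x' w' y' = psi x' y' w' := by simp only [psi, qd]; ring
  rw [phi_swap x' y' w', n2] at B
  rw [psiV_eq hs.ne', psiV_eq ht.ne']
  simp only [phiV, show l 0 / tot l = x from by rw [ex]; field_simp, show l 1 / tot l = y from by
    rw [ey]; field_simp, show l 2 / tot l = w from by rw [ew]; field_simp,
    show m 0 / tot m = x' from by rw [ex']; field_simp, show m 1 / tot m = y' from by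
    rw [ey']; field_simp, show m 2 / tot m = w' from by rw [ew']; field_simp]
  have key : ∀ a b c : ℝ, psiW (l 0 * (tot m * a)) (l 1 * (tot m * b)) (l 2 * (tot m * c)) =
      tot l * tot m * psiW (x * a) (y * b) (w * c) := fun a b c => by
    rw [← psiW_scale]; congr 1
    · rw [ex]; ring
    · rw [ey]; ring
    · rw [ew]; ring
  simp only [Fin.sum_univ_six, psiV, six, Matrix.cons_val, ex', ey', ew', key]
  have hst : 0 < tot l * tot m := mul_pos hs ht
  have := mul_le_mul_of_nonneg_left (add_le_add A B) hst.le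
  linarith

/-- One step of the channel on a weight vector. -/
noncomputable def push (lam : ℝ) (l : Fin 3 → ℝ) (i : Fin 3) : ℝ :=
  lam * l i + (1 - lam) / 3 * tot l

theorem tot_push (lam : ℝ) (l : Fin 3 → ℝ) : tot (push lam l) = tot l := by
  simp only [tot, push]; ring

theorem magV_push (lam : ℝ) (l : Fin 3 → ℝ) : magV (push lam l) = lam ^ 2 * magV l := by
  simp only [magV, mag, push, nsq, tot]; ring

theorem rad_push (lam : ℝ) (l : Fin 3 → ℝ) : rad (push lam l) = lam ^ 2 * rad l := by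
  rw [rad, tot_push, rad, push, push, push]
  simp only [nsq, tot]; ring

theorem psiV_push {lam : ℝ} {l : Fin 3 → ℝ} (h : tot l ≠ 0) :
    psiV (push lam l) =
      lam ^ 3 * psiV l + 3 / 4 * lam ^ 3 * (1 - lam) * (tot l * rad l ^ 2) := by
  have t := tot_push lam l
  simp only [psiV, psiW, rad]
  rw [show push lam l 0 + push lam l 1 + push lam l 2 = tot l from t,
    show l 0 + l 1 + l 2 = tot l from rfl]
  simp only [push, qd, nsq]
  have hw : l 2 = tot l - l 0 - l 1 := by simp only [tot]; ring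
  rw [hw]
  generalize tot l = s at h ⊢
  field_simp
  ring

end Vale.Agent.P154.Q3
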