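import Vale.Agent.P154.NegCert
import Vale.Agent.P154.Point

/-!
# The pointwise inequalities on the antiferromagnetic side
-/

namespace Vale.Agent.P154.Q3

/-- The class functional `R - (9/10) a² + (37/160) a`, as a function of a weight vector. -/
noncomputable def psiA (x y w : ℝ) : ℝ :=
  (gAp Nat.cast x y w - gAm Nat.cast x y w) / (160 * gSum x y w ^ 3)

/-- One entry of the channel with eigenvalue `-7/36` applied to a vector. -/
noncomputable def negPush (x y w : ℝ) : ℝ := gPush Nat.cast x y w / 108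

/-- The six reorderings of the second vector. -/
def sixSum (f : ℝ → ℝ → ℝ → ℝ) (x y w u v z : ℝ) : ℝ :=
  f (x * u) (y * v) (w * z) + f (x * v) (y * z) (w * u) + f (x * z) (y * u) (w * v) +
    (f (x * z) (y * v) (w * u) + f (x * v) (y * u) (w * z) + f (x * u) (y * z) (w * v))

/-- The two inequalities for one pair of vectors. -/
def NegGood (x y w u v z : ℝ) : Prop :=
  2 * ((gSum u v z * (1 - 3 * (nsq u v z / gSum u v z ^ 2))) * psiA x y w) ≤
      sixSum psiA x y w u v z ∧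
    sixSum mag x y w u v z ≤ 2 * (mag x y w * gSum u v z + gSum x y w * mag u v z -
      1 / 100 * (mag x y w * mag u v z) -
      2 * (nsq u v z / gSum u v z ^ 2) * (1 + 2 * (nsq u v z / gSum u v z ^ 2)) * gSum u v z *
        psiA x y w)

theorem nsq_e2 (x y w : ℝ) : nsq x y w = gSum x y w ^ 2 - 3 * gE2 x y w := by
  unfold nsq gSum gE2; ring

theorem negK_alg {s t e A₀ B₀ A₁ B₁ A₂ B₂ Ap Am S₀ S₁ S₂ : ℝ} (hs : 0 < s) (ht : 0 < t)
    (h0 : 0 < S₀) (h1 : 0 < S₁) (h2 : 0 < S₂)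
    (H : s * s * s * t * (B₀ * (S₁ * S₂ * (S₁ * S₂) * (S₁ * S₂)) +
          B₁ * (S₀ * S₂ * (S₀ * S₂) * (S₀ * S₂)) + B₂ * (S₀ * S₁ * (S₀ * S₁) * (S₀ * S₁))) +
        S₀ * S₁ * S₂ * (S₀ * S₁ * S₂) * (S₀ * S₁ * S₂) * (9 * e * Ap + 2 * (t * t) * Am) ≤
      s * s * s * t * (A₀ * (S₁ * S₂ * (S₁ * S₂) * (S₁ * S₂)) +
          A₁ * (S₀ * S₂ * (S₀ * S₂) * (S₀ * S₂)) + A₂ * (S₀ * S₁ * (S₀ * S₁) * (S₀ * S₁))) +
        S₀ * S₁ * S₂ * (S₀ * S₁ * S₂) * (S₀ * S₁ * S₂) * (9 * e * Am + 2 * (t * t) * Ap)) :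
    t * (1 - 3 * ((t ^ 2 - 3 * e) / t ^ 2)) * ((Ap - Am) / (160 * s ^ 3)) ≤
      (A₀ - B₀) / (160 * S₀ ^ 3) + (A₁ - B₁) / (160 * S₁ ^ 3) + (A₂ - B₂) / (160 * S₂ ^ 3) := by
  have hM : 0 < 160 * (s ^ 3 * t * (S₀ * S₁ * S₂) ^ 3) := by positivity
  refine le_of_mul_le_mul_right ?_ hM
  have e1 : t * (1 - 3 * ((t ^ 2 - 3 * e) / t ^ 2)) * ((Ap - Am) / (160 * s ^ 3)) *
      (160 * (s ^ 3 * t * (S₀ * S₁ * S₂) ^ 3)) =
      (S₀ * S₁ * S₂) ^ 3 * (9 * e - 2 * t ^ 2) * (Ap - Am) := by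
    field_simp; ring
  have e2 : ((A₀ - B₀) / (160 * S₀ ^ 3) + (A₁ - B₁) / (160 * S₁ ^ 3) + (A₂ - B₂) / (160 * S₂ ^ 3)) *
      (160 * (s ^ 3 * t * (S₀ * S₁ * S₂) ^ 3)) =
      s ^ 3 * t * ((A₀ - B₀) * (S₁ * S₂) ^ 3 + (A₁ - B₁) * (S₀ * S₂) ^ 3 +
        (A₂ - B₂) * (S₀ * S₁) ^ 3) := by
    field_simp
  rw [e1, e2]
  linear_combination H

theorem negF_alg {s t ep er e₀ e₁ e₂ Ap Am S₀ S₁ S₂ : ℝ} (hs : 0 < s) (ht : 0 < t)
    (h0 : 0 < S₀) (h1 : 0 < S₁) (h2 : 0 < S₂)
    (H : 1200 * (S₀ * S₁ * S₂ * (ep * (s * s) * (t * t * (t * t)) + er * (s * s * (s * s)) * (t * t))) +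
        400 * (s * s * s * (t * t * t) * (S₀ * S₀ * (S₁ * S₂) + S₁ * S₁ * (S₀ * S₂) +
          S₂ * S₂ * (S₀ * S₁))) +
        5 * (S₀ * S₁ * S₂ * ((3 * (t * t * (t * t)) + 18 * (er * er)) * Ap +
          15 * (t * t * er) * Am)) +
        4 * (S₀ * S₁ * S₂ * (s * s * (t * t)) * (s * s * (t * t) + 9 * (ep * er))) ≤
      800 * (S₀ * S₁ * S₂ * (s * s * (s * s) * (t * t * (t * t)))) +
        1200 * (s * s * s * (t * t * t) * (e₀ * (S₁ * S₂) + e₁ * (S₀ * S₂) + e₂ * (S₀ * S₁))) +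
        5 * (S₀ * S₁ * S₂ * ((3 * (t * t * (t * t)) + 18 * (er * er)) * Am +
          15 * (t * t * er) * Ap)) +
        12 * (S₀ * S₁ * S₂ * (s * s * (t * t)) * (s * s * er + t * t * ep))) :
    (S₀ ^ 2 - 3 * e₀) / S₀ + (S₁ ^ 2 - 3 * e₁) / S₁ + (S₂ ^ 2 - 3 * e₂) / S₂ ≤
      (s ^ 2 - 3 * ep) / s * t + s * ((t ^ 2 - 3 * er) / t) -
        1 / 100 * ((s ^ 2 - 3 * ep) / s * ((t ^ 2 - 3 * er) / t)) -
        2 * ((t ^ 2 - 3 * er) / t ^ 2) * (1 + 2 * ((t ^ 2 - 3 * er) / t ^ 2)) * t *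
          ((Ap - Am) / (160 * s ^ 3)) := by
  have hM : 0 < 400 * (s ^ 3 * t ^ 3 * (S₀ * S₁ * S₂)) := by positivity
  refine le_of_mul_le_mul_right ?_ hM
  have e1 : ((S₀ ^ 2 - 3 * e₀) / S₀ + (S₁ ^ 2 - 3 * e₁) / S₁ + (S₂ ^ 2 - 3 * e₂) / S₂) *
      (400 * (s ^ 3 * t ^ 3 * (S₀ * S₁ * S₂))) =
      400 * (s ^ 3 * t ^ 3) * ((S₀ ^ 2 - 3 * e₀) * (S₁ * S₂) + (S₁ ^ 2 - 3 * e₁) * (S₀ * S₂) +
        (S₂ ^ 2 - 3 * e₂) * (S₀ * S₁)) := by
    field_simp
  have e2 : ((s ^ 2 - 3 * ep) / s * t + s * ((t ^ 2 - 3 * er) / t) -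
        1 / 100 * ((s ^ 2 - 3 * ep) / s * ((t ^ 2 - 3 * er) / t)) -
        2 * ((t ^ 2 - 3 * er) / t ^ 2) * (1 + 2 * ((t ^ 2 - 3 * er) / t ^ 2)) * t *
          ((Ap - Am) / (160 * s ^ 3))) * (400 * (s ^ 3 * t ^ 3 * (S₀ * S₁ * S₂))) =
      (S₀ * S₁ * S₂) * (400 * (s ^ 2 * (s ^ 2 - 3 * ep) * t ^ 4 + s ^ 4 * t ^ 2 * (t ^ 2 - 3 * er)) -
        4 * (s ^ 2 * t ^ 2 * ((s ^ 2 - 3 * ep) * (t ^ 2 - 3 * er))) -
        5 * ((t ^ 2 - 3 * er) * (3 * t ^ 2 - 6 * er) * (Ap - Am))) := by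
    field_simp; ring
  rw [e1, e2]
  linear_combination H

theorem gPush_pos {u v z : ℝ} (hu : 0 < u) (hv : 0 < v) (hz : 0 < z) : 0 < negPush u v z := by
  unfold negPush gPush; positivity

theorem neg_coset {x y w u v z : ℝ} (hx : 0 < x) (hy : 0 < y) (hw : 0 < w) (hu : 0 < u)
    (hv : 0 < v) (hz : 0 < z) (HK : gKL Nat.cast x y w u v z ≤ gKR Nat.cast x y w u v z)
    (HF : gFL Nat.cast x y w u v z ≤ gFR Nat.cast x y w u v z) :
    (gSum u v z * (1 - 3 * (nsq u v z / gSum u v z ^ 2))) * psiA x y w ≤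
        psiA (x * u) (y * v) (w * z) + psiA (x * v) (y * z) (w * u) + psiA (x * z) (y * u) (w * v) ∧
      mag (x * u) (y * v) (w * z) + mag (x * v) (y * z) (w * u) + mag (x * z) (y * u) (w * v) ≤
        mag x y w * gSum u v z + gSum x y w * mag u v z - 1 / 100 * (mag x y w * mag u v z) -
          2 * (nsq u v z / gSum u v z ^ 2) * (1 + 2 * (nsq u v z / gSum u v z ^ 2)) * gSum u v z *
            psiA x y w := by
  have hs : 0 < gSum x y w := by unfold gSum; positivity
  have ht : 0 < gSum u v z := by unfold gSum; positivity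
  have h0 : 0 < gSum (x * u) (y * v) (w * z) := by unfold gSum; positivity
  have h1 : 0 < gSum (x * v) (y * z) (w * u) := by unfold gSum; positivity
  have h2 : 0 < gSum (x * z) (y * u) (w * v) := by unfold gSum; positivity
  have em : ∀ a b c : ℝ, mag a b c = (gSum a b c ^ 2 - 3 * gE2 a b c) / gSum a b c := fun a b c => by
    rw [mag, nsq_e2]; rfl
  simp only [psiA, em, nsq_e2]
  simp only [gKL, gKR, gKsum, gPi, gCube, gSq] at HK
  simp only [gFL, gFR, gFsum, gPi, gUp, gUm, gCube, gSq, Nat.cast_ofNat] at HF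
  norm_num only at HK HF
  exact ⟨negK_alg hs ht h0 h1 h2 HK, negF_alg hs ht h0 h1 h2 HF⟩

theorem mag_perm1 (x y w : ℝ) : mag y x w = mag x y w := by unfold mag nsq; ring_nf
theorem mag_perm2 (x y w : ℝ) : mag x w y = mag x y w := by unfold mag nsq; ring_nf
theorem psiA_perm1 (x y w : ℝ) : psiA y x w = psiA x y w := by
  unfold psiA gAp gAm gE2 gQd gSum; ring_nf
theorem psiA_perm2 (x y w : ℝ) : psiA x w y = psiA x y w := by
  unfold psiA gAp gAm gE2 gQd gSum; ring_nf

theorem sixSum_perm_right1 (f : ℝ → ℝ → ℝ → ℝ) (x y w u v z : ℝ) :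
    sixSum f x y w v u z = sixSum f x y w u v z := by unfold sixSum; ring
theorem sixSum_perm_right2 (f : ℝ → ℝ → ℝ → ℝ) (x y w u v z : ℝ) :
    sixSum f x y w u z v = sixSum f x y w u v z := by unfold sixSum; ring

theorem sixSum_perm_left1 {f : ℝ → ℝ → ℝ → ℝ} (hf : ∀ a b c, f b a c = f a b c)
    (x y w u v z : ℝ) : sixSum f y x w u v z = sixSum f x y w u v z := by
  simp only [sixSum]
  rw [hf (x * v) (y * u) (w * z), hf (x * z) (y * v) (w * u), hf (x * u) (y * z) (w * v),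
    hf (x * v) (y * z) (w * u), hf (x * u) (y * v) (w * z), hf (x * z) (y * u) (w * v)]
  ring

theorem sixSum_perm_left2 {f : ℝ → ℝ → ℝ → ℝ} (hf : ∀ a b c, f a c b = f a b c)
    (x y w u v z : ℝ) : sixSum f x w y u v z = sixSum f x y w u v z := by
  simp only [sixSum]
  rw [hf (x * u) (y * z) (w * v), hf (x * v) (y * u) (w * z), hf (x * z) (y * v) (w * u),
    hf (x * z) (y * u) (w * v), hf (x * v) (y * z) (w * u), hf (x * u) (y * v) (w * z)]
  ring

theorem sum_perm1 (x y w : ℝ) : gSum y x w = gSum x y w := by unfold gSum; ring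
theorem sum_perm2 (x y w : ℝ) : gSum x w y = gSum x y w := by unfold gSum; ring
theorem nsq_perm1 (x y w : ℝ) : nsq y x w = nsq x y w := by unfold nsq; ring
theorem nsq_perm2 (x y w : ℝ) : nsq x w y = nsq x y w := by unfold nsq; ring

theorem good_left1 {x y w u v z : ℝ} (h : NegGood x y w u v z) : NegGood y x w u v z := by
  simpa only [NegGood, sixSum_perm_left1 psiA_perm1, sixSum_perm_left1 mag_perm1, psiA_perm1 x y w,
    mag_perm1 x y w, sum_perm1 x y w] using h

theorem good_left2 {x y w u v z : ℝ} (h : NegGood x y w u v z) : NegGood x w y u v z := by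
  simpa only [NegGood, sixSum_perm_left2 psiA_perm2, sixSum_perm_left2 mag_perm2, psiA_perm2 x y w,
    mag_perm2 x y w, sum_perm2 x y w] using h

theorem good_right1 {x y w u v z : ℝ} (h : NegGood x y w u v z) : NegGood x y w v u z := by
  simpa only [NegGood, sixSum_perm_right1 _ x y w u v z, mag_perm1 u v z, sum_perm1 u v z,
    nsq_perm1 u v z] using h

theorem good_right2 {x y w u v z : ℝ} (h : NegGood x y w u v z) : NegGood x y w u z v := by
  simpa only [NegGood, sixSum_perm_right2 _ x y w u v z, mag_perm2 u v z, sum_perm2 u v z,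
    nsq_perm2 u v z] using h

theorem psiA_scale (c x y w : ℝ) : psiA (c * x) (c * y) (c * w) = c * psiA x y w := by
  rcases eq_or_ne c 0 with rfl | hc
  · simp [psiA, gSum]
  rcases eq_or_ne (gSum x y w) 0 with h | h
  · have : gSum (c * x) (c * y) (c * w) = 0 := by unfold gSum at *; linear_combination c * h
    simp [psiA, h, this]
  have e : gSum (c * x) (c * y) (c * w) = c * gSum x y w := by unfold gSum; ring
  have e1 : gAp Nat.cast (c * x) (c * y) (c * w) = c ^ 4 * gAp Nat.cast x y w := by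
    simp only [gAp, e, gE2]; ring
  have e2 : gAm Nat.cast (c * x) (c * y) (c * w) = c ^ 4 * gAm Nat.cast x y w := by
    simp only [gAm, gE2, gQd]; ring
  simp only [psiA, e, e1, e2]
  field_simp

theorem negPush_scale (l u v z : ℝ) : negPush (l * u) (l * v) (l * z) = l * negPush u v z := by
  unfold negPush gPush; ring

theorem good_scale {x y w u v z k l : ℝ} (hk : 0 < k) (hl : 0 < l) (h : NegGood x y w u v z) :
    NegGood (k * x) (k * y) (k * w) (l * u) (l * v) (l * z) := by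
  have eP : ∀ a b c a' b' c' : ℝ, psiA (k * a * (l * a')) (k * b * (l * b')) (k * c * (l * c')) =
      k * l * psiA (a * a') (b * b') (c * c') := fun a b c a' b' c' => by
    rw [← psiA_scale]; congr 1 <;> ring
  have eM : ∀ a b c a' b' c' : ℝ, mag (k * a * (l * a')) (k * b * (l * b')) (k * c * (l * c')) =
      k * l * mag (a * a') (b * b') (c * c') := fun a b c a' b' c' => by
    rw [← mag_scale]; congr 1 <;> ring
  have es : ∀ c a b d : ℝ, gSum (c * a) (c * b) (c * d) = c * gSum a b d := fun c a b d => by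
    unfold gSum; ring
  have en : nsq (l * u) (l * v) (l * z) / (l * gSum u v z) ^ 2 = nsq u v z / gSum u v z ^ 2 := by
    rw [show nsq (l * u) (l * v) (l * z) = l ^ 2 * nsq u v z by unfold nsq; ring, mul_pow,
      mul_div_mul_left _ _ (by positivity)]
  obtain ⟨h1, h2⟩ := h
  simp only [NegGood, sixSum, eP, eM, psiA_scale, mag_scale, es, en] at h1 h2 ⊢
  have hkl : 0 ≤ k * l := by positivity
  exact ⟨le_of_eq_of_le (by ring) ((mul_le_mul_of_nonneg_left h1 hkl).trans_eq (by ring)),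
    le_of_eq_of_le (by ring) ((mul_le_mul_of_nonneg_left h2 hkl).trans_eq (by ring))⟩

theorem good_sorted {x y w u v z : ℝ} (hx : 0 < x) (h1 : x ≤ y) (h2 : y ≤ w) (hu : 0 < u)
    (h3 : u ≤ v) (h4 : v ≤ z) :
    NegGood x y w (negPush u v z) (negPush v z u) (negPush z u v) := by
  have e1 : 0 ≤ (y - x) / x := div_nonneg (by linarith) hx.le
  have e2 : 0 ≤ (w - y) / x := div_nonneg (by linarith) hx.le
  have e3 : 0 ≤ (v - u) / u := div_nonneg (by linarith) hu.le
  have e4 : 0 ≤ (z - v) / u := div_nonneg (by linarith) hu.le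
  obtain ⟨a, b, c, d, ha, hb, hc, hd, rfl, rfl, rfl, rfl⟩ : ∃ a b c d, 0 ≤ a ∧ 0 ≤ b ∧ 0 ≤ c ∧
      0 ≤ d ∧ y = x * (1 + a) ∧ w = x * (1 + a + b) ∧ v = u * (1 + c) ∧ z = u * (1 + c + d) :=
    ⟨_, _, _, _, e1, e2, e3, e4, by field_simp; ring, by field_simp; ring, by field_simp; ring,
      by field_simp; ring⟩
  set p := gPush (Nat.cast : ℕ → ℝ) 1 (1 + c) (1 + c + d) with hp
  set q := gPush (Nat.cast : ℕ → ℝ) (1 + c) (1 + c + d) 1 with hq
  set r := gPush (Nat.cast : ℕ → ℝ) (1 + c + d) 1 (1 + c) with hr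
  have hpp : 0 < p := by rw [hp]; unfold gPush; positivity
  have hqp : 0 < q := by rw [hq]; unfold gPush; positivity
  have hrp : 0 < r := by rw [hr]; unfold gPush; positivity
  have i1 : gPush (Nat.cast : ℕ → ℝ) (1 + c + d) (1 + c) 1 = r := by rw [hr]; unfold gPush; ring
  have i2 : gPush (Nat.cast : ℕ → ℝ) (1 + c) 1 (1 + c + d) = q := by rw [hq]; unfold gPush; ring
  have i3 : gPush (Nat.cast : ℕ → ℝ) 1 (1 + c + d) (1 + c) = p := by rw [hp]; unfold gPush; ring
  have F : gKL Nat.cast 1 (1 + a) (1 + a + b) p q r ≤ gKR Nat.cast 1 (1 + a) (1 + a + b) p q r ∧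
      gFL Nat.cast 1 (1 + a) (1 + a + b) p q r ≤ gFR Nat.cast 1 (1 + a) (1 + a + b) p q r :=
    ⟨by simpa only [Nat.cast_one] using neg_cert_kfwd ha hb hc hd,
      by simpa only [Nat.cast_one] using neg_cert_ffwd ha hb hc hd⟩
  have G : gKL Nat.cast 1 (1 + a) (1 + a + b) r q p ≤ gKR Nat.cast 1 (1 + a) (1 + a + b) r q p ∧
      gFL Nat.cast 1 (1 + a) (1 + a + b) r q p ≤ gFR Nat.cast 1 (1 + a) (1 + a + b) r q p := by
    have k := neg_cert_krev ha hb hc hd
    have f := neg_cert_frev ha hb hc hd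
    simp only [i1, i2, i3] at k f
    exact ⟨k, f⟩
  have A := neg_coset one_pos (by linarith : 0 < 1 + a) (by linarith : 0 < 1 + a + b) hpp hqp hrp
    F.1 F.2
  have B := neg_coset one_pos (by linarith : 0 < 1 + a) (by linarith : 0 < 1 + a + b) hrp hqp hpp
    G.1 G.2
  have s1 : gSum r q p = gSum p q r := by unfold gSum; ring
  have s2 : nsq r q p = nsq p q r := by unfold nsq; ring
  have s3 : mag r q p = mag p q r := by unfold mag nsq; ring
  rw [s1, s2] at B
  rw [s3] at B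
  have base : NegGood 1 (1 + a) (1 + a + b) p q r :=
    ⟨by simp only [sixSum]; linarith [A.1, B.1], by simp only [sixSum]; linarith [A.2, B.2]⟩
  have := good_scale hx (by positivity : 0 < u / 108) base
  rw [mul_one] at this
  convert this using 1 <;> simp only [negPush, gPush, hp, hq, hr] <;> ring

theorem good_all {x y w u v z : ℝ} (hx : 0 < x) (hy : 0 < y) (hw : 0 < w) (hu : 0 < u) (hv : 0 < v)
    (hz : 0 < z) : NegGood x y w (negPush u v z) (negPush v z u) (negPush z u v) := by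
  have n1 : ∀ a b c : ℝ, negPush a c b = negPush a b c := fun a b c => by
    unfold negPush gPush; ring
  suffices ∀ x y w : ℝ, 0 < x → x ≤ y → y ≤ w →
      NegGood x y w (negPush u v z) (negPush v z u) (negPush z u v) by
    rcases le_total x y with a | a <;> rcases le_total y w with b | b <;>
      rcases le_total x w with c | c
    all_goals first
      | exact this x y w hx (by linarith) (by linarith)
      | exact good_left2 (this x w y hx (by linarith) (by linarith))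
      | exact good_left1 (this y x w hy (by linarith) (by linarith))
      | exact good_left1 (good_left2 (this y w x hy (by linarith) (by linarith)))
      | exact good_left2 (good_left1 (this w x y hw (by linarith) (by linarith)))
      | exact good_left1 (good_left2 (good_left1 (this w y x hw (by linarith) (by linarith))))
  intro x y w hx h1 h2
  rcases le_total u v with a | a <;> rcases le_total v z with b | b <;>
    rcases le_total u z with c | c
  all_goals first
    | exact good_sorted hx h1 h2 hu (by linarith) (by linarith)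
    | (have := good_right2 (good_sorted hx h1 h2 hu (show u ≤ z by linarith) (show z ≤ v by linarith))
       simpa only [n1] using this)
    | (have := good_right1 (good_sorted hx h1 h2 hv (show v ≤ u by linarith) (show u ≤ z by linarith))
       simpa only [n1] using this)
    | (have := good_right1 (good_right2
        (good_sorted hx h1 h2 hv (show v ≤ z by linarith) (show z ≤ u by linarith)))
       simpa only [n1] using this)
    | (have := good_right2 (good_right1
        (good_sorted hx h1 h2 hz (show z ≤ u by linarith) (show u ≤ v by linarith)))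
       simpa only [n1] using this)
    | (have := good_right1 (good_right2 (good_right1
        (good_sorted hx h1 h2 hz (show z ≤ v by linarith) (show v ≤ u by linarith))))
       simpa only [n1] using this)

end Vale.Agent.P154.Q3
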