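import Vale.Agent.P154.FourCert
import Vale.Agent.P154.NegPoint

/-!
# Two pointwise inequalities at the edge `-1/2`, for all nonnegative weight vectors
-/

namespace Vale.Agent.P154.Q3

open scoped Topology
open Filter

/-- Total times the square of the normalised magnetisation. -/
noncomputable def sqW (x y w : ℝ) : ℝ := nsq x y w ^ 2 / gSum x y w ^ 3

/-- Total times the cubic invariant of the normalised vector. -/
noncomputable def cubW (x y w : ℝ) : ℝ :=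
  (2 * gSum x y w ^ 3 - 9 * (gE2 x y w * gSum x y w) + 27 * (x * y * w)) / (2 * gSum x y w ^ 2)

/-- The two inequalities for one pair of vectors. -/
def FourGood (x y w u v z : ℝ) : Prop :=
  sixSum sqW x y w u v z ≤ 2 * (sqW x y w * gSum u v z + gSum x y w * sqW u v z +
      11 / 2 * (mag x y w * mag u v z) - 2 * (cubW x y w * mag u v z)) ∧
    2 * (mag x y w * gSum u v z + gSum x y w * mag u v z -
      23 / 16 * (mag x y w * mag u v z) - cubW x y w * mag u v z) ≤ sixSum mag x y w u v z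

theorem mag_eq_div (x y w : ℝ) : mag x y w = nsq x y w / gSum x y w := rfl

theorem fourA_alg {s t e f p e₀ e₁ e₂ S₀ S₁ S₂ : ℝ} (hs : 0 < s) (ht : 0 < t)
    (h0 : 0 < S₀) (h1 : 0 < S₁) (h2 : 0 < S₂)
    (H : 2 * (s ^ 3 * t ^ 3 * ((S₀ ^ 2 - 3 * e₀) ^ 2 * (S₁ * S₂) ^ 3 +
        (S₁ ^ 2 - 3 * e₁) ^ 2 * (S₀ * S₂) ^ 3 + (S₂ ^ 2 - 3 * e₂) ^ 2 * (S₀ * S₁) ^ 3)) ≤
      (S₀ * S₁ * S₂) ^ 3 * (2 * ((s ^ 2 - 3 * e) ^ 2 * t ^ 4 + s ^ 4 * (t ^ 2 - 3 * f) ^ 2) +
        11 * (s ^ 2 * (s ^ 2 - 3 * e) * (t ^ 2 * (t ^ 2 - 3 * f))) -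
        2 * ((2 * s ^ 3 - 9 * (e * s) + 27 * p) * s * (t ^ 2 * (t ^ 2 - 3 * f))))) :
    (S₀ ^ 2 - 3 * e₀) ^ 2 / S₀ ^ 3 + (S₁ ^ 2 - 3 * e₁) ^ 2 / S₁ ^ 3 +
        (S₂ ^ 2 - 3 * e₂) ^ 2 / S₂ ^ 3 ≤
      (s ^ 2 - 3 * e) ^ 2 / s ^ 3 * t + s * ((t ^ 2 - 3 * f) ^ 2 / t ^ 3) +
        11 / 2 * ((s ^ 2 - 3 * e) / s * ((t ^ 2 - 3 * f) / t)) -
        2 * ((2 * s ^ 3 - 9 * (e * s) + 27 * p) / (2 * s ^ 2) * ((t ^ 2 - 3 * f) / t)) := by
  have hM : 0 < 2 * (s ^ 3 * t ^ 3 * (S₀ * S₁ * S₂) ^ 3) := by positivity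
  refine le_of_mul_le_mul_right ?_ hM
  have e1 : ((S₀ ^ 2 - 3 * e₀) ^ 2 / S₀ ^ 3 + (S₁ ^ 2 - 3 * e₁) ^ 2 / S₁ ^ 3 +
        (S₂ ^ 2 - 3 * e₂) ^ 2 / S₂ ^ 3) * (2 * (s ^ 3 * t ^ 3 * (S₀ * S₁ * S₂) ^ 3)) =
      2 * (s ^ 3 * t ^ 3 * ((S₀ ^ 2 - 3 * e₀) ^ 2 * (S₁ * S₂) ^ 3 +
        (S₁ ^ 2 - 3 * e₁) ^ 2 * (S₀ * S₂) ^ 3 + (S₂ ^ 2 - 3 * e₂) ^ 2 * (S₀ * S₁) ^ 3)) := by
    field_simp
  have e2 : ((s ^ 2 - 3 * e) ^ 2 / s ^ 3 * t + s * ((t ^ 2 - 3 * f) ^ 2 / t ^ 3) +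
        11 / 2 * ((s ^ 2 - 3 * e) / s * ((t ^ 2 - 3 * f) / t)) -
        2 * ((2 * s ^ 3 - 9 * (e * s) + 27 * p) / (2 * s ^ 2) * ((t ^ 2 - 3 * f) / t))) *
        (2 * (s ^ 3 * t ^ 3 * (S₀ * S₁ * S₂) ^ 3)) =
      (S₀ * S₁ * S₂) ^ 3 * (2 * ((s ^ 2 - 3 * e) ^ 2 * t ^ 4 + s ^ 4 * (t ^ 2 - 3 * f) ^ 2) +
        11 * (s ^ 2 * (s ^ 2 - 3 * e) * (t ^ 2 * (t ^ 2 - 3 * f))) -
        2 * ((2 * s ^ 3 - 9 * (e * s) + 27 * p) * s * (t ^ 2 * (t ^ 2 - 3 * f)))) := by
    field_simp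
    try ring
  rw [e1, e2]
  exact H

theorem fourB_alg {s t e f p e₀ e₁ e₂ S₀ S₁ S₂ : ℝ} (hs : 0 < s) (ht : 0 < t)
    (h0 : 0 < S₀) (h1 : 0 < S₁) (h2 : 0 < S₂)
    (H : (S₀ * S₁ * S₂) ^ 3 * (16 * (s ^ 2 * (s ^ 2 - 3 * e) * t ^ 4 +
          s ^ 4 * (t ^ 2 * (t ^ 2 - 3 * f))) -
        23 * (s ^ 2 * (s ^ 2 - 3 * e) * (t ^ 2 * (t ^ 2 - 3 * f))) -
        8 * ((2 * s ^ 3 - 9 * (e * s) + 27 * p) * s * (t ^ 2 * (t ^ 2 - 3 * f)))) ≤
      16 * (s ^ 3 * t ^ 3 * (S₀ ^ 2 * (S₀ ^ 2 - 3 * e₀) * (S₁ * S₂) ^ 3 +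
        S₁ ^ 2 * (S₁ ^ 2 - 3 * e₁) * (S₀ * S₂) ^ 3 +
        S₂ ^ 2 * (S₂ ^ 2 - 3 * e₂) * (S₀ * S₁) ^ 3))) :
    (s ^ 2 - 3 * e) / s * t + s * ((t ^ 2 - 3 * f) / t) -
        23 / 16 * ((s ^ 2 - 3 * e) / s * ((t ^ 2 - 3 * f) / t)) -
        (2 * s ^ 3 - 9 * (e * s) + 27 * p) / (2 * s ^ 2) * ((t ^ 2 - 3 * f) / t) ≤
      (S₀ ^ 2 - 3 * e₀) / S₀ + (S₁ ^ 2 - 3 * e₁) / S₁ + (S₂ ^ 2 - 3 * e₂) / S₂ := by
  have hM : 0 < 16 * (s ^ 3 * t ^ 3 * (S₀ * S₁ * S₂) ^ 3) := by positivity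
  refine le_of_mul_le_mul_right ?_ hM
  have e1 : ((S₀ ^ 2 - 3 * e₀) / S₀ + (S₁ ^ 2 - 3 * e₁) / S₁ + (S₂ ^ 2 - 3 * e₂) / S₂) *
      (16 * (s ^ 3 * t ^ 3 * (S₀ * S₁ * S₂) ^ 3)) =
      16 * (s ^ 3 * t ^ 3 * (S₀ ^ 2 * (S₀ ^ 2 - 3 * e₀) * (S₁ * S₂) ^ 3 +
        S₁ ^ 2 * (S₁ ^ 2 - 3 * e₁) * (S₀ * S₂) ^ 3 +
        S₂ ^ 2 * (S₂ ^ 2 - 3 * e₂) * (S₀ * S₁) ^ 3)) := by
    field_simp
  have e2 : ((s ^ 2 - 3 * e) / s * t + s * ((t ^ 2 - 3 * f) / t) -
        23 / 16 * ((s ^ 2 - 3 * e) / s * ((t ^ 2 - 3 * f) / t)) -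
        (2 * s ^ 3 - 9 * (e * s) + 27 * p) / (2 * s ^ 2) * ((t ^ 2 - 3 * f) / t)) *
        (16 * (s ^ 3 * t ^ 3 * (S₀ * S₁ * S₂) ^ 3)) =
      (S₀ * S₁ * S₂) ^ 3 * (16 * (s ^ 2 * (s ^ 2 - 3 * e) * t ^ 4 +
          s ^ 4 * (t ^ 2 * (t ^ 2 - 3 * f))) -
        23 * (s ^ 2 * (s ^ 2 - 3 * e) * (t ^ 2 * (t ^ 2 - 3 * f))) -
        8 * ((2 * s ^ 3 - 9 * (e * s) + 27 * p) * s * (t ^ 2 * (t ^ 2 - 3 * f)))) := by
    field_simp
    try ring
  rw [e1, e2]
  exact H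

theorem four_coset {x y w u v z : ℝ} (hx : 0 < x) (hy : 0 < y) (hw : 0 < w) (hu : 0 < u)
    (hv : 0 < v) (hz : 0 < z) (HA : gAL Nat.cast x y w u v z ≤ gAR Nat.cast x y w u v z)
    (HB : gBL Nat.cast x y w u v z ≤ gBR Nat.cast x y w u v z) :
    sqW (x * u) (y * v) (w * z) + sqW (x * v) (y * z) (w * u) + sqW (x * z) (y * u) (w * v) ≤
        sqW x y w * gSum u v z + gSum x y w * sqW u v z + 11 / 2 * (mag x y w * mag u v z) -
          2 * (cubW x y w * mag u v z) ∧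
      mag x y w * gSum u v z + gSum x y w * mag u v z - 23 / 16 * (mag x y w * mag u v z) -
          cubW x y w * mag u v z ≤
        mag (x * u) (y * v) (w * z) + mag (x * v) (y * z) (w * u) + mag (x * z) (y * u) (w * v) := by
  have hs : 0 < gSum x y w := by unfold gSum; positivity
  have ht : 0 < gSum u v z := by unfold gSum; positivity
  have h0 : 0 < gSum (x * u) (y * v) (w * z) := by unfold gSum; positivity
  have h1 : 0 < gSum (x * v) (y * z) (w * u) := by unfold gSum; positivity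
  have h2 : 0 < gSum (x * z) (y * u) (w * v) := by unfold gSum; positivity
  simp only [sqW, mag_eq_div, cubW, nsq_e2]
  simp only [gAL, gAR, gKsum, gPi, gN2p, gN2n, gABp, gABn, gRBp, gRBn, gRp, gRn, gQuad, gCube, gSq,
    gE3, Nat.cast_ofNat] at HA
  simp only [gBL, gBR, gKsum, gPi, gN1n, gABp, gABn, gRBp, gRBn, gRp, gRn, gQuad, gCube, gSq,
    gE3, Nat.cast_ofNat] at HB
  exact ⟨fourA_alg hs ht h0 h1 h2 (by linear_combination HA),
    fourB_alg hs ht h0 h1 h2 (by linear_combination HB)⟩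

theorem sqW_perm1 (x y w : ℝ) : sqW y x w = sqW x y w := by unfold sqW nsq gSum; ring
theorem sqW_perm2 (x y w : ℝ) : sqW x w y = sqW x y w := by unfold sqW nsq gSum; ring
theorem cubW_perm1 (x y w : ℝ) : cubW y x w = cubW x y w := by unfold cubW gE2 gSum; ring
theorem cubW_perm2 (x y w : ℝ) : cubW x w y = cubW x y w := by unfold cubW gE2 gSum; ring

theorem four_left1 {x y w u v z : ℝ} (h : FourGood x y w u v z) : FourGood y x w u v z := by
  simpa only [FourGood, sixSum_perm_left1 sqW_perm1, sixSum_perm_left1 mag_perm1, sqW_perm1 x y w,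
    mag_perm1 x y w, cubW_perm1 x y w, sum_perm1 x y w] using h

theorem four_left2 {x y w u v z : ℝ} (h : FourGood x y w u v z) : FourGood x w y u v z := by
  simpa only [FourGood, sixSum_perm_left2 sqW_perm2, sixSum_perm_left2 mag_perm2, sqW_perm2 x y w,
    mag_perm2 x y w, cubW_perm2 x y w, sum_perm2 x y w] using h

theorem four_right1 {x y w u v z : ℝ} (h : FourGood x y w u v z) : FourGood x y w v u z := by
  simpa only [FourGood, sixSum_perm_right1 _ x y w u v z, sqW_perm1 u v z, mag_perm1 u v z,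
    sum_perm1 u v z] using h

theorem four_right2 {x y w u v z : ℝ} (h : FourGood x y w u v z) : FourGood x y w u z v := by
  simpa only [FourGood, sixSum_perm_right2 _ x y w u v z, sqW_perm2 u v z, mag_perm2 u v z,
    sum_perm2 u v z] using h

theorem sqW_scale (c x y w : ℝ) : sqW (c * x) (c * y) (c * w) = c * sqW x y w := by
  rcases eq_or_ne c 0 with rfl | hc
  · simp [sqW, nsq, gSum]
  rcases eq_or_ne (gSum x y w) 0 with h | h
  · have : gSum (c * x) (c * y) (c * w) = 0 := by unfold gSum at *; linear_combination c * h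
    simp [sqW, h, this]
  simp only [sqW, show gSum (c * x) (c * y) (c * w) = c * gSum x y w by unfold gSum; ring,
    show nsq (c * x) (c * y) (c * w) = c ^ 2 * nsq x y w by unfold nsq; ring]
  field_simp

theorem cubW_scale {c : ℝ} (hc : c ≠ 0) (x y w : ℝ) :
    cubW (c * x) (c * y) (c * w) = c * cubW x y w := by
  rcases eq_or_ne (gSum x y w) 0 with h | h
  · have : gSum (c * x) (c * y) (c * w) = 0 := by unfold gSum at *; linear_combination c * h
    simp [cubW, h, this]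
  simp only [cubW, show gSum (c * x) (c * y) (c * w) = c * gSum x y w by unfold gSum; ring,
    show gE2 (c * x) (c * y) (c * w) = c ^ 2 * gE2 x y w by unfold gE2; ring]
  field_simp

theorem four_scale {x y w u v z k l : ℝ} (hk : 0 < k) (hl : 0 < l) (h : FourGood x y w u v z) :
    FourGood (k * x) (k * y) (k * w) (l * u) (l * v) (l * z) := by
  have eS : ∀ a b c a' b' c' : ℝ, sqW (k * a * (l * a')) (k * b * (l * b')) (k * c * (l * c')) =
      k * l * sqW (a * a') (b * b') (c * c') := fun a b c a' b' c' => by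
    rw [← sqW_scale]; congr 1 <;> ring
  have eM : ∀ a b c a' b' c' : ℝ, mag (k * a * (l * a')) (k * b * (l * b')) (k * c * (l * c')) =
      k * l * mag (a * a') (b * b') (c * c') := fun a b c a' b' c' => by
    rw [← mag_scale]; congr 1 <;> ring
  have es : ∀ c a b d : ℝ, gSum (c * a) (c * b) (c * d) = c * gSum a b d := fun c a b d => by
    unfold gSum; ring
  obtain ⟨h1, h2⟩ := h
  simp only [FourGood, sixSum, eS, eM, sqW_scale, mag_scale, cubW_scale hk.ne', es] at h1 h2 ⊢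
  have hkl : 0 ≤ k * l := by positivity
  exact ⟨le_of_eq_of_le (by ring) ((mul_le_mul_of_nonneg_left h1 hkl).trans_eq (by ring)),
    le_of_eq_of_le (by ring) ((mul_le_mul_of_nonneg_left h2 hkl).trans_eq (by ring))⟩

theorem four_sorted {x y w u v z : ℝ} (hx : 0 < x) (h1 : x ≤ y) (h2 : y ≤ w) (hu : 0 < u)
    (h3 : u ≤ v) (h4 : v ≤ z) : FourGood x y w (v + z) (z + u) (u + v) := by
  have e1 : 0 ≤ (y - x) / x := div_nonneg (by linarith) hx.le
  have e2 : 0 ≤ (w - y) / x := div_nonneg (by linarith) hx.le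
  have e3 : 0 ≤ (v - u) / u := div_nonneg (by linarith) hu.le
  have e4 : 0 ≤ (z - v) / u := div_nonneg (by linarith) hu.le
  obtain ⟨a, b, c, d, ha, hb, hc, hd, rfl, rfl, rfl, rfl⟩ : ∃ a b c d, 0 ≤ a ∧ 0 ≤ b ∧ 0 ≤ c ∧
      0 ≤ d ∧ y = x * (1 + a) ∧ w = x * (1 + a + b) ∧ v = u * (1 + c) ∧ z = u * (1 + c + d) :=
    ⟨_, _, _, _, e1, e2, e3, e4, by field_simp; ring, by field_simp; ring, by field_simp; ring,
      by field_simp; ring⟩
  have hp : 0 < 1 + c + (1 + c + d) := by linarith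
  have hq : 0 < 1 + c + d + 1 := by linarith
  have hr : 0 < 1 + (1 + c) := by linarith
  have A1 := four_cert_Afwd ha hb hc hd
  have A2 := four_cert_Arev ha hb hc hd
  have B1 := four_cert_Bfwd ha hb hc hd
  have B2 := four_cert_Brev ha hb hc hd
  have i1 : 1 + c + 1 = 1 + (1 + c) := by ring
  have i2 : 1 + (1 + c + d) = 1 + c + d + 1 := by ring
  have i3 : 1 + c + d + (1 + c) = 1 + c + (1 + c + d) := by ring
  simp only [i1, i2, i3] at A2 B2
  have X := four_coset one_pos (by linarith : 0 < 1 + a) (by linarith : 0 < 1 + a + b) hp hq hr A1 B1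
  have Y := four_coset one_pos (by linarith : 0 < 1 + a) (by linarith : 0 < 1 + a + b) hr hq hp A2 B2
  set p := 1 + c + (1 + c + d)
  set q := 1 + c + d + 1
  set r := 1 + (1 + c)
  have s1 : gSum r q p = gSum p q r := by unfold gSum; ring
  have s2 : sqW r q p = sqW p q r := by unfold sqW nsq gSum; ring
  have s3 : mag r q p = mag p q r := by unfold mag nsq; ring
  rw [s1, s2, s3] at Y
  have base : FourGood 1 (1 + a) (1 + a + b) p q r :=
    ⟨by simp only [sixSum]; linarith [X.1, Y.1], by simp only [sixSum]; linarith [X.2, Y.2]⟩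
  have := four_scale hx hu base
  rw [mul_one] at this
  convert this using 1 <;> simp only [p, q, r] <;> ring

theorem four_pos {x y w u v z : ℝ} (hx : 0 < x) (hy : 0 < y) (hw : 0 < w) (hu : 0 < u) (hv : 0 < v)
    (hz : 0 < z) : FourGood x y w (v + z) (z + u) (u + v) := by
  suffices ∀ x y w : ℝ, 0 < x → x ≤ y → y ≤ w → FourGood x y w (v + z) (z + u) (u + v) by
    rcases le_total x y with a | a <;> rcases le_total y w with b | b <;>
      rcases le_total x w with c | c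
    all_goals first
      | exact this x y w hx (by linarith) (by linarith)
      | exact four_left2 (this x w y hx (by linarith) (by linarith))
      | exact four_left1 (this y x w hy (by linarith) (by linarith))
      | exact four_left1 (four_left2 (this y w x hy (by linarith) (by linarith)))
      | exact four_left2 (four_left1 (this w x y hw (by linarith) (by linarith)))
      | exact four_left1 (four_left2 (four_left1 (this w y x hw (by linarith) (by linarith))))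
  intro x y w hx h1 h2
  have sw1 : ∀ u v z : ℝ, FourGood x y w (v + z) (z + u) (u + v) →
      FourGood x y w (u + z) (z + v) (v + u) := fun u v z h => by
    rw [add_comm u z, add_comm z v, add_comm v u]; exact four_right1 h
  have sw2 : ∀ u v z : ℝ, FourGood x y w (v + z) (z + u) (u + v) →
      FourGood x y w (z + v) (v + u) (u + z) := fun u v z h => by
    rw [add_comm z v, add_comm v u, add_comm u z]; exact four_right2 h
  rcases le_total u v with a | a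
  · rcases le_total v z with b | b
    · exact four_sorted hx h1 h2 hu a b
    · rcases le_total u z with c | c
      · exact sw2 u z v (four_sorted hx h1 h2 hu c b)
      · exact sw2 u z v (sw1 z u v (four_sorted hx h1 h2 hz c a))
  · rcases le_total v z with b | b
    · rcases le_total u z with c | c
      · exact sw1 v u z (four_sorted hx h1 h2 hv a c)
      · exact sw1 v u z (sw2 v z u (four_sorted hx h1 h2 hv b c))
    · exact sw1 v u z (sw2 v z u (sw1 z v u (four_sorted hx h1 h2 hz b a)))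

theorem nsq_le_sq {x y w : ℝ} (hx : 0 ≤ x) (hy : 0 ≤ y) (hw : 0 ≤ w) :
    nsq x y w ≤ gSum x y w ^ 2 := by
  rw [nsq_e2]; have : 0 ≤ gE2 x y w := by unfold gE2; positivity
  linarith

theorem sqW_bounds {x y w : ℝ} (hx : 0 ≤ x) (hy : 0 ≤ y) (hw : 0 ≤ w) :
    0 ≤ sqW x y w ∧ sqW x y w ≤ gSum x y w := by
  have hs : 0 ≤ gSum x y w := by unfold gSum; positivity
  refine ⟨div_nonneg (sq_nonneg _) (by positivity), ?_⟩
  rcases hs.eq_or_lt with h | h
  · simp [sqW, ← h]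
  · rw [sqW, div_le_iff₀ (by positivity)]
    calc nsq x y w ^ 2 ≤ (gSum x y w ^ 2) ^ 2 :=
          pow_le_pow_left₀ (nsq_nonneg _ _ _) (nsq_le_sq hx hy hw) 2
      _ = gSum x y w * gSum x y w ^ 3 := by ring

theorem mag_bounds {x y w : ℝ} (hx : 0 ≤ x) (hy : 0 ≤ y) (hw : 0 ≤ w) :
    0 ≤ mag x y w ∧ mag x y w ≤ gSum x y w := by
  have hs : 0 ≤ gSum x y w := by unfold gSum; positivity
  refine ⟨div_nonneg (nsq_nonneg _ _ _) hs, ?_⟩
  rcases hs.eq_or_lt with h | h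
  · simp [mag_eq_div, ← h]
  · rw [mag_eq_div, div_le_iff₀ h, ← sq]; exact nsq_le_sq hx hy hw

/-- Continuity along a path of nonnegative vectors of a function of degree one. -/
theorem tendsto_deg1 {g : ℝ → ℝ → ℝ → ℝ} {f1 f2 f3 : ℝ → ℝ}
    (gb : ∀ a b c, 0 ≤ a → 0 ≤ b → 0 ≤ c → 0 ≤ g a b c ∧ g a b c ≤ gSum a b c)
    (c1 : Continuous f1) (c2 : Continuous f2) (c3 : Continuous f3)
    (h : ∀ t, 0 ≤ t → 0 ≤ f1 t ∧ 0 ≤ f2 t ∧ 0 ≤ f3 t)
    (gc : gSum (f1 0) (f2 0) (f3 0) ≠ 0 →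
      ContinuousAt (fun t => g (f1 t) (f2 t) (f3 t)) 0) :
    Tendsto (fun t => g (f1 t) (f2 t) (f3 t)) (𝓝[>] 0) (𝓝 (g (f1 0) (f2 0) (f3 0))) := by
  rcases eq_or_ne (gSum (f1 0) (f2 0) (f3 0)) 0 with h0 | h0
  · obtain ⟨a, b, c⟩ := h 0 le_rfl
    have hg := gb _ _ _ a b c
    rw [show g (f1 0) (f2 0) (f3 0) = 0 by linarith [hg.1, hg.2]]
    have cs : Tendsto (fun t => gSum (f1 t) (f2 t) (f3 t)) (𝓝[>] 0) (𝓝 0) := by
      have := (((c1.add c2).add c3).tendsto 0).mono_left (nhdsWithin_le_nhds (s := Set.Ioi (0 : ℝ)))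
      simp only [gSum, Pi.add_apply] at h0 ⊢ this
      rw [h0] at this
      exact this
    refine squeeze_zero' ?_ ?_ cs <;>
      filter_upwards [self_mem_nhdsWithin] with t (ht : 0 < t)
    · exact (gb _ _ _ (h t ht.le).1 (h t ht.le).2.1 (h t ht.le).2.2).1
    · exact (gb _ _ _ (h t ht.le).1 (h t ht.le).2.1 (h t ht.le).2.2).2
  · exact (gc h0).tendsto.mono_left nhdsWithin_le_nhds

/-- The two inequalities for all nonnegative vectors with nonzero totals. -/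
theorem four_good {x y w u v z : ℝ} (hx : 0 ≤ x) (hy : 0 ≤ y) (hw : 0 ≤ w) (hu : 0 ≤ u) (hv : 0 ≤ v)
    (hz : 0 ≤ z) (hs : gSum x y w ≠ 0) (ht : gSum (v + z) (z + u) (u + v) ≠ 0) :
    FourGood x y w (v + z) (z + u) (u + v) := by
  have cp : ∀ a : ℝ, Continuous fun t : ℝ => a + t := fun a => by fun_prop
  have cq : ∀ a b : ℝ, Continuous fun t : ℝ => a + t + (b + t) := fun a b => by fun_prop
  have key : ∀ a b c d e f : ℝ, 0 ≤ a → 0 ≤ b → 0 ≤ c → 0 ≤ d → 0 ≤ e → 0 ≤ f →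
      ∀ g : ℝ → ℝ → ℝ → ℝ, (∀ p q r, 0 ≤ p → 0 ≤ q → 0 ≤ r → 0 ≤ g p q r ∧ g p q r ≤ gSum p q r) →
      (∀ f1 f2 f3 : ℝ → ℝ, Continuous f1 → Continuous f2 → Continuous f3 →
        gSum (f1 0) (f2 0) (f3 0) ≠ 0 → ContinuousAt (fun t => g (f1 t) (f2 t) (f3 t)) 0) →
      Tendsto (fun t => sixSum g (a + t) (b + t) (c + t) (e + t + (f + t)) (f + t + (d + t))
        (d + t + (e + t))) (𝓝[>] 0) (𝓝 (sixSum g a b c (e + f) (f + d) (d + e))) := by
    intro a b c d e f ha hb hc hd he hf g gb gc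
    have term : ∀ f1 f2 f3 : ℝ → ℝ, Continuous f1 → Continuous f2 → Continuous f3 →
        (∀ t, 0 ≤ t → 0 ≤ f1 t ∧ 0 ≤ f2 t ∧ 0 ≤ f3 t) →
        Tendsto (fun t => g (f1 t) (f2 t) (f3 t)) (𝓝[>] 0) (𝓝 (g (f1 0) (f2 0) (f3 0))) :=
      fun f1 f2 f3 c1 c2 c3 h => tendsto_deg1 gb c1 c2 c3 h (gc f1 f2 f3 c1 c2 c3)
    have T : ∀ i j k p p' q q' r r' : ℝ, 0 ≤ i → 0 ≤ j → 0 ≤ k → 0 ≤ p → 0 ≤ p' → 0 ≤ q → 0 ≤ q' →
        0 ≤ r → 0 ≤ r' →
        Tendsto (fun t => g ((i + t) * (p + t + (p' + t))) ((j + t) * (q + t + (q' + t)))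
          ((k + t) * (r + t + (r' + t)))) (𝓝[>] 0)
          (𝓝 (g (i * (p + p')) (j * (q + q')) (k * (r + r')))) := by
      intro i j k p p' q q' r r' hi hj hk hp hp' hq hq' hr hr'
      have := term (fun t => (i + t) * (p + t + (p' + t))) (fun t => (j + t) * (q + t + (q' + t)))
        (fun t => (k + t) * (r + t + (r' + t))) ((cp i).mul (cq p p')) ((cp j).mul (cq q q'))
        ((cp k).mul (cq r r')) fun t ht => ⟨by positivity, by positivity, by positivity⟩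
      simpa only [add_zero] using this
    simp only [sixSum]
    exact ((T a b c e f f d d e ha hb hc he hf hf hd hd he).add
        (T a b c f d d e e f ha hb hc hf hd hd he he hf) |>.add
        (T a b c d e e f f d ha hb hc hd he he hf hf hd)).add
      ((T a b c d e f d e f ha hb hc hd he hf hd he hf).add
        (T a b c f d e f d e ha hb hc hf hd he hf hd he) |>.add
        (T a b c e f d e f d ha hb hc he hf hd he hf hd))
  have k1 := key x y w u v z hx hy hw hu hv hz sqW (fun _ _ _ => sqW_bounds)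
    fun f1 f2 f3 c1 c2 c3 h => by
      unfold sqW nsq gSum
      exact ContinuousAt.div (by fun_prop) (by fun_prop) (pow_ne_zero _ h)
  have k2 := key x y w u v z hx hy hw hu hv hz mag (fun _ _ _ => mag_bounds)
    fun f1 f2 f3 c1 c2 c3 h => by
      unfold mag nsq
      exact ContinuousAt.div (by fun_prop) (by fun_prop) h
  have t0 : x + y + w ≠ 0 := hs
  have u0 : v + z + (z + u) + (u + v) ≠ 0 := ht
  have cs : ∀ F : ℝ → ℝ, ContinuousAt F 0 → Tendsto F (𝓝[>] 0) (𝓝 (F 0)) :=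
    fun F h => h.tendsto.mono_left nhdsWithin_le_nhds
  have r1 := cs (fun t => 2 * (sqW (x + t) (y + t) (w + t) *
        gSum (v + t + (z + t)) (z + t + (u + t)) (u + t + (v + t)) +
      gSum (x + t) (y + t) (w + t) * sqW (v + t + (z + t)) (z + t + (u + t)) (u + t + (v + t)) +
      11 / 2 * (mag (x + t) (y + t) (w + t) *
        mag (v + t + (z + t)) (z + t + (u + t)) (u + t + (v + t))) -
      2 * (cubW (x + t) (y + t) (w + t) *
        mag (v + t + (z + t)) (z + t + (u + t)) (u + t + (v + t))))) (by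
    unfold sqW mag cubW nsq gE2 gSum
    fun_prop (disch := simp [t0, u0]))
  have r2 := cs (fun t => 2 * (mag (x + t) (y + t) (w + t) *
        gSum (v + t + (z + t)) (z + t + (u + t)) (u + t + (v + t)) +
      gSum (x + t) (y + t) (w + t) * mag (v + t + (z + t)) (z + t + (u + t)) (u + t + (v + t)) -
      23 / 16 * (mag (x + t) (y + t) (w + t) *
        mag (v + t + (z + t)) (z + t + (u + t)) (u + t + (v + t))) -
      cubW (x + t) (y + t) (w + t) *
        mag (v + t + (z + t)) (z + t + (u + t)) (u + t + (v + t)))) (by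
    unfold mag cubW nsq gE2 gSum
    fun_prop (disch := simp [t0, u0]))
  simp only [add_zero] at r1 r2
  refine ⟨le_of_tendsto_of_tendsto k1 r1 ?_, le_of_tendsto_of_tendsto r2 k2 ?_⟩ <;>
    filter_upwards [self_mem_nhdsWithin] with t (ht' : 0 < t)
  · exact (four_pos (by linarith) (by linarith) (by linarith) (by linarith) (by linarith)
      (by linarith)).1
  · exact (four_pos (by linarith) (by linarith) (by linarith) (by linarith) (by linarith)
      (by linarith)).2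

end Vale.Agent.P154.Q3
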