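import Vale.Agent.P154.EdgePotential

/-!
# The three-state threshold for every eigenvalue, given an edge potential
-/

namespace Vale.Agent.P154.Q3

open Filter Topology

variable {lam μ c C κ : ℝ}

/-- An edge potential at `μ` settles both models for every `λ ∈ [μ, 1]` and every `d`. -/
theorem EdgePot.threshold (P : EdgePot μ c C κ) (hμ : -1 / 2 ≤ μ) (hμ0 : μ < 0) (hc : 0 < c)
    (hC : 0 < C) (hκ : 0 < κ) (h0 : μ ≤ lam) (h1 : lam ≤ 1) :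
    (∀ d : ℕ, 2 ≤ d → (Tendsto (aRegular 3 d lam) atTop (𝓝 0) ↔ (d : ℝ) * lam ^ 2 ≤ 1) ∧
      (1 < (d : ℝ) * lam ^ 2 → ∃ c > 0, ∀ n, c ≤ aRegular 3 d lam n)) ∧
    ∀ d : ℝ, 0 < d → (Tendsto (aPoisson 3 d lam) atTop (𝓝 0) ↔ d * lam ^ 2 ≤ 1) ∧
      (1 < d * lam ^ 2 → ∃ c > 0, ∀ n, c ≤ aPoisson 3 d lam n) := by
  have hA := adm_three' (hμ.trans h0) h1
  rcases le_or_gt 0 lam with hp | hn
  · exact ⟨fun d hd => reg_iff hd hp h1, fun d hd => gw_iff hd hp h1⟩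
  obtain ⟨hR, hP⟩ := P.nonreconstruction hμ hμ0 hc hC hκ h0 hn
  refine ⟨fun d hd => ?_, fun d hd => ?_⟩
  · have key : 1 < (d : ℝ) * lam ^ 2 → ∃ c > 0, ∀ n, c ≤ aRegular 3 d lam n := fun h =>
      ⟨_, ksBound_pos hA h, ksBound_le_aRegular hA (by omega) h⟩
    refine ⟨⟨fun ht => not_lt.1 fun hlt => ?_, hR d hd⟩, key⟩
    obtain ⟨c, hc, hle⟩ := key hlt
    exact not_tendsto_of_le hc hle ht
  · have key : 1 < d * lam ^ 2 → ∃ c > 0, ∀ n, c ≤ aPoisson 3 d lam n := fun h =>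
      ⟨_, ksBound_pos hA h, ksBound_le_aPoisson hA hd h⟩
    refine ⟨⟨fun ht => not_lt.1 fun hlt => ?_, hP d hd⟩, key⟩
    obtain ⟨c, hc, hle⟩ := key hlt
    exact not_tendsto_of_le hc hle ht

end Vale.Agent.P154.Q3
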