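import Vale.Agent.P154.ProdNode

/-!
From leaf, edge and combining lemmas on a class of channels to the node inequality.

A channel is a finite family `w : Fin q → Ω → ℝ`. It suffices to exhibit a class of channels that
contains the leaf and the trivial channel, is closed under relabelling, Potts edges and products,
and on which `X (w ⊗ v) ≤ X w + X v - c X w X v` and `X (edge w) ≤ λ² X w`.
-/

namespace Vale.Agent.P154

open Finset

variable {q : ℕ} {lam : ℝ}

/-- The magnetisation of a channel. -/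
noncomputable def chanX {q : ℕ} {Ω : Type} [Fintype Ω] (w : Fin q → Ω → ℝ) : ℝ :=
  ∑ ω, (∑ i, (w i ω - (∑ a, w a ω) / q) ^ 2) / (q * ∑ a, w a ω)

/-- A channel seen through a Potts edge. -/
noncomputable def edgeChan {Ω : Type} (q : ℕ) (lam : ℝ) (w : Fin q → Ω → ℝ) : Fin q → Ω → ℝ :=
  fun i ω => ∑ a, potts q lam i a * w a ω

/-- Two conditionally independent channels. -/
def prodChan {q : ℕ} {Ω Ω' : Type} (w : Fin q → Ω → ℝ) (v : Fin q → Ω' → ℝ) :
    Fin q → Ω × Ω' → ℝ :=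
  fun i p => w i p.1 * v i p.2

theorem chanX_equiv {Ω Ω' : Type} [Fintype Ω] [Fintype Ω'] (e : Ω' ≃ Ω) (w : Fin q → Ω → ℝ) :
    chanX (fun i ω => w i (e ω)) = chanX w := by
  simp only [chanX]
  exact e.sum_comp fun ω => (∑ i, (w i ω - (∑ a, w a ω) / q) ^ 2) / (q * ∑ a, w a ω)

theorem mag_eq_chanX (q : ℕ) (lam : ℝ) (n : ℕ) (t : Shape n) :
    mag q lam n t = chanX (lik q lam n t) := rfl

theorem chanX_const [NeZero q] : chanX (fun (_ : Fin q) (_ : Unit) => (1 : ℝ)) = 0 := by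
  simp [chanX]

/-- What a class of channels must satisfy. -/
structure GoodClass (q : ℕ) (lam c : ℝ) where
  /-- The class. -/
  K : ∀ (Ω : Type) [Fintype Ω], (Fin q → Ω → ℝ) → Prop
  leaf : ∀ (Ω : Type) [Fintype Ω] [DecidableEq Ω] (e : Ω ≃ Fin q),
    K Ω fun i ω => if e ω = i then 1 else 0
  trivial : K Unit fun _ _ => 1
  relabel : ∀ (Ω Ω' : Type) [Fintype Ω] [Fintype Ω'] (e : Ω' ≃ Ω) (w : Fin q → Ω → ℝ),
    K Ω w → K Ω' fun i ω => w i (e ω)
  edge : ∀ (Ω : Type) [Fintype Ω] (w : Fin q → Ω → ℝ), K Ω w →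
    K Ω (edgeChan q lam w) ∧ chanX (edgeChan q lam w) ≤ lam ^ 2 * chanX w
  combine : ∀ (Ω Ω' : Type) [Fintype Ω] [Fintype Ω'] (w : Fin q → Ω → ℝ) (v : Fin q → Ω' → ℝ),
    K Ω w → K Ω' v → K (Ω × Ω') (prodChan w v) ∧
      chanX (prodChan w v) ≤ chanX w + chanX v - c * chanX w * chanX v

/-- Iterating the binary inequality over the coordinates of a product. -/
theorem GoodClass.pi_bound {c : ℝ} (hG : GoodClass q lam c) [NeZero q] (hc : 0 < c) :
    ∀ (k : ℕ) (α : Fin k → Type) [∀ j, Fintype (α j)] (w : ∀ j, Fin q → α j → ℝ) (y : Fin k → ℝ),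
      (∀ j, hG.K (α j) (w j)) → (∀ j, chanX (w j) ≤ y j) → (∀ j, 0 ≤ y j) → (∀ j, c * y j ≤ 1) →
      hG.K (∀ j, α j) (fun i ω => ∏ j, w j i (ω j)) ∧
        chanX (fun i (ω : ∀ j, α j) => ∏ j, w j i (ω j)) ≤ (1 - ∏ j, (1 - c * y j)) / c
  | 0, α, _, w, y, _, _, _, _ => by
    let e : (∀ j, α j) ≃ Unit := Equiv.ofUnique _ _
    have h1 : (fun (i : Fin q) (ω : ∀ j, α j) => ∏ j, w j i (ω j))
        = fun i ω => (fun (_ : Fin q) (_ : Unit) => (1 : ℝ)) i (e ω) := by
      funext i ω; simp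
    rw [h1]
    refine ⟨hG.relabel _ _ e _ hG.trivial, ?_⟩
    rw [chanX_equiv e fun (_ : Fin q) (_ : Unit) => (1 : ℝ), chanX_const]
    simp
  | k + 1, α, _, w, y, hK, hy, hy0, hy1 => by
    obtain ⟨hKr, hXr⟩ := hG.pi_bound hc k (fun j => α j.succ) (fun j => w j.succ)
      (fun j => y j.succ) (fun j => hK j.succ) (fun j => hy j.succ) (fun j => hy0 j.succ)
      (fun j => hy1 j.succ)
    have hcomb := hG.combine (α 0) (∀ j : Fin k, α j.succ) (w 0)
      (fun (i : Fin q) (ω : ∀ j : Fin k, α j.succ) => ∏ j : Fin k, w j.succ i (ω j)) (hK 0) hKr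
    obtain ⟨hKp, hXp⟩ := hcomb
    let e : (∀ j, α j) ≃ α 0 × (∀ j : Fin k, α j.succ) := (Fin.consEquiv α).symm
    have h1 : (fun (i : Fin q) (ω : ∀ j, α j) => ∏ j, w j i (ω j))
        = fun i ω => prodChan (w 0)
          (fun i (ω : ∀ j : Fin k, α j.succ) => ∏ j, w j.succ i (ω j)) i (e ω) := by
      funext i ω
      simp [prodChan, e, Fin.consEquiv, Fin.prod_univ_succ, Fin.tail]
    rw [h1]
    refine ⟨hG.relabel _ _ e _ hKp, ?_⟩
    rw [chanX_equiv e, Fin.prod_univ_succ]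
    set R := chanX (fun i (ω : ∀ j : Fin k, α j.succ) => ∏ j, w j.succ i (ω j))
    set P := ∏ j : Fin k, (1 - c * y j.succ)
    have hP : 0 ≤ P := prod_nonneg fun j _ => sub_nonneg.2 (hy1 j.succ)
    rw [le_div_iff₀ hc] at hXr ⊢
    have h2 := mul_le_mul_of_nonneg_left hXp hc.le
    have h3 := mul_le_mul_of_nonneg_left (hy 0) (mul_nonneg hc.le (show 0 ≤ 1 - R * c by linarith))
    have h4 := mul_le_mul_of_nonneg_left hXr (sub_nonneg.2 (hy1 0))
    nlinarith

theorem GoodClass.lik_mem {c : ℝ} (hG : GoodClass q lam c) [NeZero q] (h : Adm q lam) (hc : 0 < c)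
    (hc2 : c ≤ 1 / 2) (hl : lam ^ 2 ≤ 1) :
    ∀ (n : ℕ) (t : Shape n), hG.K (Obs q n t) (lik q lam n t)
  | 0, t => by
    have h0 := hG.leaf (Fin q) (Equiv.refl _)
    have := hG.relabel (Fin q) (Obs q 0 t) (Equiv.refl (Fin q)) _ h0
    exact this
  | n + 1, t => by
    have hchild := fun j : Fin t.1 => hG.edge _ _ (hG.lik_mem h hc hc2 hl n (t.2 j))
    have hp := (hG.pi_bound hc t.1 (fun j => Obs q n (t.2 j))
      (fun j => edgeChan q lam (lik q lam n (t.2 j))) (fun j => lam ^ 2 * mag q lam n (t.2 j))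
      (fun j => (hchild j).1) (fun j => (hchild j).2)
      (fun j => mul_nonneg (sq_nonneg _) (mag_nonneg h n _))
      (fun j => by rw [← mul_assoc]; exact mul_mag_le_one h hc hc2 hl n _)).1
    exact hG.relabel ((j : Fin t.1) → Obs q n (t.2 j)) (Obs q (n + 1) t) (Equiv.refl _) _ hp

theorem GoodClass.prodNode {c : ℝ} (hG : GoodClass q lam c) [NeZero q] (h : Adm q lam)
    (hc : 0 < c) (hc2 : c ≤ 1 / 2) (hl : lam ^ 2 ≤ 1) : ProdNode q lam c := by
  intro n t
  have hchild := fun j : Fin t.1 => hG.edge _ _ (hG.lik_mem h hc hc2 hl n (t.2 j))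
  have hp := (hG.pi_bound hc t.1 (fun j => Obs q n (t.2 j))
    (fun j => edgeChan q lam (lik q lam n (t.2 j))) (fun j => lam ^ 2 * mag q lam n (t.2 j))
    (fun j => (hchild j).1) (fun j => (hchild j).2)
    (fun j => mul_nonneg (sq_nonneg _) (mag_nonneg h n _))
    (fun j => by rw [← mul_assoc]; exact mul_mag_le_one h hc hc2 hl n _)).2
  refine le_trans (le_of_eq ?_) (hp.trans (le_of_eq ?_))
  · rw [mag]
    exact sum_obs_succ t _
  · simp only [mul_assoc]

end Vale.Agent.P154
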