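import Vale.Agent.P154.Basics

/-!
The Kesten-Stigum direction: above `d λ² = 1` the census keeps information on the root.
-/

namespace Vale.Agent.P154

open Finset

variable {q : ℕ} {lam : ℝ}

/-- The admissible eigenvalues. -/
def Adm (q : ℕ) (lam : ℝ) : Prop := 2 ≤ q ∧ -1 / ((q : ℝ) - 1) ≤ lam ∧ lam ≤ 1

theorem Adm.q_pos (h : Adm q lam) : (0 : ℝ) < q := Nat.cast_pos.2 (by have := h.1; omega)

theorem potts_nonneg (h : Adm q lam) (i j : Fin q) : 0 ≤ potts q lam i j := by
  have hq := h.q_pos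
  have hq2 : (2 : ℝ) ≤ q := by exact_mod_cast h.1
  have h1 := h.2.1
  rw [div_le_iff₀ (by linarith)] at h1
  have h2 := h.2.2
  unfold potts
  split
  · rw [mul_one]
    have : lam + (1 - lam) / q = (lam * ((q : ℝ) - 1) + 1) / q := by field_simp; ring
    rw [this]
    exact div_nonneg (by linarith) hq.le
  · rw [mul_zero, zero_add]
    exact div_nonneg (by linarith) hq.le

theorem sum_potts (h : Adm q lam) (i : Fin q) : ∑ j, potts q lam i j = 1 := by
  have hq := h.q_pos
  simp only [potts, sum_add_distrib, ← mul_sum, sum_ite_eq, mem_univ, if_true, sum_const,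
    card_univ, Fintype.card_fin, nsmul_eq_mul]
  field_simp
  ring

theorem lik_nonneg (h : Adm q lam) : ∀ (n : ℕ) (t : Shape n) (i : Fin q) (ω : Obs q n t),
    0 ≤ lik q lam n t i ω
  | 0, _, i, ω => by unfold lik; split <;> norm_num
  | n + 1, t, i, ω => prod_nonneg fun j _ => sum_nonneg fun a _ =>
      mul_nonneg (potts_nonneg h i a) (lik_nonneg h n (t.2 j) a (ω j))

/-- The child channel at slot `j`. -/
noncomputable def edgeLik (q : ℕ) (lam : ℝ) {n : ℕ} (t : Shape (n + 1)) (i : Fin q) (j : Fin t.1)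
    (x : Obs q n (t.2 j)) : ℝ :=
  ∑ a, potts q lam i a * lik q lam n (t.2 j) a x

theorem lik_succ {n : ℕ} (t : Shape (n + 1)) (i : Fin q) (ω : (j : Fin t.1) → Obs q n (t.2 j)) :
    lik q lam (n + 1) t i ω = ∏ j, edgeLik q lam t i j (ω j) := rfl

theorem sum_obs_succ {n : ℕ} (t : Shape (n + 1)) (F : Obs q (n + 1) t → ℝ) :
    ∑ ω, F ω = ∑ ω : (j : Fin t.1) → Obs q n (t.2 j), F ω :=
  @Fintype.sum_equiv _ _ _ (_) (_) _ (Equiv.refl _) _ _ fun _ => rfl

theorem sum_lik (h : Adm q lam) : ∀ (n : ℕ) (t : Shape n) (i : Fin q),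
    ∑ ω, lik q lam n t i ω = 1
  | 0, _, i => by
    show ∑ ω : Fin q, (if ω = i then (1 : ℝ) else 0) = 1
    simp
  | n + 1, t, i => by
    rw [sum_obs_succ]
    simp only [lik_succ]
    rw [sum_pi_prod]
    refine prod_eq_one fun j _ => ?_
    unfold edgeLik
    rw [sum_comm]
    simp [← mul_sum, sum_lik h n (t.2 j), sum_potts h]

theorem sum_edgeLik_mul {n : ℕ} (t : Shape (n + 1)) (i : Fin q) (j : Fin t.1)
    (g : Obs q n (t.2 j) → ℝ) :
    ∑ x, edgeLik q lam t i j x * g x
      = ∑ a, potts q lam i a * ∑ x, lik q lam n (t.2 j) a x * g x := by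
  unfold edgeLik
  simp only [sum_mul, mul_sum, mul_assoc]
  rw [sum_comm]

theorem sum_edgeLik (h : Adm q lam) {n : ℕ} (t : Shape (n + 1)) (i : Fin q) (j : Fin t.1) :
    ∑ x, edgeLik q lam t i j x = 1 := by
  have := sum_edgeLik_mul (lam := lam) t i j (fun _ => 1)
  simp only [mul_one, sum_lik h] at this
  rw [this, sum_potts h]

/-! ### The census -/

/-- The centred indicator of the first spin. -/
noncomputable def phi (q : ℕ) (i : Fin q) : ℝ := (if i.val = 0 then 1 else 0) - 1 / q

theorem sum_phi (h : Adm q lam) : ∑ i, phi q i = 0 := by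
  have hq := h.q_pos
  obtain ⟨p, rfl⟩ : ∃ p, q = p + 1 := ⟨q - 1, by have := h.1; omega⟩
  simp [phi, sum_sub_distrib]
  field_simp
  ring

theorem sum_phi_sq (h : Adm q lam) : ∑ i, phi q i ^ 2 = ((q : ℝ) - 1) / q := by
  have hq := h.q_pos
  obtain ⟨p, rfl⟩ : ∃ p, q = p + 1 := ⟨q - 1, by have := h.1; omega⟩
  simp [phi, Fin.sum_univ_succ]
  field_simp
  ring

theorem abs_phi_le (h : Adm q lam) (i : Fin q) : |phi q i| ≤ 1 := by
  have hq := h.q_pos
  have h1 : (0 : ℝ) < 1 / q := by positivity
  have h2 : (1 : ℝ) / q ≤ 1 := by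
    rw [div_le_one hq]; exact_mod_cast (show 1 ≤ q by have := h.1; omega)
  unfold phi
  rw [abs_le]
  split <;> constructor <;> linarith

theorem sum_potts_phi (h : Adm q lam) (i : Fin q) :
    ∑ a, potts q lam i a * phi q a = lam * phi q i := by
  simp only [potts, add_mul, sum_add_distrib, ← mul_sum, sum_phi h, mul_assoc, ite_mul, one_mul,
    zero_mul, sum_ite_eq, mem_univ, if_true, mul_zero, add_zero]

/-- The census of the spins at depth `n`. -/
noncomputable def census (q : ℕ) : (n : ℕ) → (t : Shape n) → Obs q n t → ℝ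
  | 0, _, ω => phi q ω
  | n + 1, t, ω => ∑ j : Fin t.1, census q n (t.2 j) (ω j)

/-- The number of vertices at depth `n`. -/
def leaves : (n : ℕ) → Shape n → ℝ
  | 0, _ => 1
  | n + 1, t => ∑ j : Fin t.1, leaves n (t.2 j)

/-- A bound for the second moment of the census. -/
noncomputable def spread (lam : ℝ) : (n : ℕ) → Shape n → ℝ
  | 0, _ => 1
  | n + 1, t => (∑ j : Fin t.1, spread lam n (t.2 j))
      + (lam ^ 2) ^ (n + 1)
        * ((∑ j : Fin t.1, leaves n (t.2 j)) ^ 2 - ∑ j : Fin t.1, leaves n (t.2 j) ^ 2)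

theorem leaves_nonneg : ∀ (n : ℕ) (t : Shape n), 0 ≤ leaves n t
  | 0, _ => zero_le_one
  | n + 1, _ => sum_nonneg fun _ _ => leaves_nonneg n _

theorem pairs_nonneg {n : ℕ} (t : Shape (n + 1)) :
    0 ≤ (∑ j : Fin t.1, leaves n (t.2 j)) ^ 2 - ∑ j : Fin t.1, leaves n (t.2 j) ^ 2 :=
  sub_nonneg.2 (sum_sq_le_sq_sum_of_nonneg fun _ _ => leaves_nonneg n _)

theorem spread_nonneg (lam : ℝ) : ∀ (n : ℕ) (t : Shape n), 0 ≤ spread lam n t
  | 0, _ => zero_le_one
  | n + 1, t => add_nonneg (sum_nonneg fun _ _ => spread_nonneg lam n _)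
      (mul_nonneg (by positivity) (pairs_nonneg t))

theorem census_mean (h : Adm q lam) : ∀ (n : ℕ) (t : Shape n) (i : Fin q),
    ∑ ω, lik q lam n t i ω * census q n t ω = lam ^ n * leaves n t * phi q i
  | 0, _, i => by
    show ∑ ω : Fin q, (if ω = i then (1 : ℝ) else 0) * phi q ω = lam ^ 0 * 1 * phi q i
    simp
  | n + 1, t, i => by
    rw [sum_obs_succ]
    simp only [lik_succ, census, mul_sum]
    rw [sum_comm]
    simp only [leaves, mul_sum, sum_mul]
    refine sum_congr rfl fun j _ => ?_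
    rw [sum_pi_one _ (fun l => sum_edgeLik h t i l) j (fun x => census q n (t.2 j) x),
      sum_edgeLik_mul]
    simp only [census_mean h n (t.2 j)]
    calc ∑ a, potts q lam i a * (lam ^ n * leaves n (t.2 j) * phi q a)
        = lam ^ n * leaves n (t.2 j) * ∑ a, potts q lam i a * phi q a := by
          rw [mul_sum]; exact sum_congr rfl fun a _ => by ring
      _ = _ := by rw [sum_potts_phi h]; ring

theorem census_sq (h : Adm q lam) : ∀ (n : ℕ) (t : Shape n) (i : Fin q),
    ∑ ω, lik q lam n t i ω * census q n t ω ^ 2 ≤ spread lam n t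
  | 0, _, i => by
    show ∑ ω : Fin q, (if ω = i then (1 : ℝ) else 0) * phi q ω ^ 2 ≤ 1
    simp only [ite_mul, one_mul, zero_mul, sum_ite_eq', mem_univ, if_true]
    exact (sq_le_one_iff_abs_le_one _).2 (abs_phi_le h i)
  | n + 1, t, i => by
    rw [sum_obs_succ]
    simp only [lik_succ, census, sq (∑ _ ∈ _, _), sum_mul_sum]
    simp only [mul_sum]
    rw [sum_comm]
    simp only [sum_comm (s := (univ : Finset ((j : Fin t.1) → Obs q n (t.2 j))))]
    have key : ∀ l m : Fin t.1,
        ∑ ω : (j : Fin t.1) → Obs q n (t.2 j), (∏ j, edgeLik q lam t i j (ω j))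
          * (census q n (t.2 l) (ω l) * census q n (t.2 m) (ω m))
        ≤ (if l = m then spread lam n (t.2 l) else
            (lam ^ 2) ^ (n + 1) * (leaves n (t.2 l) * leaves n (t.2 m))) := by
      intro l m
      rcases eq_or_ne l m with rfl | hlm
      · rw [if_pos rfl]
        simp only [← sq]
        rw [sum_pi_one _ (fun l => sum_edgeLik h t i l) l (fun x => census q n (t.2 l) x ^ 2),
          sum_edgeLik_mul]
        calc ∑ a, potts q lam i a * ∑ x, lik q lam n (t.2 l) a x * census q n (t.2 l) x ^ 2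
            ≤ ∑ a, potts q lam i a * spread lam n (t.2 l) :=
              sum_le_sum fun a _ => mul_le_mul_of_nonneg_left (census_sq h n (t.2 l) a)
                (potts_nonneg h i a)
          _ = spread lam n (t.2 l) := by rw [← sum_mul, sum_potts h, one_mul]
      · rw [if_neg hlm, sum_pi_two _ (fun l => sum_edgeLik h t i l) hlm
          (fun x => census q n (t.2 l) x) (fun x => census q n (t.2 m) x),
          sum_edgeLik_mul, sum_edgeLik_mul]
        have e : ∀ j : Fin t.1, ∑ a, potts q lam i a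
            * ∑ x, lik q lam n (t.2 j) a x * census q n (t.2 j) x
            = lam ^ (n + 1) * leaves n (t.2 j) * phi q i := fun j => by
          simp only [census_mean h n (t.2 j)]
          calc ∑ a, potts q lam i a * (lam ^ n * leaves n (t.2 j) * phi q a)
              = lam ^ n * leaves n (t.2 j) * ∑ a, potts q lam i a * phi q a := by
                rw [mul_sum]; exact sum_congr rfl fun a _ => by ring
            _ = _ := by rw [sum_potts_phi h]; ring
        rw [e, e]
        have hp : phi q i ^ 2 ≤ 1 := (sq_le_one_iff_abs_le_one _).2 (abs_phi_le h i)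
        have hnn : 0 ≤ (lam ^ (n + 1)) ^ 2 * (leaves n (t.2 l) * leaves n (t.2 m)) :=
          mul_nonneg (sq_nonneg _) (mul_nonneg (leaves_nonneg n _) (leaves_nonneg n _))
        calc lam ^ (n + 1) * leaves n (t.2 l) * phi q i
              * (lam ^ (n + 1) * leaves n (t.2 m) * phi q i)
            = (lam ^ (n + 1)) ^ 2 * (leaves n (t.2 l) * leaves n (t.2 m)) * phi q i ^ 2 := by ring
          _ ≤ (lam ^ (n + 1)) ^ 2 * (leaves n (t.2 l) * leaves n (t.2 m)) * 1 :=
              mul_le_mul_of_nonneg_left hp hnn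
          _ = _ := by rw [mul_one, ← pow_mul, ← pow_mul, mul_comm 2 (n + 1)]
    refine (sum_le_sum fun l _ => sum_le_sum fun m _ => key l m).trans (le_of_eq ?_)
    rw [spread, sq (∑ j, leaves n (t.2 j)), sum_mul_sum, ← sum_sub_distrib, mul_sum,
      ← sum_add_distrib]
    refine sum_congr rfl fun l _ => ?_
    rw [← sum_erase_add univ _ (mem_univ l), ← sum_erase_add univ
      (fun m => leaves n (t.2 l) * leaves n (t.2 m)) (mem_univ l), if_pos rfl,
      show leaves n (t.2 l) ^ 2 = leaves n (t.2 l) * leaves n (t.2 l) from sq _,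
      add_sub_cancel_right, mul_sum, add_comm]
    exact congrArg _ (sum_congr rfl fun m hm => (if_neg (ne_of_mem_erase hm).symm).trans (by ring))

theorem advantage_nonneg (q : ℕ) (lam : ℝ) (n : ℕ) (t : Shape n) : 0 ≤ advantage q lam n t :=
  sum_nonneg fun _ _ => mul_nonneg (by positivity) (sum_nonneg fun _ _ => abs_nonneg _)

theorem sum_dev_le (h : Adm q lam) {n : ℕ} (t : Shape n) (ω : Obs q n t) :
    ∑ i, |lik q lam n t i ω - (∑ a, lik q lam n t a ω) / q|
      ≤ 2 * ∑ a, lik q lam n t a ω := by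
  have hq := h.q_pos
  have h0 := fun a => lik_nonneg h n t a ω
  have hW : 0 ≤ ∑ a, lik q lam n t a ω := sum_nonneg fun a _ => h0 a
  refine (sum_le_sum fun i _ => (abs_sub _ _).trans_eq
    (by rw [abs_of_nonneg (h0 i), abs_of_nonneg (by positivity)])).trans (le_of_eq ?_)
  rw [sum_add_distrib, sum_const, card_univ, Fintype.card_fin, nsmul_eq_mul]
  field_simp
  ring

theorem advantage_le_one (h : Adm q lam) (n : ℕ) (t : Shape n) : advantage q lam n t ≤ 1 := by
  have hq := h.q_pos
  refine (sum_le_sum fun ω _ => mul_le_mul_of_nonneg_left (sum_dev_le h t ω)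
    (by positivity)).trans (le_of_eq ?_)
  simp only [← mul_sum]
  rw [sum_comm]
  simp [sum_lik h]
  field_simp

/-- The census inequality on one tree. -/
theorem census_bound (h : Adm q lam) (n : ℕ) (t : Shape n) {T : ℝ} (hT : 0 < T) :
    ((q : ℝ) - 1) / q ^ 2 * (|lam| ^ n * leaves n t)
      ≤ T * spread lam n t + advantage q lam n t / T := by
  have hq := h.q_pos
  set S := census q n t
  set W := fun ω => ∑ a, lik q lam n t a ω with hWdef
  set D := fun ω => ∑ i, |lik q lam n t i ω - W ω / q| with hDdef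
  have hlhs : ∑ ω, S ω * ∑ i, phi q i * lik q lam n t i ω
      = ((q : ℝ) - 1) / q * (lam ^ n * leaves n t) := by
    calc ∑ ω, S ω * ∑ i, phi q i * lik q lam n t i ω
        = ∑ i, phi q i * ∑ ω, lik q lam n t i ω * S ω := by
          simp only [mul_sum]
          rw [sum_comm]
          exact sum_congr rfl fun i _ => sum_congr rfl fun ω _ => by ring
      _ = (∑ i, phi q i ^ 2) * (lam ^ n * leaves n t) := by
          rw [sum_mul]
          exact sum_congr rfl fun i _ => by rw [census_mean h n t i]; ring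
      _ = _ := by rw [sum_phi_sq h]
  have hpoint : ∀ ω, |S ω * ∑ i, phi q i * lik q lam n t i ω|
      ≤ T * (S ω ^ 2 * W ω) + D ω / (2 * T) := by
    intro ω
    have hD0 : 0 ≤ D ω := sum_nonneg fun _ _ => abs_nonneg _
    have hW0 : 0 ≤ W ω := sum_nonneg fun a _ => lik_nonneg h n t a ω
    have hD2 : D ω ≤ 2 * W ω := sum_dev_le h t ω
    have hinner : |∑ i, phi q i * lik q lam n t i ω| ≤ D ω := by
      have e : ∑ i, phi q i * lik q lam n t i ω
          = ∑ i, phi q i * (lik q lam n t i ω - W ω / q) := by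
        simp only [mul_sub, sum_sub_distrib, ← sum_mul, sum_phi h, zero_mul, sub_zero]
      rw [e]
      refine (abs_sum_le_sum_abs _ _).trans (sum_le_sum fun i _ => ?_)
      rw [abs_mul]
      exact mul_le_of_le_one_left (abs_nonneg _) (abs_phi_le h i)
    rw [abs_mul]
    refine (mul_le_mul_of_nonneg_left hinner (abs_nonneg _)).trans ?_
    rw [← sq_abs (S ω)]
    rcases hW0.eq_or_lt with hz | hpos
    · have : D ω = 0 := by linarith
      rw [this, ← hz]; simp
    rw [← sub_nonneg, show T * (|S ω| ^ 2 * W ω) + D ω / (2 * T) - |S ω| * D ω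
      = ((2 * T * |S ω| * W ω - D ω) ^ 2 + D ω * (2 * W ω - D ω)) / (4 * T * W ω) by
        field_simp; ring]
    exact div_nonneg (add_nonneg (sq_nonneg _) (mul_nonneg hD0 (by linarith))) (by positivity)
  have hsq : ∑ ω, S ω ^ 2 * W ω ≤ q * spread lam n t := by
    calc ∑ ω, S ω ^ 2 * W ω = ∑ i, ∑ ω, lik q lam n t i ω * S ω ^ 2 := by
          simp only [hWdef, mul_sum]
          rw [sum_comm]
          exact sum_congr rfl fun i _ => sum_congr rfl fun ω _ => by ring
      _ ≤ ∑ _i : Fin q, spread lam n t := sum_le_sum fun i _ => census_sq h n t i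
      _ = q * spread lam n t := by simp
  have hadv : ∑ ω, D ω = 2 * q * advantage q lam n t := by
    simp only [advantage, ← mul_sum, hDdef, hWdef]
    field_simp
    exact sum_congr rfl fun _ _ => sum_congr rfl fun _ _ => by ring_nf
  have habs : ((q : ℝ) - 1) / q * (|lam| ^ n * leaves n t)
      ≤ T * (q * spread lam n t) + q * advantage q lam n t / T := by
    have hz := leaves_nonneg n t
    have hq1 : 0 ≤ ((q : ℝ) - 1) / q := div_nonneg (by
      have : (2 : ℝ) ≤ q := by exact_mod_cast h.1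
      linarith) hq.le
    calc ((q : ℝ) - 1) / q * (|lam| ^ n * leaves n t)
        = |∑ ω, S ω * ∑ i, phi q i * lik q lam n t i ω| := by
          rw [hlhs, abs_mul, abs_mul, abs_of_nonneg hq1, abs_of_nonneg hz, abs_pow]
      _ ≤ ∑ ω, (T * (S ω ^ 2 * W ω) + D ω / (2 * T)) :=
          (abs_sum_le_sum_abs _ _).trans (sum_le_sum fun ω _ => hpoint ω)
      _ ≤ T * (q * spread lam n t) + q * advantage q lam n t / T := by
          rw [sum_add_distrib, ← mul_sum, ← sum_div, hadv]
          refine add_le_add (mul_le_mul_of_nonneg_left hsq hT.le) (le_of_eq ?_)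
          field_simp
  refine le_of_mul_le_mul_left ?_ hq
  calc (q : ℝ) * (((q : ℝ) - 1) / q ^ 2 * (|lam| ^ n * leaves n t))
      = ((q : ℝ) - 1) / q * (|lam| ^ n * leaves n t) := by field_simp
    _ ≤ _ := habs.trans (le_of_eq (by ring))

/-! ### The two models -/

/-- The constant of the second moment bound. -/
noncomputable def ksConst (d lam : ℝ) : ℝ := d * lam ^ 2 / (d * lam ^ 2 - 1)

theorem spread_growth {d lam b : ℝ} (hd : 0 < d) (hr : 1 < d * lam ^ 2) {n : ℕ}
    (hb : b ≤ ksConst d lam * (d ^ 2 * lam ^ 2) ^ n) :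
    d * b + (lam ^ 2) ^ (n + 1) * (d ^ 2 * (d ^ n) ^ 2)
      ≤ ksConst d lam * (d ^ 2 * lam ^ 2) ^ (n + 1) := by
  have hne : d * lam ^ 2 - 1 ≠ 0 := by linarith
  refine (add_le_add (mul_le_mul_of_nonneg_left hb hd.le) le_rfl).trans (le_of_eq ?_)
  unfold ksConst
  simp only [mul_pow, pow_succ, ← pow_mul]
  field_simp
  ring

theorem leaves_regular (d : ℕ) : ∀ n, leaves n (regular d n) = (d : ℝ) ^ n
  | 0 => by simp [leaves]
  | n + 1 => by
    show ∑ _j : Fin d, leaves n (regular d n) = _
    simp [leaves_regular d n, pow_succ, mul_comm]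

theorem spread_regular {d : ℕ} (hd : 0 < d) (hr : 1 < (d : ℝ) * lam ^ 2) : ∀ n,
    spread lam n (regular d n) ≤ ksConst d lam * ((d : ℝ) ^ 2 * lam ^ 2) ^ n
  | 0 => by
    simp only [spread, pow_zero, mul_one, ksConst]
    rw [le_div_iff₀ (by linarith)]
    linarith
  | n + 1 => by
    refine le_trans ?_ (spread_growth (Nat.cast_pos.2 hd) hr (spread_regular hd hr n))
    show (∑ _j : Fin d, spread lam n (regular d n)) + (lam ^ 2) ^ (n + 1)
      * ((∑ _j : Fin d, leaves n (regular d n)) ^ 2 - ∑ _j : Fin d, leaves n (regular d n) ^ 2)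
      ≤ _
    simp only [sum_const, card_univ, Fintype.card_fin, nsmul_eq_mul, leaves_regular]
    refine add_le_add le_rfl (mul_le_mul_of_nonneg_left ?_ (by positivity))
    have : (0 : ℝ) ≤ (d : ℝ) * ((d : ℝ) ^ n) ^ 2 := by positivity
    nlinarith

/-- The lower bound for the advantage above the Kesten-Stigum threshold. -/
noncomputable def ksBound (q : ℕ) (d lam : ℝ) : ℝ :=
  (((q : ℝ) - 1) / q ^ 2) ^ 2 / (4 * ksConst d lam)

theorem ksBound_pos (h : Adm q lam) {d : ℝ} (hr : 1 < d * lam ^ 2) : 0 < ksBound q d lam := by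
  have hq : (2 : ℝ) ≤ q := by exact_mod_cast h.1
  have : 0 < ksConst d lam := div_pos (by linarith) (by linarith)
  have : 0 < ((q : ℝ) - 1) / q ^ 2 := div_pos (by linarith) (by positivity)
  unfold ksBound
  positivity

theorem ksBound_le (h : Adm q lam) {d a Z B : ℝ} (hd : 0 < d) (hr : 1 < d * lam ^ 2) {n : ℕ}
    (hZ : Z = d ^ n) (hB : B ≤ ksConst d lam * (d ^ 2 * lam ^ 2) ^ n)
    (hineq : ∀ T : ℝ, 0 < T →
      ((q : ℝ) - 1) / q ^ 2 * (|lam| ^ n * Z) ≤ T * B + a / T) :
    ksBound q d lam ≤ a := by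
  have hq : (2 : ℝ) ≤ q := by exact_mod_cast h.1
  set s := ((q : ℝ) - 1) / q ^ 2 with hs
  set C := ksConst d lam with hC
  have hC0 : 0 < C := div_pos (by linarith) (by linarith)
  have hs0 : 0 < s := div_pos (by linarith) (by positivity)
  have hlam : lam ≠ 0 := fun e => by rw [e] at hr; norm_num at hr
  set μ := |lam| ^ n * d ^ n with hμ
  have hμ0 : 0 < μ := mul_pos (pow_pos (abs_pos.2 hlam) n) (pow_pos hd n)
  have hμ2 : μ ^ 2 = (d ^ 2 * lam ^ 2) ^ n := by
    rw [hμ, ← mul_pow, ← pow_mul, mul_comm n 2, pow_mul, mul_pow, sq_abs, mul_comm]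
  set T := s / (2 * C * μ) with hTdef
  have hT : 0 < T := by positivity
  have hmain := hineq T hT
  rw [hZ, ← hμ] at hmain
  have hTB : T * B ≤ s * μ / 2 := by
    refine (mul_le_mul_of_nonneg_left hB hT.le).trans (le_of_eq ?_)
    rw [← hμ2, hTdef]
    field_simp
  have ha : s * μ / 2 ≤ a / T := by linarith
  rw [le_div_iff₀ hT] at ha
  refine le_trans (le_of_eq ?_) ha
  rw [hTdef, ksBound, ← hs, ← hC]
  field_simp
  ring

theorem ksBound_le_aRegular (h : Adm q lam) {d : ℕ} (hd : 0 < d) (hr : 1 < (d : ℝ) * lam ^ 2)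
    (n : ℕ) : ksBound q d lam ≤ aRegular q d lam n :=
  ksBound_le h (Nat.cast_pos.2 hd) hr rfl (spread_regular hd hr n) fun T hT => by
    have := census_bound h n (regular d n) hT
    rwa [leaves_regular] at this

theorem hasSum_leaves {d : ℝ} (hd : 0 ≤ d) :
    ∀ n, HasSum (fun t => gwWeight d n t * leaves n t) (d ^ n)
  | 0 => by
    have h0 := hasSum_single (α := ℝ) (f := fun t : Shape 0 => gwWeight d 0 t * leaves 0 t) ()
      (fun b hb => absurd rfl hb)
    simpa [gwWeight, leaves] using h0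
  | n + 1 => by
    have hw := gwWeight_nonneg hd n
    have h : HasSum (fun t : Σ k : ℕ, Fin k → Shape n => poisson d t.1
        * ((∏ j, gwWeight d n (t.2 j)) * ∑ j, leaves n (t.2 j))) (d ^ (n + 1)) := by
      refine hasSum_node (β := Shape n) (fun k => (k : ℝ) * d ^ n) (poisson_nonneg hd)
        (fun t => mul_nonneg (prod_nonneg fun j _ => hw _) (sum_nonneg fun j _ => leaves_nonneg n _))
        (fun k => hasSum_pi_one hw (leaves_nonneg n) (hasSum_gwWeight hd n) (hasSum_leaves hd n)) ?_
      have := (hasSum_poisson_mean d).mul_right (d ^ n)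
      rw [← pow_succ'] at this
      exact this.congr_fun fun k => by ring
    exact h.congr_fun fun t => by simp only [gwWeight, leaves]; ring

/-- The mean of `spread`. -/
noncomputable def meanSpread (d lam : ℝ) : ℕ → ℝ
  | 0 => 1
  | n + 1 => d * meanSpread d lam n + (lam ^ 2) ^ (n + 1) * (d ^ 2 * (d ^ n) ^ 2)

theorem hasSum_spread {d : ℝ} (hd : 0 ≤ d) :
    ∀ n, HasSum (fun t => gwWeight d n t * spread lam n t) (meanSpread d lam n)
  | 0 => by
    have h0 := hasSum_single (α := ℝ) (f := fun t : Shape 0 => gwWeight d 0 t * spread lam 0 t) ()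
      (fun b hb => absurd rfl hb)
    simpa [gwWeight, spread, meanSpread] using h0
  | n + 1 => by
    have hw := gwWeight_nonneg hd n
    have h1 : HasSum (fun t : Σ k : ℕ, Fin k → Shape n => poisson d t.1
        * ((∏ j, gwWeight d n (t.2 j)) * ∑ j, spread lam n (t.2 j)))
        (d * meanSpread d lam n) := by
      refine hasSum_node (β := Shape n) (fun k => (k : ℝ) * meanSpread d lam n) (poisson_nonneg hd)
        (fun t => mul_nonneg (prod_nonneg fun j _ => hw _)
          (sum_nonneg fun j _ => spread_nonneg lam n _))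
        (fun k => hasSum_pi_one hw (spread_nonneg lam n) (hasSum_gwWeight hd n)
          (hasSum_spread hd n)) ?_
      exact ((hasSum_poisson_mean d).mul_right _).congr_fun fun k => by ring
    have h2 : HasSum (fun t : Σ k : ℕ, Fin k → Shape n => poisson d t.1
        * ((∏ j, gwWeight d n (t.2 j))
          * ((∑ j, leaves n (t.2 j)) ^ 2 - ∑ j, leaves n (t.2 j) ^ 2)))
        (d ^ 2 * (d ^ n) ^ 2) := by
      refine hasSum_node (β := Shape n) (fun k => (k : ℝ) * ((k : ℝ) - 1) * (d ^ n) ^ 2)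
        (poisson_nonneg hd)
        (fun t => mul_nonneg (prod_nonneg fun j _ => hw _)
          (sub_nonneg.2 (sum_sq_le_sq_sum_of_nonneg fun j _ => leaves_nonneg n _)))
        (fun k => hasSum_pi_two hw (leaves_nonneg n) (hasSum_gwWeight hd n) (hasSum_leaves hd n)) ?_
      exact ((hasSum_poisson_pairs d).mul_right _).congr_fun fun k => by ring
    exact (h1.add (h2.mul_left ((lam ^ 2) ^ (n + 1)))).congr_fun
      fun t => by simp only [gwWeight, spread]; ring

theorem meanSpread_le {d : ℝ} (hd : 0 < d) (hr : 1 < d * lam ^ 2) :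
    ∀ n, meanSpread d lam n ≤ ksConst d lam * (d ^ 2 * lam ^ 2) ^ n
  | 0 => by
    simp only [meanSpread, pow_zero, mul_one, ksConst]
    rw [le_div_iff₀ (by linarith)]
    linarith
  | n + 1 => spread_growth hd hr (meanSpread_le hd hr n)

theorem summable_aPoisson (h : Adm q lam) {d : ℝ} (hd : 0 ≤ d) (n : ℕ) :
    Summable fun t => gwWeight d n t * advantage q lam n t :=
  Summable.of_nonneg_of_le (fun t => mul_nonneg (gwWeight_nonneg hd n t) (advantage_nonneg q lam n t))
    (fun t => mul_le_of_le_one_right (gwWeight_nonneg hd n t) (advantage_le_one h n t))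
    (hasSum_gwWeight hd n).summable

theorem ksBound_le_aPoisson (h : Adm q lam) {d : ℝ} (hd : 0 < d) (hr : 1 < d * lam ^ 2) (n : ℕ) :
    ksBound q d lam ≤ aPoisson q d lam n :=
  ksBound_le h hd hr rfl (meanSpread_le hd hr n) fun T hT => by
    have hR := ((hasSum_spread (lam := lam) hd.le n).mul_left T).add
      ((summable_aPoisson h hd.le n).hasSum.div_const T)
    have hL := ((hasSum_leaves hd.le n).mul_left (((q : ℝ) - 1) / q ^ 2 * |lam| ^ n))
    rw [← mul_assoc]
    refine hasSum_le (fun t => ?_) hL hR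
    have := mul_le_mul_of_nonneg_left (census_bound h n t hT) (gwWeight_nonneg hd.le n t)
    refine le_trans (le_of_eq ?_) (this.trans (le_of_eq ?_)) <;> ring

end Vale.Agent.P154
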