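import Vale.Agent.P154.Tree

/-!
# Expectations over Galton-Watson trees and the two limits
-/

namespace Vale.Agent.P154.Q3

open scoped BigOperators Topology
open Filter

variable {d lam : ℝ}

theorem tendsto_of_cubic {X : ℕ → ℝ} {c : ℝ} (hc : 0 < c) (h0 : ∀ n, 0 ≤ X n)
    (h : ∀ n, X (n + 1) ≤ X n - c * X n ^ 3) : Tendsto X atTop (𝓝 0) := by
  have anti : Antitone X := antitone_nat_of_succ_le fun n => by
    have : 0 ≤ c * X n ^ 3 := mul_nonneg hc.le (pow_nonneg (h0 n) 3)
    linarith [h n]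
  have hL := tendsto_atTop_ciInf anti ⟨0, by rintro _ ⟨n, rfl⟩; exact h0 n⟩
  set L := ⨅ n, X n
  have hL0 : 0 ≤ L := ge_of_tendsto' hL h0
  have h2 : L ≤ L - c * L ^ 3 := le_of_tendsto_of_tendsto'
    (hL.comp (tendsto_add_atTop_nat 1)) (hL.sub ((hL.pow 3).const_mul c)) h
  have : L ^ 3 ≤ 0 := nonpos_of_mul_nonpos_right (by linarith : c * L ^ 3 ≤ 0) hc
  have : L = 0 := pow_eq_zero_iff (n := 3) (by norm_num) |>.mp (le_antisymm this (pow_nonneg hL0 3))
  rwa [this] at hL

theorem tendsto_adv_zero {a X : ℕ → ℝ} (ha : ∀ n, 0 ≤ a n)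
    (hX : Tendsto X atTop (𝓝 0))
    (h : ∀ ε > 0, ∀ n, a n ≤ 3 / 4 * ε + X n / (6 * ε)) : Tendsto a atTop (𝓝 0) := by
  rw [Metric.tendsto_atTop]
  intro δ hδ
  obtain ⟨N, hN⟩ := Metric.tendsto_atTop.1 hX (δ ^ 2) (by positivity)
  refine ⟨N, fun n hn => ?_⟩
  have h1 := h δ hδ n
  have h2 := hN n hn
  rw [Real.dist_eq, sub_zero] at h2
  have h3 : X n / (6 * δ) ≤ δ / 6 := by
    rw [div_le_div_iff₀ (by positivity) (by norm_num)]
    nlinarith [le_abs_self (X n)]
  rw [Real.dist_eq, sub_zero, abs_of_nonneg (ha n)]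
  linarith

theorem reg_tendsto {d : ℕ} (hd : 2 ≤ d) (h0 : 0 ≤ lam) (h : (d : ℝ) * lam ^ 2 ≤ 1) :
    Tendsto (regAdv d lam) atTop (𝓝 0) := by
  have h1 : lam < 1 := by
    have : (2 : ℝ) ≤ d := by exact_mod_cast hd
    nlinarith
  obtain ⟨k, rfl⟩ := Nat.exists_eq_add_of_le' hd
  set X := fun n => treeX lam n (regTree (k + 2) n) with hXdef
  have hX0 : ∀ n, 0 ≤ X n := fun n => treeX_nonneg h0 h1 n _
  have step : ∀ n, X (n + 1) ≤ ((k + 2 : ℕ) : ℝ) * lam ^ 2 * X n - gain lam * X n ^ 3 := fun n => by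
    have := treeX_le_two h0 h1 (fun _ : Fin (k + 2) => regTree (k + 2) n)
    simp only [Finset.sum_const, Finset.card_univ, Fintype.card_fin, nsmul_eq_mul] at this
    calc X (n + 1) ≤ _ := this
      _ = _ := by simp only [hXdef]; ring
  have hlim : Tendsto X atTop (𝓝 0) := by
    rcases h0.lt_or_eq with hl | hl
    · refine tendsto_of_cubic (gain_pos hl h1) hX0 fun n => (step n).trans ?_
      have := mul_le_mul_of_nonneg_right h (hX0 n)
      linarith
    · subst hl
      refine tendsto_atTop_of_eventually_const (i₀ := 1) fun n hn => le_antisymm ?_ (hX0 n)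
      obtain ⟨m, rfl⟩ := Nat.exists_eq_add_of_le' hn
      simpa [gain] using step m
  exact tendsto_adv_zero (fun n => treeAdv_nonneg n _) hlim
    fun ε hε n => treeAdv_le hε h0 h1 n _

/-- Product formula for sums over finite families. -/
theorem hasSum_pi {α : Type} : ∀ {k : ℕ} (g : Fin k → α → ℝ) (s : Fin k → ℝ),
    (∀ c a, 0 ≤ g c a) → (∀ c, HasSum (g c) (s c)) →
      HasSum (fun f : Fin k → α => ∏ c, g c (f c)) (∏ c, s c) := by
  intro k
  induction k with
  | zero => intro g s _ _; simpa using hasSum_fintype (fun f : Fin 0 → α => ∏ c, g c (f c))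
  | succ k ih =>
    intro g s hg hs
    have h1 := ih (fun c => g c.succ) (fun c => s c.succ) (fun c => hg _) (fun c => hs _)
    have h2 := (hs 0).summable.mul_of_nonneg h1.summable (hg 0)
      (fun f => Finset.prod_nonneg fun c _ => hg _ _)
    have h3 := (hs 0).mul h1 h2
    rw [← (Fin.consEquiv fun _ : Fin (k + 1) => α).hasSum_iff]
    simpa [Fin.prod_univ_succ, Fin.consEquiv, Function.comp_def] using h3

theorem hasSum_node {n : ℕ} {F : RTree (n + 1) → ℝ} {a : ℕ → ℝ} {A : ℝ} (hF : ∀ t, 0 ≤ F t)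
    (hk : ∀ k, HasSum (fun f : Fin k → RTree n => F ⟨k, f⟩) (a k)) (ha : HasSum a A) :
    HasSum F A := by
  have hs : Summable F := (summable_sigma_of_nonneg hF).2
    ⟨fun k => (hk k).summable, ha.summable.congr fun k => (hk k).tsum_eq.symm⟩
  have e : ∑' t, F t = A := (hs.tsum_sigma' fun k => (hk k).summable).trans
    ((tsum_congr fun k => (hk k).tsum_eq).trans ha.tsum_eq)
  exact e ▸ hs.hasSum

theorem poissonWeight_nonneg (hd : 0 ≤ d) (k : ℕ) : 0 ≤ poissonWeight d k := by
  unfold poissonWeight; positivity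

theorem hasSum_poisson (d : ℝ) : HasSum (poissonWeight d) 1 := by
  have h := (NormedSpace.expSeries_div_hasSum_exp d).mul_left (Real.exp (-d))
  rw [← congrFun Real.exp_eq_exp_ℝ d, ← Real.exp_add, neg_add_cancel, Real.exp_zero] at h
  exact h.congr_fun fun k => by simp [poissonWeight, mul_div_assoc]

theorem hasSum_poisson_mean (d : ℝ) : HasSum (fun k => poissonWeight d k * k) d := by
  have h := (hasSum_poisson d).mul_left d
  rw [mul_one] at h
  rw [← hasSum_nat_add_iff' 1]
  simp only [Finset.sum_range_one, Nat.cast_zero, mul_zero, sub_zero]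
  refine h.congr_fun fun k => ?_
  simp only [poissonWeight, Nat.factorial_succ, Nat.cast_mul, Nat.cast_succ, pow_succ]
  have : (k.factorial : ℝ) ≠ 0 := by positivity
  have : (k : ℝ) + 1 ≠ 0 := by positivity
  field_simp

theorem gwWeight_nonneg (hd : 0 ≤ d) : ∀ (n : ℕ) (t : RTree n), 0 ≤ gwWeight d n t
  | 0, _ => zero_le_one
  | n + 1, t => mul_nonneg (poissonWeight_nonneg hd _)
      (Finset.prod_nonneg fun _ _ => gwWeight_nonneg hd n _)

theorem hasSum_gw (hd : 0 ≤ d) : ∀ n, HasSum (gwWeight d n) 1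
  | 0 => hasSum_single (f := gwWeight d 0) () fun _ hb => absurd rfl hb
  | n + 1 => by
    refine hasSum_node (gwWeight_nonneg hd _) (fun k => ?_) (hasSum_poisson d)
    have := hasSum_pi (fun _ : Fin k => gwWeight d n) (fun _ => 1)
      (fun _ t => gwWeight_nonneg hd n t) (fun _ => hasSum_gw hd n)
    simpa [gwWeight] using this.mul_left (poissonWeight d k)

/-- Sums of one marked factor. -/
theorem hasSum_mark (hd : 0 ≤ d) {n k : ℕ} (g : RTree n → ℝ) (G : ℝ) (hg : ∀ t, 0 ≤ g t)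
    (hG : HasSum (fun t => gwWeight d n t * g t) G) (c₀ : Fin k) :
    HasSum (fun f : Fin k → RTree n => (∏ c, gwWeight d n (f c)) * g (f c₀)) G := by
  have := hasSum_pi (fun c t => gwWeight d n t * if c = c₀ then g t else 1)
    (fun c => if c = c₀ then G else 1) (fun c t => mul_nonneg (gwWeight_nonneg hd n t)
      (by split <;> first | exact hg t | norm_num)) (fun c => by
      split
      · exact hG
      · simpa using hasSum_gw hd n)
  convert this using 1
  · funext f
    rw [Finset.prod_mul_distrib]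
    simp [Finset.prod_ite_eq']
  · simp [Finset.prod_ite_eq']

/-- Sums of two marked factors. -/
theorem hasSum_mark_two (hd : 0 ≤ d) {n : ℕ} (g h : RTree n → ℝ) (G H : ℝ) (hg : ∀ t, 0 ≤ g t)
    (hh : ∀ t, 0 ≤ h t) (hG : HasSum (fun t => gwWeight d n t * g t) G)
    (hH : HasSum (fun t => gwWeight d n t * h t) H) :
    HasSum (fun f : Fin 2 → RTree n => (∏ c, gwWeight d n (f c)) * (g (f 0) * h (f 1)))
      (G * H) := by
  have := hasSum_pi ![fun t => gwWeight d n t * g t, fun t => gwWeight d n t * h t] ![G, H]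
    (Fin.forall_fin_two.2 ⟨fun t => mul_nonneg (gwWeight_nonneg hd n t) (hg t),
      fun t => mul_nonneg (gwWeight_nonneg hd n t) (hh t)⟩) (Fin.forall_fin_two.2 ⟨hG, hH⟩)
  convert this using 1
  · funext f; simp [Fin.prod_univ_two]; ring
  · simp [Fin.prod_univ_two]

/-- Expected magnetisation. -/
noncomputable def gwX (d lam : ℝ) (n : ℕ) : ℝ := ∑' t, gwWeight d n t * treeX lam n t

/-- Expected squared magnetisation. -/
noncomputable def gwX2 (d lam : ℝ) (n : ℕ) : ℝ := ∑' t, gwWeight d n t * treeX lam n t ^ 2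

theorem treeX_le_one (h0 : 0 ≤ lam) (h1 : lam < 1) (n : ℕ) (t : RTree n) : treeX lam n t ≤ 1 := by
  obtain ⟨hC, ht, -⟩ := lik_spec h0 h1 n t
  rw [treeX, cX_eq_avg hC, ← hC.tot_avg]
  exact Finset.sum_le_sum fun η _ =>
    mul_le_of_le_one_right (div_nonneg (ht η).le (by norm_num)) (rad_le_one (hC.nonneg η))

theorem hasSum_gwX (hd : 0 ≤ d) (h0 : 0 ≤ lam) (h1 : lam < 1) (n : ℕ) :
    HasSum (fun t => gwWeight d n t * treeX lam n t) (gwX d lam n) :=
  (Summable.of_nonneg_of_le (fun t => mul_nonneg (gwWeight_nonneg hd n t) (treeX_nonneg h0 h1 n t))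
    (fun t => mul_le_of_le_one_right (gwWeight_nonneg hd n t) (treeX_le_one h0 h1 n t))
    (hasSum_gw hd n).summable).hasSum

theorem hasSum_gwX2 (hd : 0 ≤ d) (h0 : 0 ≤ lam) (h1 : lam < 1) (n : ℕ) :
    HasSum (fun t => gwWeight d n t * treeX lam n t ^ 2) (gwX2 d lam n) :=
  (Summable.of_nonneg_of_le (fun t => mul_nonneg (gwWeight_nonneg hd n t) (sq_nonneg _))
    (fun t => mul_le_of_le_one_right (gwWeight_nonneg hd n t)
      (pow_le_one₀ (treeX_nonneg h0 h1 n t) (treeX_le_one h0 h1 n t)))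
    (hasSum_gw hd n).summable).hasSum

theorem gwWeight_node {n k : ℕ} (f : Fin k → RTree n) :
    gwWeight d (n + 1) (node f) = poissonWeight d k * ∏ c : Fin k, gwWeight d n (f c) := rfl

theorem hasSum_lin (hd : 0 ≤ d) (h0 : 0 ≤ lam) (h1 : lam < 1) (n k : ℕ) :
    HasSum (fun f : Fin k → RTree n => poissonWeight d k * lam ^ 2 *
      ∑ c, (∏ c', gwWeight d n (f c')) * treeX lam n (f c))
      (poissonWeight d k * lam ^ 2 * ((k : ℝ) * gwX d lam n)) := by
  have := hasSum_sum (s := (Finset.univ : Finset (Fin k))) fun c _ =>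
    hasSum_mark hd _ _ (treeX_nonneg h0 h1 n) (hasSum_gwX hd h0 h1 n) c
  simp only [Finset.sum_const, Finset.card_univ, Fintype.card_fin, nsmul_eq_mul] at this
  exact this.mul_left _

/-- The contribution of root degree `k` to the expected magnetisation. -/
noncomputable def gwPart (d lam : ℝ) (n k : ℕ) : ℝ :=
  ∑' f : Fin k → RTree n, gwWeight d (n + 1) (node f) * treeX lam (n + 1) (node f)

theorem summable_part (hd : 0 ≤ d) (h0 : 0 ≤ lam) (h1 : lam < 1) (n k : ℕ) :
    Summable fun f : Fin k → RTree n => gwWeight d (n + 1) (node f) * treeX lam (n + 1) (node f) :=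
  (hasSum_gwX hd h0 h1 (n + 1)).summable.comp_injective (i := node)
    fun f g h => eq_of_heq (Sigma.mk.inj h).2

theorem hasSum_gwPart (hd : 0 ≤ d) (h0 : 0 ≤ lam) (h1 : lam < 1) (n : ℕ) :
    HasSum (gwPart d lam n) (gwX d lam (n + 1)) :=
  HasSum.sigma (γ := fun k => Fin k → RTree n) (hasSum_gwX hd h0 h1 (n + 1))
    fun k => (summable_part hd h0 h1 n k).hasSum

theorem gwPart_le (hd : 0 ≤ d) (h0 : 0 ≤ lam) (h1 : lam < 1) (n k : ℕ) :
    gwPart d lam n k ≤ poissonWeight d k * lam ^ 2 * ((k : ℝ) * gwX d lam n) := by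
  refine hasSum_le (fun f => ?_) (summable_part hd h0 h1 n k).hasSum (hasSum_lin hd h0 h1 n k)
  have hw : 0 ≤ gwWeight d (n + 1) (node f) := gwWeight_nonneg hd _ _
  calc gwWeight d (n + 1) (node f) * treeX lam (n + 1) (node f)
      ≤ gwWeight d (n + 1) (node f) * (lam ^ 2 * ∑ c, treeX lam n (f c)) :=
        mul_le_mul_of_nonneg_left (treeX_le h0 h1 (node f)) hw
    _ = _ := by
      rw [gwWeight_node]; simp only [Finset.mul_sum]
      exact Finset.sum_congr rfl fun c _ => by ring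

theorem gwPart_two_le (hd : 0 ≤ d) (h0 : 0 ≤ lam) (h1 : lam < 1) (n : ℕ) :
    gwPart d lam n 2 ≤ poissonWeight d 2 * lam ^ 2 * ((2 : ℕ) * gwX d lam n) -
      poissonWeight d 2 * gain lam * (gwX2 d lam n * gwX d lam n) := by
  refine hasSum_le (fun f => ?_) (summable_part hd h0 h1 n 2).hasSum
    ((hasSum_lin hd h0 h1 n 2).sub ((hasSum_mark_two hd _ _ _ _
      (fun t => sq_nonneg (treeX lam n t)) (treeX_nonneg h0 h1 n) (hasSum_gwX2 hd h0 h1 n)
      (hasSum_gwX hd h0 h1 n)).mul_left (poissonWeight d 2 * gain lam)))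
  have hw : 0 ≤ gwWeight d (n + 1) (node f) := gwWeight_nonneg hd _ _
  calc gwWeight d (n + 1) (node f) * treeX lam (n + 1) (node f)
      ≤ gwWeight d (n + 1) (node f) * (lam ^ 2 * ∑ c, treeX lam n (f c) -
          gain lam * (treeX lam n (f 0) ^ 2 * treeX lam n (f 1))) :=
        mul_le_mul_of_nonneg_left (treeX_le_two h0 h1 f) hw
    _ = _ := by
      rw [gwWeight_node]; simp only [Finset.mul_sum, mul_sub]
      congr 1
      · exact Finset.sum_congr rfl fun c _ => by ring
      · ring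

theorem gwX_step (hd : 0 < d) (h0 : 0 ≤ lam) (h1 : lam < 1) (n : ℕ) :
    gwX d lam (n + 1) ≤ d * lam ^ 2 * gwX d lam n -
      poissonWeight d 2 * gain lam * (gwX2 d lam n * gwX d lam n) := by
  have hA := ((hasSum_poisson_mean d).mul_left (lam ^ 2 * gwX d lam n)).sub
    (hasSum_ite_eq 2 (poissonWeight d 2 * gain lam * (gwX2 d lam n * gwX d lam n)))
  refine le_trans (hasSum_le (fun k => ?_) (hasSum_gwPart hd.le h0 h1 n) hA) (le_of_eq (by ring))
  rcases eq_or_ne k 2 with rfl | hk2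
  · refine (gwPart_two_le hd.le h0 h1 n).trans (le_of_eq ?_)
    rw [if_pos rfl]; ring
  · refine (gwPart_le hd.le h0 h1 n k).trans (le_of_eq ?_)
    rw [if_neg hk2]; ring

theorem sq_gwX_le (hd : 0 ≤ d) (h0 : 0 ≤ lam) (h1 : lam < 1) (n : ℕ) :
    gwX d lam n ^ 2 ≤ gwX2 d lam n := by
  set m := gwX d lam n
  have h := ((hasSum_gwX2 hd h0 h1 n).sub ((hasSum_gwX hd h0 h1 n).mul_left (2 * m))).add
    ((hasSum_gw hd n).mul_left (m ^ 2))
  have := h.nonneg fun t => by
    have := mul_nonneg (gwWeight_nonneg hd n t) (sq_nonneg (treeX lam n t - m))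
    linarith
  linarith

theorem gw_tendsto_lt (hd : 0 < d) (h0 : 0 ≤ lam) (h1 : lam < 1) (h : d * lam ^ 2 ≤ 1) :
    Tendsto (gwAdv d lam) atTop (𝓝 0) := by
  have hX0 : ∀ n, 0 ≤ gwX d lam n := fun n => tsum_nonneg fun t =>
    mul_nonneg (gwWeight_nonneg hd.le n t) (treeX_nonneg h0 h1 n t)
  have hlim : Tendsto (gwX d lam) atTop (𝓝 0) := by
    rcases h0.lt_or_eq with hl | hl
    · have hp : 0 < poissonWeight d 2 := by unfold poissonWeight; positivity
      refine tendsto_of_cubic (mul_pos hp (gain_pos hl h1)) hX0 fun n =>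
        (gwX_step hd h0 h1 n).trans ?_
      have := mul_le_mul_of_nonneg_right h (hX0 n)
      have := mul_le_mul_of_nonneg_left
        (mul_le_mul_of_nonneg_right (sq_gwX_le hd.le h0 h1 n) (hX0 n))
        (mul_pos hp (gain_pos hl h1)).le
      linarith
    · subst hl
      refine tendsto_atTop_of_eventually_const (i₀ := 1) fun n hn => le_antisymm ?_ (hX0 n)
      obtain ⟨m, rfl⟩ := Nat.exists_eq_add_of_le' hn
      simpa [gain] using gwX_step hd le_rfl zero_lt_one m
  refine tendsto_adv_zero (fun n => tsum_nonneg fun t =>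
    mul_nonneg (gwWeight_nonneg hd.le n t) (treeAdv_nonneg n t)) hlim fun ε hε n => ?_
  have hB := ((hasSum_gw hd.le n).mul_left (3 / 4 * ε)).add
    ((hasSum_gwX hd.le h0 h1 n).div_const (6 * ε))
  rw [mul_one] at hB
  have hs : Summable fun t => gwWeight d n t * treeAdv lam n t := by
    refine Summable.of_nonneg_of_le
      (fun t => mul_nonneg (gwWeight_nonneg hd.le n t) (treeAdv_nonneg n t)) (fun t => ?_)
      hB.summable
    calc gwWeight d n t * treeAdv lam n t
        ≤ gwWeight d n t * (3 / 4 * ε + treeX lam n t / (6 * ε)) :=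
          mul_le_mul_of_nonneg_left (treeAdv_le hε h0 h1 n t) (gwWeight_nonneg hd.le n t)
      _ = _ := by ring
  refine hasSum_le (fun t => ?_) hs.hasSum hB
  calc gwWeight d n t * treeAdv lam n t
      ≤ gwWeight d n t * (3 / 4 * ε + treeX lam n t / (6 * ε)) :=
        mul_le_mul_of_nonneg_left (treeAdv_le hε h0 h1 n t) (gwWeight_nonneg hd.le n t)
    _ = _ := by ring

end Vale.Agent.P154.Q3
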