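import Mathlib

/-!
# Broadcasting with a Potts channel on random trees

`Shape n` is the type of rooted ordered trees cut at depth `n`, `lik` is the law of the spins at
depth `n` given the root spin, `advantage` is the mean total variation distance of the posterior
of the root from the uniform law.
-/

namespace Vale.Agent.P154

/-- The Potts transition probability from a parent spin `i` to a child spin `j`. -/
noncomputable def potts (q : ℕ) (lam : ℝ) (i j : Fin q) : ℝ :=
  lam * (if i = j then 1 else 0) + (1 - lam) / q

/-- Rooted ordered trees, cut at depth `n`. -/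
def Shape : ℕ → Type
  | 0 => Unit
  | n + 1 => Σ k : ℕ, Fin k → Shape n

/-- The configurations of spins at depth `n` of the tree. -/
def Obs (q : ℕ) : (n : ℕ) → Shape n → Type
  | 0, _ => Fin q
  | n + 1, t => (j : Fin t.1) → Obs q n (t.2 j)

/-- The instance data for `Obs`. -/
@[instance_reducible]
noncomputable def obsFintype (q : ℕ) : (n : ℕ) → (t : Shape n) → Fintype (Obs q n t)
  | 0, _ => (inferInstance : Fintype (Fin q))
  | n + 1, t => @Pi.instFintype (Fin t.1) (fun j => Obs q n (t.2 j)) (Classical.decEq _) _
      (fun j => obsFintype q n (t.2 j))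

noncomputable instance (q n : ℕ) (t : Shape n) : Fintype (Obs q n t) := obsFintype q n t

/-- The probability of the spins `ω` at depth `n` given that the root has spin `i`. -/
noncomputable def lik (q : ℕ) (lam : ℝ) : (n : ℕ) → (t : Shape n) → Fin q → Obs q n t → ℝ
  | 0, _, i, ω => if (show Fin q from ω) = i then 1 else 0
  | n + 1, t, i, ω => ∏ j : Fin t.1, ∑ a, potts q lam i a * lik q lam n (t.2 j) a (ω j)

/-- `E (1/2) ∑ᵢ |P(root = i | spins at depth n) - 1/q|` on a given tree, written with the joint
law `lik i ω / q` of the root and the observation. -/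
noncomputable def advantage (q : ℕ) (lam : ℝ) (n : ℕ) (t : Shape n) : ℝ :=
  ∑ ω : Obs q n t, (1 / (2 * q)) * ∑ i, |lik q lam n t i ω - (∑ a, lik q lam n t a ω) / q|

/-- The `d`-ary tree cut at depth `n`. -/
def regular (d : ℕ) : (n : ℕ) → Shape n
  | 0 => ()
  | n + 1 => ⟨d, fun _ => regular d n⟩

/-- The Poisson law with mean `d`. -/
noncomputable def poisson (d : ℝ) (k : ℕ) : ℝ := Real.exp (-d) * d ^ k / Nat.factorial k

/-- The Galton-Watson law with Poisson offspring, cut at depth `n`. -/
noncomputable def gwWeight (d : ℝ) : (n : ℕ) → Shape n → ℝ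
  | 0, _ => 1
  | n + 1, t => poisson d t.1 * ∏ j : Fin t.1, gwWeight d n (t.2 j)

/-- The reconstruction quantity `a_n` on the `d`-ary tree. -/
noncomputable def aRegular (q d : ℕ) (lam : ℝ) (n : ℕ) : ℝ := advantage q lam n (regular d n)

/-- The reconstruction quantity `a_n` on the Poisson Galton-Watson tree. -/
noncomputable def aPoisson (q : ℕ) (d lam : ℝ) (n : ℕ) : ℝ :=
  ∑' t : Shape n, gwWeight d n t * advantage q lam n t

end Vale.Agent.P154
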