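import Vale.Agent.P154.EdgePotential

/-!
# Monotonicity in the eigenvalue, in the offspring number and in the mean

`Dom L M` compares two channels by every sublinear function of the likelihood vector. It is
preserved by an edge and by joining independent children.
-/

namespace Vale.Agent.P154.Q3

open scoped BigOperators

/-- Positively homogeneous and subadditive on nonnegative vectors. -/
structure Sublin (f : (Fin 3 → ℝ) → ℝ) : Prop where
  smul : ∀ (c : ℝ) (v : Fin 3 → ℝ), 0 ≤ c → (∀ i, 0 ≤ v i) → f (c • v) = c * f v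
  add : ∀ u v : Fin 3 → ℝ, (∀ i, 0 ≤ u i) → (∀ i, 0 ≤ v i) → f (u + v) ≤ f u + f v

variable {Ω Ω' Ω'' : Type} [Fintype Ω] [Fintype Ω'] [Fintype Ω'']
  {f : (Fin 3 → ℝ) → ℝ} {L : Ω → Fin 3 → ℝ} {M : Ω' → Fin 3 → ℝ}

/-- The sum of a function over the outcomes. -/
def fval (f : (Fin 3 → ℝ) → ℝ) (L : Ω → Fin 3 → ℝ) : ℝ := ∑ η, f (L η)

/-- `M` is at least as informative as `L`. -/
def Dom (L : Ω → Fin 3 → ℝ) (M : Ω' → Fin 3 → ℝ) : Prop :=
  ∀ f, Sublin f → fval f L ≤ fval f M

theorem Sublin.zero (hf : Sublin f) : f 0 = 0 := by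
  simpa using hf.smul 0 0 le_rfl fun _ => le_rfl

theorem Sublin.sum_le {ι : Type*} (hf : Sublin f) (s : Finset ι) (v : ι → Fin 3 → ℝ)
    (hv : ∀ j i, 0 ≤ v j i) : f (∑ j ∈ s, v j) ≤ ∑ j ∈ s, f (v j) := by
  classical
  induction s using Finset.induction with
  | empty => simp [hf.zero]
  | insert a s ha ih =>
    rw [Finset.sum_insert ha, Finset.sum_insert ha]
    exact (hf.add _ _ (hv a) fun i => by
      rw [Finset.sum_apply]; exact Finset.sum_nonneg fun j _ => hv j i).trans (by linarith)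

theorem Dom.refl (L : Ω → Fin 3 → ℝ) : Dom L L := fun _ _ => le_rfl

theorem Dom.trans {N : Ω'' → Fin 3 → ℝ} (h₁ : Dom L M) (h₂ : Dom M N) : Dom L N :=
  fun f hf => (h₁ f hf).trans (h₂ f hf)

theorem fval_congr (e : Ω ≃ Ω') (h : ∀ a, L a = M (e a)) : fval f L = fval f M := by
  simp only [fval, h]; exact e.sum_comp fun b => f (M b)

theorem Dom.of_eq (e : Ω ≃ Ω') (h : ∀ a, L a = M (e a)) : Dom L M :=
  fun _ _ => le_of_eq (fval_congr e h)

theorem push_add (s : ℝ) (u v : Fin 3 → ℝ) : push s (u + v) = push s u + push s v := by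
  funext i; simp only [push, tot, Pi.add_apply]; ring

theorem push_smul (s c : ℝ) (v : Fin 3 → ℝ) : push s (c • v) = c • push s v := by
  funext i; simp only [push, tot, Pi.smul_apply, smul_eq_mul]; ring

theorem push_nonneg {s : ℝ} (h0 : -1 / 2 ≤ s) (h1 : s ≤ 1) {v : Fin 3 → ℝ} (hv : ∀ i, 0 ≤ v i)
    (i : Fin 3) : 0 ≤ push s v i := by
  show 0 ≤ s * v i + (1 - s) / 3 * tot v
  have e : s * v i + (1 - s) / 3 * tot v =
      (1 + 2 * s) / 3 * v i + (1 - s) / 3 * (tot v - v i) := by ring
  have h2 : 0 ≤ tot v - v i := by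
    have := hv 0; have := hv 1; have := hv 2
    fin_cases i <;> simp [tot] <;> linarith
  rw [e]
  exact add_nonneg (mul_nonneg (by linarith) (hv i)) (mul_nonneg (by linarith) h2)

theorem Sublin.comp_push (hf : Sublin f) {s : ℝ} (h0 : -1 / 2 ≤ s) (h1 : s ≤ 1) :
    Sublin fun v => f (push s v) where
  smul c v hc hv := by rw [push_smul]; exact hf.smul _ _ hc (push_nonneg h0 h1 hv)
  add u v hu hv := by
    rw [push_add]; exact hf.add _ _ (push_nonneg h0 h1 hu) (push_nonneg h0 h1 hv)

/-- Averaging a sublinear function over the outcomes of an independent channel. -/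
theorem Sublin.comp_mul (hf : Sublin f) (hM : ∀ η i, 0 ≤ M η i) :
    Sublin fun v => ∑ η, f (fun i => v i * M η i) where
  smul c v hc hv := by
    rw [Finset.mul_sum]
    refine Finset.sum_congr rfl fun η _ => ?_
    rw [show (fun i => (c • v) i * M η i) = c • fun i => v i * M η i from
      funext fun i => by simp [mul_assoc]]
    exact hf.smul _ _ hc fun i => mul_nonneg (hv i) (hM η i)
  add u v hu hv := by
    rw [← Finset.sum_add_distrib]
    refine Finset.sum_le_sum fun η _ => ?_
    rw [show (fun i => (u + v) i * M η i) = (fun i => u i * M η i) + fun i => v i * M η i from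
      funext fun i => by simp [add_mul]]
    exact hf.add _ _ (fun i => mul_nonneg (hu i) (hM η i)) fun i => mul_nonneg (hv i) (hM η i)

theorem Dom.edge (h : Dom L M) {s : ℝ} (h0 : -1 / 2 ≤ s) (h1 : s ≤ 1) :
    Dom (Q3.edge s L) (Q3.edge s M) := fun f hf => h _ (hf.comp_push h0 h1)

theorem fval_tens (f : (Fin 3 → ℝ) → ℝ) (L : Ω → Fin 3 → ℝ) (M : Ω' → Fin 3 → ℝ) :
    fval f (Q3.tens L M) = fval (fun v => ∑ η, f (fun i => v i * M η i)) L := by
  simp only [fval, Fintype.sum_prod_type]
  rfl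

theorem fval_tens_comm (f : (Fin 3 → ℝ) → ℝ) (L : Ω → Fin 3 → ℝ) (M : Ω' → Fin 3 → ℝ) :
    fval f (Q3.tens L M) = fval f (Q3.tens M L) :=
  fval_congr (Equiv.prodComm Ω Ω') fun p => funext fun i => by simp [Q3.tens, mul_comm]

theorem Dom.tens_left (h : Dom L M) {N : Ω'' → Fin 3 → ℝ} (hN : ∀ η i, 0 ≤ N η i) :
    Dom (Q3.tens L N) (Q3.tens M N) := fun f hf => by
  rw [fval_tens, fval_tens]; exact h _ (hf.comp_mul hN)

theorem Dom.tens {Ω₃ : Type} [Fintype Ω₃] {L' : Ω'' → Fin 3 → ℝ} {M' : Ω₃ → Fin 3 → ℝ}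
    (h : Dom L M) (h' : Dom L' M') (hL' : ∀ η i, 0 ≤ L' η i) (hM : ∀ η i, 0 ≤ M η i) :
    Dom (Q3.tens L L') (Q3.tens M M') := fun f hf => by
  refine (h.tens_left hL' f hf).trans ?_
  rw [fval_tens_comm f M L', fval_tens_comm f M M']
  exact h'.tens_left hM f hf

/-- An edge with a nonnegative eigenvalue loses information. -/
theorem dom_edge_self (hL : IsStoch L) {s : ℝ} (h0 : 0 ≤ s) (h1 : s ≤ 1) :
    Dom (edge s L) L := fun f hf => by
  have hsum : ∑ η, L η = fun _ => (1 : ℝ) := funext fun i => by rw [Finset.sum_apply]; exact hL.2 i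
  have hone : f (fun _ => (1 : ℝ)) ≤ fval f L := by
    rw [← hsum]; exact hf.sum_le _ _ hL.1
  have ht : ∀ η, 0 ≤ tot (L η) := fun η =>
    add_nonneg (add_nonneg (hL.1 η 0) (hL.1 η 1)) (hL.1 η 2)
  have htot : ∑ η, tot (L η) = 3 := by
    simp only [tot, Finset.sum_add_distrib, hL.2]; norm_num
  calc fval f (edge s L)
      ≤ ∑ η, (s * f (L η) + (1 - s) / 3 * tot (L η) * f (fun _ => 1)) := by
        refine Finset.sum_le_sum fun η _ => ?_
        have e : edge s L η = s • L η + ((1 - s) / 3 * tot (L η)) • fun _ => (1 : ℝ) :=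
          funext fun i => by simp [edge, push]
        have hc : 0 ≤ (1 - s) / 3 * tot (L η) := mul_nonneg (by linarith) (ht η)
        rw [e]
        refine (hf.add (s • L η) (((1 - s) / 3 * tot (L η)) • fun _ => (1 : ℝ))
          (fun i => mul_nonneg h0 (hL.1 η i))
          fun i => mul_nonneg hc zero_le_one).trans (le_of_eq ?_)
        rw [hf.smul _ _ h0 (hL.1 η), hf.smul _ _ hc fun _ => zero_le_one]
    _ = s * fval f L + (1 - s) * f (fun _ => 1) := by
        rw [Finset.sum_add_distrib, ← Finset.mul_sum, ← Finset.sum_mul, ← Finset.mul_sum, htot]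
        simp only [fval]; ring
    _ ≤ s * fval f L + (1 - s) * fval f L := by
        have := mul_le_mul_of_nonneg_left hone (by linarith : 0 ≤ 1 - s)
        linarith
    _ = fval f L := by ring

omit [Fintype Ω] in
theorem edge_edge (a b : ℝ) (L : Ω → Fin 3 → ℝ) : edge a (edge b L) = edge (a * b) L := by
  funext η; exact push_push a b (L η)

/-- For `μ ≤ λ ≤ 0` the edge `μ` is the more informative one. -/
theorem Dom.edge_le (h : Dom L M) (hM : IsStoch M) {μ lam : ℝ} (hμ : -1 / 2 ≤ μ) (hμ0 : μ < 0)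
    (h0 : μ ≤ lam) (h1 : lam ≤ 0) : Dom (Q3.edge lam L) (Q3.edge μ M) := by
  refine (h.edge (by linarith) (by linarith)).trans ?_
  have hr0 : 0 ≤ lam / μ := div_nonneg_of_nonpos h1 hμ0.le
  have hr1 : lam / μ ≤ 1 := (div_le_one_of_neg hμ0).2 h0
  have := (dom_edge_self hM hr0 hr1).edge hμ (show μ ≤ 1 by linarith)
  rwa [edge_edge, mul_div_cancel₀ _ hμ0.ne] at this

/-- One more independent observation gains information. -/
theorem dom_tens (hL : ∀ η i, 0 ≤ L η i) (hM : IsStoch M) : Dom L (tens L M) := fun f hf => by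
  rw [fval_tens]
  refine Finset.sum_le_sum fun η _ => ?_
  refine (le_of_eq (congrArg f ?_)).trans
    (hf.sum_le Finset.univ (fun η' i => L η i * M η' i) fun η' i => mul_nonneg (hL η i) (hM.1 η' i))
  funext i
  simp [← Finset.mul_sum, hM.2]

section Families

theorem isStoch_prodL : ∀ {k : ℕ} {α : Fin k → Type} [∀ c, Fintype (α c)]
    {L : ∀ c, α c → Fin 3 → ℝ}, (∀ c, IsStoch (L c)) → IsStoch (prodL L) := by
  intro k
  induction k with
  | zero => intro α _ L _; exact ⟨fun η i => by simp [prodL], fun i => by simp [prodL]⟩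
  | succ k ih =>
    intro α _ L h
    exact ((h 0).tens (ih fun c => h c.succ)).congr (Fin.consEquiv α).symm fun η =>
      funext fun i => by simp [prodL, tens, Fin.prod_univ_succ, Fin.consEquiv, Fin.tail]

theorem dom_prodL : ∀ {k : ℕ} {α β : Fin k → Type} [∀ c, Fintype (α c)] [∀ c, Fintype (β c)]
    {L : ∀ c, α c → Fin 3 → ℝ} {M : ∀ c, β c → Fin 3 → ℝ},
    (∀ c, IsStoch (L c)) → (∀ c, IsStoch (M c)) → (∀ c, Dom (L c) (M c)) →
      Dom (prodL L) (prodL M) := by
  intro k
  induction k with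
  | zero =>
    intro α β _ _ L M _ _ _
    exact Dom.of_eq (Equiv.ofUnique _ _) fun η => funext fun i => by simp [prodL]
  | succ k ih =>
    intro α β _ _ L M hL hM h
    have hr := ih (fun c => hL c.succ) (fun c => hM c.succ) fun c => h c.succ
    refine (Dom.of_eq (M := tens (L 0) (prodL fun c : Fin k => L c.succ))
      (Fin.consEquiv α).symm fun η =>
        funext fun i => by simp [prodL, Q3.tens, Fin.prod_univ_succ, Fin.consEquiv, Fin.tail]).trans ?_
    refine (Dom.tens (h 0) hr (isStoch_prodL fun c => hL c.succ).1 (hM 0).1).trans ?_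
    exact Dom.of_eq (Fin.consEquiv β) fun η =>
      funext fun i => by simp [prodL, Q3.tens, Fin.prod_univ_succ, Fin.consEquiv]

/-- Forgetting children loses information. -/
theorem dom_prodL_add : ∀ (j : ℕ) {k : ℕ} {α : Fin (k + j) → Type} [∀ c, Fintype (α c)]
    {L : ∀ c, α c → Fin 3 → ℝ}, (∀ c, IsStoch (L c)) →
      Dom (prodL fun c : Fin k => L (Fin.castAdd j c)) (prodL L) := by
  intro j
  induction j with
  | zero => intro k α _ L _; exact Dom.refl _
  | succ j ih =>
    intro k α _ L h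
    refine (ih (fun c => h c.castSucc)).trans ?_
    refine (dom_tens (isStoch_prodL fun c => h _).1 (h (Fin.last (k + j)))).trans ?_
    exact Dom.of_eq ((Equiv.prodComm _ _).trans (Fin.snocEquiv α)) fun p => funext fun i => by
      refine Eq.symm ((Fin.prod_univ_castSucc (n := k + j) fun c =>
        L c (Fin.snocEquiv α (p.2, p.1) c) i).trans ?_)
      simp [prodL, Q3.tens, Fin.snocEquiv]

end Families

end Vale.Agent.P154.Q3
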