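import Vale.Agent.P154.Mono
import Vale.Agent.P154.Limit

/-!
# Monotonicity of broadcasting in the eigenvalue and in the offspring law
-/

namespace Vale.Agent.P154.Q3

open scoped BigOperators Topology
open Filter

variable {f : (Fin 3 → ℝ) → ℝ} {lam μ d d' : ℝ}

/-- A bound on the values of a sublinear functional of a channel. -/
def fbound (f : (Fin 3 → ℝ) → ℝ) : ℝ :=
  |f fun _ => 1| + ∑ i, |f (Pi.single i 1)|

theorem abs_fval_le {Ω : Type} [Fintype Ω] {L : Ω → Fin 3 → ℝ} (hf : Sublin f) (hL : IsStoch L) :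
    |fval f L| ≤ fbound f := by
  have hsum : ∑ η, L η = fun _ => (1 : ℝ) := funext fun i => by rw [Finset.sum_apply]; exact hL.2 i
  have lo : f (fun _ => (1 : ℝ)) ≤ fval f L := by rw [← hsum]; exact hf.sum_le _ _ hL.1
  have hi : fval f L ≤ ∑ i, f (Pi.single i 1) := by
    calc fval f L ≤ ∑ η, ∑ i, L η i * f (Pi.single i 1) := by
          refine Finset.sum_le_sum fun η _ => ?_
          have e : L η = ∑ i, L η i • (Pi.single i 1 : Fin 3 → ℝ) := by
            funext j; simp [Finset.sum_apply, Pi.single_apply]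
          refine (le_of_eq (congrArg f e)).trans ((hf.sum_le _ _ fun i j => ?_).trans (le_of_eq ?_))
          · exact mul_nonneg (hL.1 η i) (by simp only [Pi.single_apply]; split <;> norm_num)
          · exact Finset.sum_congr rfl fun i _ => hf.smul _ _ (hL.1 η i)
              fun j => by simp only [Pi.single_apply]; split <;> norm_num
      _ = ∑ i, f (Pi.single i 1) := by
          rw [Finset.sum_comm]
          refine Finset.sum_congr rfl fun i _ => ?_
          rw [← Finset.sum_mul, hL.2, one_mul]
  have h1 : ∑ i, f (Pi.single i 1) ≤ ∑ i, |f (Pi.single i 1)| :=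
    Finset.sum_le_sum fun i _ => le_abs_self _
  have h2 : (0 : ℝ) ≤ ∑ i, |f (Pi.single i 1)| := Finset.sum_nonneg fun i _ => abs_nonneg _
  unfold fbound
  rw [abs_le]
  constructor <;> linarith [neg_abs_le (f fun _ => 1), abs_nonneg (f fun _ => 1)]

theorem lik_zero_eq (a b : ℝ) (t : RTree 0) : lik a 0 t = lik b 0 t := rfl

theorem isStoch_lik (h0 : -1 / 2 ≤ lam) (h1 : lam ≤ 1) :
    ∀ (n : ℕ) (t : RTree n), IsStoch (lik lam n t) := by
  intro n
  induction n with
  | zero =>
    intro t
    obtain ⟨a, -, -⟩ := lik_spec (lam := 0) le_rfl one_pos 0 t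
    exact lik_zero_eq 0 lam t ▸ ⟨a.nonneg, a.sum_one⟩
  | succ n ih =>
    intro t
    exact (isStoch_prodL fun c => (ih (t.2 c)).edge h0 h1).congr _ (lik_succ t)

theorem fval_lik_node {n : ℕ} (f : (Fin 3 → ℝ) → ℝ) (t : RTree (n + 1)) :
    fval f (lik lam (n + 1) t) = fval f (prodL (childChan lam t)) :=
  fval_congr _ (lik_succ t)

/-- On each tree the observation is more informative at `μ ≤ λ ≤ 0`. -/
theorem dom_lik (hμ : -1 / 2 ≤ μ) (hμ0 : μ < 0) (h0 : μ ≤ lam) (h1 : lam ≤ 0) :
    ∀ (n : ℕ) (t : RTree n), Dom (lik lam n t) (lik μ n t) := by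
  intro n
  induction n with
  | zero => exact fun t => lik_zero_eq lam μ t ▸ Dom.refl _
  | succ n ih =>
    intro t
    have sl : ∀ c, IsStoch (childChan lam t c) := fun c =>
      (isStoch_lik (by linarith) (by linarith) n _).edge (by linarith) (by linarith)
    have sm : ∀ c, IsStoch (childChan μ t c) := fun c =>
      (isStoch_lik hμ (by linarith) n _).edge hμ (by linarith)
    intro f hf
    rw [fval_lik_node, fval_lik_node]
    exact dom_prodL sl sm (fun c =>
      (ih (t.2 c)).edge_le (isStoch_lik hμ (by linarith) n _) hμ hμ0 h0 h1) f hf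

theorem fval_node {n k : ℕ} (f : (Fin 3 → ℝ) → ℝ) (g : Fin k → RTree n) :
    fval f (lik lam (n + 1) (node g)) = fval f (prodL fun c => edge lam (lik lam n (g c))) :=
  fval_lik_node f (node g)

theorem dom_regTree (h0 : -1 / 2 ≤ lam) (h1 : lam ≤ 1) {a b : ℕ} (hab : a ≤ b) :
    ∀ n, Dom (lik lam n (regTree a n)) (lik lam n (regTree b n)) := by
  obtain ⟨j, rfl⟩ := Nat.exists_eq_add_of_le hab
  intro n
  induction n with
  | zero => exact Dom.refl _
  | succ n ih =>
    intro f hf
    have e : ∀ a, fval f (lik lam (n + 1) (regTree a (n + 1))) =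
        fval f (prodL fun _ : Fin a => edge lam (lik lam n (regTree a n))) := fun a =>
      fval_node f fun _ : Fin a => regTree a n
    rw [e, e]
    have sb : IsStoch (edge lam (lik lam n (regTree (a + j) n))) :=
      (isStoch_lik h0 h1 n _).edge h0 h1
    have h2 := dom_prodL (k := a) (L := fun _ => edge lam (lik lam n (regTree a n)))
      (M := fun _ => edge lam (lik lam n (regTree (a + j) n)))
      (fun _ => (isStoch_lik h0 h1 n _).edge h0 h1) (fun _ => sb) (fun _ => ih.edge h0 h1) f hf
    exact h2.trans (dom_prodL_add j (k := a) (L := fun _ : Fin (a + j) =>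
        edge lam (lik lam n (regTree (a + j) n))) (fun _ => sb) f hf)

section Laws
variable {T U : Type} {w w' : T → ℝ} {B : ℝ}

theorem summable_weighted (hw : ∀ t, 0 ≤ w t) (hs : Summable w) {F : T → ℝ}
    (hB : ∀ t, |F t| ≤ B) : Summable fun t => w t * F t :=
  Summable.of_norm_bounded (hs.mul_right B) fun t => by
    rw [Real.norm_eq_abs, abs_mul, abs_of_nonneg (hw t)]
    exact mul_le_mul_of_nonneg_left (hB t) (hw t)

theorem abs_tsum_weighted_le (hw : ∀ t, 0 ≤ w t) (hs : HasSum w 1) {F : T → ℝ}
    (hB : ∀ t, |F t| ≤ B) : |∑' t, w t * F t| ≤ B := by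
  have h : Summable fun t => w t * F t := summable_weighted hw hs.summable hB
  rw [abs_le]
  constructor
  · rw [← one_mul (-B), ← (hs.mul_right (-B)).tsum_eq]
    exact (hs.mul_right (-B)).summable.tsum_le_tsum
      (fun t => mul_le_mul_of_nonneg_left (abs_le.1 (hB t)).1 (hw t)) h
  · rw [← one_mul B, ← (hs.mul_right B).tsum_eq]
    exact h.tsum_le_tsum (fun t => mul_le_mul_of_nonneg_left (abs_le.1 (hB t)).2 (hw t))
      (hs.mul_right B).summable

/-- The expectation over `k` independent samples. -/
noncomputable def piAvg (w : T → ℝ) (k : ℕ) (F : (Fin k → T) → ℝ) : ℝ :=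
  ∑' g : Fin k → T, (∏ c, w (g c)) * F g

theorem summable_pair {v : U → ℝ} (hw : ∀ t, 0 ≤ w t) (hs : Summable w) (hv : ∀ u, 0 ≤ v u)
    (hvs : Summable v) (G : T → U → ℝ) (hB : ∀ t u, |G t u| ≤ B) :
    Summable fun p : T × U => w p.1 * v p.2 * G p.1 p.2 :=
  summable_weighted (w := fun p : T × U => w p.1 * v p.2) (F := fun p : T × U => G p.1 p.2)
    (fun p => mul_nonneg (hw p.1) (hv p.2)) (hs.mul_of_nonneg hvs hw hv) fun p => hB p.1 p.2

theorem tsum_pair_eq {v : U → ℝ} (hw : ∀ t, 0 ≤ w t) (hs : Summable w) (hv : ∀ u, 0 ≤ v u)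
    (hvs : Summable v) (G : T → U → ℝ) (hB : ∀ t u, |G t u| ≤ B) :
    ∑' p : T × U, w p.1 * v p.2 * G p.1 p.2 = ∑' t, w t * ∑' u, v u * G t u ∧
      ∑' t, w t * ∑' u, v u * G t u = ∑' u, v u * ∑' t, w t * G t u := by
  have h := summable_pair hw hs hv hvs G hB
  have h3 : Summable (Function.uncurry fun t u => w t * v u * G t u) := h
  have e1 : ∑' t, w t * ∑' u, v u * G t u = ∑' t, ∑' u, w t * v u * G t u := tsum_congr fun t => by
    rw [← tsum_mul_left]; exact tsum_congr fun u => by ring
  refine ⟨h.tsum_prod.trans e1.symm, e1.trans (h3.tsum_comm.symm.trans (tsum_congr fun u => ?_))⟩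
  rw [← tsum_mul_left]; exact tsum_congr fun t => by ring

theorem hasSum_prodWeight (hw : ∀ t, 0 ≤ w t) (hs : HasSum w 1) (k : ℕ) :
    HasSum (fun g : Fin k → T => ∏ c, w (g c)) 1 := by
  simpa using hasSum_pi (fun _ : Fin k => w) (fun _ => 1) (fun _ => hw) fun _ => hs

theorem piAvg_succ (hw : ∀ t, 0 ≤ w t) (hs : HasSum w 1) {k : ℕ} {F : (Fin (k + 1) → T) → ℝ}
    (hB : ∀ g, |F g| ≤ B) :
    piAvg w (k + 1) F = ∑' t, w t * piAvg w k (fun g => F (Fin.cons t g)) ∧
      piAvg w (k + 1) F =
        ∑' g : Fin k → T, (∏ c, w (g c)) * ∑' t, w t * F (Fin.cons t g) := by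
  have hv : ∀ g : Fin k → T, 0 ≤ ∏ c, w (g c) := fun g => Finset.prod_nonneg fun c _ => hw _
  obtain ⟨e1, e2⟩ := tsum_pair_eq (v := fun g : Fin k → T => ∏ c, w (g c)) hw hs.summable hv
    (hasSum_prodWeight hw hs k).summable (fun t g => F (Fin.cons t g)) fun t g => hB _
  have e : ∑' p : T × (Fin k → T), w p.1 * (∏ c, w (p.2 c)) * F (Fin.cons p.1 p.2) =
      piAvg w (k + 1) F := by
    refine (tsum_congr fun p => ?_).trans
      ((Fin.consEquiv fun _ : Fin (k + 1) => T).tsum_eq fun g => (∏ c, w (g c)) * F g)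
    simp [Fin.prod_univ_succ, Fin.consEquiv]
  exact ⟨e.symm.trans e1, e.symm.trans (e1.trans e2)⟩

theorem abs_piAvg_le (hw : ∀ t, 0 ≤ w t) (hs : HasSum w 1) {k : ℕ} {F : (Fin k → T) → ℝ}
    (hB : ∀ g, |F g| ≤ B) : |piAvg w k F| ≤ B :=
  abs_tsum_weighted_le (fun g => Finset.prod_nonneg fun c _ => hw _)
    (by simpa using hasSum_pi (fun _ : Fin k => w) (fun _ => 1) (fun _ => hw) fun _ => hs) hB

/-- If every single coordinate prefers `w'`, so does the product law. -/
theorem piAvg_le (hw : ∀ t, 0 ≤ w t) (hs : HasSum w 1) (hw' : ∀ t, 0 ≤ w' t) (hs' : HasSum w' 1) :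
    ∀ {k : ℕ} {F : (Fin k → T) → ℝ}, (∀ g, |F g| ≤ B) →
      (∀ (g : Fin k → T) (c : Fin k), ∑' t, w t * F (Function.update g c t) ≤
        ∑' t, w' t * F (Function.update g c t)) →
      piAvg w k F ≤ piAvg w' k F := by
  intro k
  induction k with
  | zero => intro F _ _; simp [piAvg]
  | succ k ih =>
    intro F hB hF
    have s1 : Summable fun t => w t * piAvg w k fun g => F (Fin.cons t g) :=
      summable_weighted hw hs.summable fun t => abs_piAvg_le hw hs fun g => hB _
    have s2 : Summable fun t => w t * piAvg w' k fun g => F (Fin.cons t g) :=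
      summable_weighted hw hs.summable fun t => abs_piAvg_le hw' hs' fun g => hB _
    have hW : HasSum (fun g : Fin k → T => ∏ c, w' (g c)) 1 := by
      simpa using hasSum_pi (fun _ : Fin k => w') (fun _ => 1) (fun _ => hw') fun _ => hs'
    have hW0 : ∀ g : Fin k → T, 0 ≤ ∏ c, w' (g c) := fun g => Finset.prod_nonneg fun c _ => hw' _
    calc piAvg w (k + 1) F = ∑' t, w t * piAvg w k (fun g => F (Fin.cons t g)) :=
          (piAvg_succ hw hs hB).1
      _ ≤ ∑' t, w t * piAvg w' k (fun g => F (Fin.cons t g)) :=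
          s1.tsum_le_tsum (fun t => mul_le_mul_of_nonneg_left (ih (fun g => hB _) fun g c => by
            have := hF (Fin.cons t g) c.succ
            simpa only [Fin.cons_update] using this) (hw t)) s2
      _ = ∑' g : Fin k → T, (∏ c, w' (g c)) * ∑' t, w t * F (Fin.cons t g) :=
          (tsum_pair_eq (v := fun g : Fin k → T => ∏ c, w' (g c)) hw hs.summable hW0 hW.summable
            (fun t g => F (Fin.cons t g)) fun t g => hB _).2
      _ ≤ ∑' g : Fin k → T, (∏ c, w' (g c)) * ∑' t, w' t * F (Fin.cons t g) := by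
          refine Summable.tsum_le_tsum (fun g => mul_le_mul_of_nonneg_left ?_ (hW0 g))
            (summable_weighted hW0 hW.summable fun g => abs_tsum_weighted_le hw hs fun t => hB _)
            (summable_weighted hW0 hW.summable fun g => abs_tsum_weighted_le hw' hs' fun t => hB _)
          rcases isEmpty_or_nonempty T with he | ⟨⟨t₀⟩⟩
          · simp
          · have := hF (Fin.cons t₀ g) 0
            simpa only [Fin.update_cons_zero] using this
      _ = piAvg w' (k + 1) F := ((piAvg_succ hw' hs' hB).2).symm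

end Laws

/-- The mean of a functional of the observation on the Poisson tree. -/
noncomputable def gwAvg (d lam : ℝ) (n : ℕ) (f : (Fin 3 → ℝ) → ℝ) : ℝ :=
  ∑' t : RTree n, gwWeight d n t * fval f (lik lam n t)

theorem summable_gwAvg (hd : 0 ≤ d) (h0 : -1 / 2 ≤ lam) (h1 : lam ≤ 1) (hf : Sublin f) (n : ℕ) :
    Summable fun t : RTree n => gwWeight d n t * fval f (lik lam n t) :=
  summable_weighted (gwWeight_nonneg hd n) (hasSum_gw hd n).summable
    fun t => abs_fval_le hf (isStoch_lik h0 h1 n t)

theorem gwAvg_le_of_le (hd : 0 ≤ d) (hμ : -1 / 2 ≤ μ) (hμ0 : μ < 0) (h0 : μ ≤ lam) (h1 : lam ≤ 0)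
    (hf : Sublin f) (n : ℕ) : gwAvg d lam n f ≤ gwAvg d μ n f :=
  (summable_gwAvg hd (by linarith) (by linarith) hf n).tsum_le_tsum
    (fun t => mul_le_mul_of_nonneg_left (dom_lik hμ hμ0 h0 h1 n t f hf) (gwWeight_nonneg hd n t))
    (summable_gwAvg hd hμ (by linarith) hf n)

theorem poisson_mono {Φ : ℕ → ℝ} {B : ℝ} (hd : 0 ≤ d) (hdd : d ≤ d') (hB : ∀ k, |Φ k| ≤ B)
    (hΦ : Monotone Φ) :
    ∑' k, poissonWeight d k * Φ k ≤ ∑' k, poissonWeight d' k * Φ k := by
  obtain ⟨e, he, rfl⟩ : ∃ e, 0 ≤ e ∧ d' = d + e := ⟨d' - d, by linarith, by ring⟩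
  have wd := poissonWeight_nonneg hd
  have we := poissonWeight_nonneg he
  have hm : ∀ k, poissonWeight (d + e) k =
      ∑ i ∈ Finset.range (k + 1), poissonWeight d i * poissonWeight e (k - i) := by
    intro k
    have h : (d + e) ^ k / (k.factorial : ℝ) = ∑ i ∈ Finset.range (k + 1),
        d ^ i / (i.factorial : ℝ) * (e ^ (k - i) / ((k - i).factorial : ℝ)) := by
      rw [add_pow, Finset.sum_div]
      refine Finset.sum_congr rfl fun i hi => ?_
      rw [Nat.cast_choose ℝ (Nat.lt_succ_iff.1 (Finset.mem_range.1 hi))]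
      have : (k.factorial : ℝ) ≠ 0 := by positivity
      field_simp
    simp only [poissonWeight, mul_div_assoc, neg_add, Real.exp_add, h, Finset.mul_sum]
    exact Finset.sum_congr rfl fun i _ => by ring
  have sd : Summable fun k => ‖poissonWeight d k * Φ k‖ :=
    (summable_weighted wd (hasSum_poisson d).summable hB).abs.congr fun k => (Real.norm_eq_abs _).symm
  have se : Summable fun k => ‖poissonWeight e k‖ :=
    (hasSum_poisson e).summable.congr fun k => by rw [Real.norm_eq_abs, abs_of_nonneg (we k)]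
  calc ∑' k, poissonWeight d k * Φ k
      = (∑' k, poissonWeight d k * Φ k) * ∑' k, poissonWeight e k := by
        rw [(hasSum_poisson e).tsum_eq, mul_one]
    _ = ∑' k, ∑ i ∈ Finset.range (k + 1),
          poissonWeight d i * Φ i * poissonWeight e (k - i) :=
        tsum_mul_tsum_eq_tsum_sum_range_of_summable_norm sd se
    _ ≤ ∑' k, poissonWeight (d + e) k * Φ k := by
        refine Summable.tsum_le_tsum (fun k => ?_)
          (summable_norm_sum_mul_range_of_summable_norm sd se).of_norm
          (summable_weighted (poissonWeight_nonneg (by linarith)) (hasSum_poisson _).summable hB)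
        rw [hm, Finset.sum_mul]
        refine Finset.sum_le_sum fun i hi => ?_
        have := mul_le_mul_of_nonneg_left (hΦ (Nat.lt_succ_iff.1 (Finset.mem_range.1 hi)))
          (mul_nonneg (wd i) (we (k - i)))
        linarith

theorem nodeVal_split {n k : ℕ} (f : (Fin 3 → ℝ) → ℝ) (g : Fin (k + 1) → RTree n)
    (c : Fin (k + 1)) :
    fval f (prodL fun j => edge lam (lik lam n (g j))) =
      fval (fun v => ∑ η, f (fun i => push lam v i *
        prodL (fun j : Fin k => edge lam (lik lam n (g (c.succAbove j)))) η i))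
        (lik lam n (g c)) := by
  refine ((fval_congr (Fin.insertNthEquiv (fun j => Leaf n (g j) → Fin 3) c).symm
    fun η => funext fun i => ?_).trans
      (fval_tens f (edge lam (lik lam n (g c)))
        (prodL fun j : Fin k => edge lam (lik lam n (g (c.succAbove j)))))).trans rfl
  simp only [prodL, tens, Fin.insertNthEquiv, Equiv.coe_fn_symm_mk, Fin.removeNth]
  exact Fin.prod_univ_succAbove _ c

theorem tsum_node {n : ℕ} (G : RTree (n + 1) → ℝ) (h : Summable G) :
    ∑' t, G t = ∑' k, ∑' g : Fin k → RTree n, G (node g) :=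
  Summable.tsum_sigma' (f := G) (fun k => Summable.sigma_factor (f := G) h k) h

theorem gwAvg_succ (hd : 0 ≤ d) (h0 : -1 / 2 ≤ lam) (h1 : lam ≤ 1) (hf : Sublin f) (n : ℕ) :
    gwAvg d lam (n + 1) f = ∑' k, poissonWeight d k *
      piAvg (gwWeight d n) k (fun g => fval f (prodL fun c => edge lam (lik lam n (g c)))) := by
  refine (tsum_node _ (summable_gwAvg hd h0 h1 hf (n + 1))).trans (tsum_congr fun k => ?_)
  rw [piAvg, ← tsum_mul_left]
  refine tsum_congr fun g => ?_
  rw [← fval_node f g, ← mul_assoc]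
  rfl

/-- The value at a node as a function of one child, the others fixed. -/
noncomputable def splitFn {n k : ℕ} (lam : ℝ) (f : (Fin 3 → ℝ) → ℝ) (g : Fin k → RTree n)
    (v : Fin 3 → ℝ) : ℝ :=
  ∑ η, f (fun i => push lam v i * prodL (fun j => edge lam (lik lam n (g j))) η i)

theorem nodeVal_eq {n k : ℕ} (f : (Fin 3 → ℝ) → ℝ) (g : Fin (k + 1) → RTree n) (c : Fin (k + 1))
    (g' : Fin k → RTree n) (t : RTree n) (h : ∀ j, g (c.succAbove j) = g' j) (hc : g c = t) :
    fval f (prodL fun j => edge lam (lik lam n (g j))) =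
      fval (splitFn lam f g') (lik lam n t) := by
  obtain rfl : (fun j => g (c.succAbove j)) = g' := funext h
  subst hc
  exact nodeVal_split f g c

/-- Means of sublinear functionals are monotone in the mean offspring number. -/
theorem gwAvg_mono (hd : 0 ≤ d) (hdd : d ≤ d') (h0 : -1 / 2 ≤ lam) (h1 : lam ≤ 1) :
    ∀ (n : ℕ) {f : (Fin 3 → ℝ) → ℝ}, Sublin f → gwAvg d lam n f ≤ gwAvg d' lam n f := by
  have hd' : 0 ≤ d' := hd.trans hdd
  intro n
  induction n with
  | zero => intro f _; exact le_rfl
  | succ n ih =>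
    intro f hf
    set w := gwWeight d n
    set w' := gwWeight d' n
    set F := fun k (g : Fin k → RTree n) => fval f (prodL fun c => edge lam (lik lam n (g c)))
    have sC : ∀ t, IsStoch (edge lam (lik lam n t)) := fun t => (isStoch_lik h0 h1 n t).edge h0 h1
    have hB : ∀ k g, |F k g| ≤ fbound f := fun k g => abs_fval_le hf (isStoch_prodL fun c => sC _)
    have hw := gwWeight_nonneg hd n
    have hw' := gwWeight_nonneg hd' n
    have hs := hasSum_gw hd n
    have hs' := hasSum_gw hd' n
    have coord : ∀ k (g : Fin k → RTree n) (c : Fin k), ∑' t, w t * F k (Function.update g c t) ≤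
        ∑' t, w' t * F k (Function.update g c t) := by
      intro k g c
      cases k with
      | zero => exact c.elim0
      | succ k =>
        have e : ∀ t, F (k + 1) (Function.update g c t) =
            fval (splitFn lam f fun j => g (c.succAbove j)) (lik lam n t) := fun t =>
          nodeVal_eq f _ c _ t (fun j => Function.update_of_ne (Fin.succAbove_ne c j) _ _)
            (Function.update_self _ _ _)
        simp only [e]
        exact ih ((hf.comp_mul (isStoch_prodL fun j => sC (g (c.succAbove j))).1).comp_push h0 h1)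
    rw [gwAvg_succ hd h0 h1 hf, gwAvg_succ hd' h0 h1 hf]
    calc ∑' k, poissonWeight d k * piAvg w k (F k)
        ≤ ∑' k, poissonWeight d k * piAvg w' k (F k) :=
          (summable_weighted (poissonWeight_nonneg hd) (hasSum_poisson d).summable
            fun k => abs_piAvg_le hw hs (hB k)).tsum_le_tsum
            (fun k => mul_le_mul_of_nonneg_left (piAvg_le hw hs hw' hs' (hB k) (coord k))
              (poissonWeight_nonneg hd k))
            (summable_weighted (poissonWeight_nonneg hd) (hasSum_poisson d).summable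
              fun k => abs_piAvg_le hw' hs' (hB k))
      _ ≤ ∑' k, poissonWeight d' k * piAvg w' k (F k) := by
          refine poisson_mono hd hdd (fun k => abs_piAvg_le hw' hs' (hB k))
            (monotone_nat_of_le_succ fun k => ?_)
          have hW : HasSum (fun g : Fin k → RTree n => ∏ c, w' (g c)) 1 := by
            simpa using hasSum_pi (fun _ : Fin k => w') (fun _ => 1) (fun _ => hw') fun _ => hs'
          have hW0 : ∀ g : Fin k → RTree n, 0 ≤ ∏ c, w' (g c) :=
            fun g => Finset.prod_nonneg fun c _ => hw' _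
          rw [(piAvg_succ hw' hs' (hB (k + 1))).2, piAvg]
          refine Summable.tsum_le_tsum (fun g => mul_le_mul_of_nonneg_left ?_ (hW0 g))
            (summable_weighted hW0 hW.summable (hB k))
            (summable_weighted hW0 hW.summable fun g => abs_tsum_weighted_le hw' hs' fun t => hB _ _)
          calc F k g = ∑' t, w' t * F k g := by rw [tsum_mul_right, hs'.tsum_eq, one_mul]
            _ ≤ _ := (hs'.mul_right _).summable.tsum_le_tsum (fun t => mul_le_mul_of_nonneg_left (by
                rw [show F (k + 1) (Fin.cons t g) = fval (splitFn lam f g) (lik lam n t) from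
                  nodeVal_eq f _ 0 g t (fun j => by simp) (Fin.cons_zero _ _)]
                refine ((dom_tens (isStoch_prodL fun c => sC (g c)).1 (sC t)) f hf).trans (le_of_eq ?_)
                rw [fval_tens_comm, fval_tens]
                rfl) (hw' t))
                (summable_weighted hw' hs'.summable fun t => hB _ _)

end Vale.Agent.P154.Q3
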