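import Vale.Agent.P154.Cert

/-!
# Positivity certificates for the antiferromagnetic side, eigenvalue in `[-7/36, 0]`
-/

namespace Vale.Agent.P154.Q3

section Formula
variable {R : Type} [Add R] [Mul R]

/-- Sum of the pairwise products. -/
def gE2 (x y w : R) : R := x * y + y * w + w * x
/-- Positive part of the class functional. -/
def gAp (c : ℕ → R) (x y w : R) : R :=
  c 53 * (gSum x y w * gSum x y w * (gSum x y w * gSum x y w)) +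
    c 33 * gE2 x y w * (gSum x y w * gSum x y w)
/-- Negative part of the class functional. -/
def gAm (c : ℕ → R) (x y w : R) : R :=
  c 1080 * gQd x y w + c 216 * (gE2 x y w * gE2 x y w)
/-- One entry of the channel with eigenvalue `-7/36` applied to a vector, times `108`. -/
def gPush (c : ℕ → R) (x y w : R) : R := c 22 * x + c 43 * (y + w)
/-- The product of the three overlaps. -/
def gPi (x y w u v z : R) : R :=
  gSum (x * u) (y * v) (w * z) * gSum (x * v) (y * z) (w * u) * gSum (x * z) (y * u) (w * v)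
/-- A function summed over three orientations against the cubes of the other overlaps. -/
def gKsum (f : R → R → R → R) (x y w u v z : R) : R :=
  f (x * u) (y * v) (w * z) *
      gCube (gSum (x * v) (y * z) (w * u) * gSum (x * z) (y * u) (w * v)) +
    f (x * v) (y * z) (w * u) *
      gCube (gSum (x * u) (y * v) (w * z) * gSum (x * z) (y * u) (w * v)) +
    f (x * z) (y * u) (w * v) *
      gCube (gSum (x * u) (y * v) (w * z) * gSum (x * v) (y * z) (w * u))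
/-- A function summed over three orientations against the other overlaps. -/
def gFsum (f : R → R → R → R) (x y w u v z : R) : R :=
  f (x * u) (y * v) (w * z) * (gSum (x * v) (y * z) (w * u) * gSum (x * z) (y * u) (w * v)) +
    f (x * v) (y * z) (w * u) * (gSum (x * u) (y * v) (w * z) * gSum (x * z) (y * u) (w * v)) +
    f (x * z) (y * u) (w * v) * (gSum (x * u) (y * v) (w * z) * gSum (x * v) (y * z) (w * u))
/-- Square of the sum. -/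
def gSq (x y w : R) : R := gSum x y w * gSum x y w
/-- Smaller side, closure. -/
def gKL (c : ℕ → R) (x y w u v z : R) : R :=
  gCube (gSum x y w) * gSum u v z * gKsum (gAm c) x y w u v z +
    gCube (gPi x y w u v z) *
      (c 9 * gE2 u v z * gAp c x y w + c 2 * gSq u v z * gAm c x y w)
/-- Larger side, closure. -/
def gKR (c : ℕ → R) (x y w u v z : R) : R :=
  gCube (gSum x y w) * gSum u v z * gKsum (gAp c) x y w u v z +
    gCube (gPi x y w u v z) *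
      (c 9 * gE2 u v z * gAm c x y w + c 2 * gSq u v z * gAp c x y w)
/-- Positive part of the multiplier. -/
def gUp (c : ℕ → R) (u v z : R) : R :=
  c 3 * (gSq u v z * gSq u v z) + c 18 * (gE2 u v z * gE2 u v z)
/-- Negative part of the multiplier. -/
def gUm (c : ℕ → R) (u v z : R) : R := c 15 * (gSq u v z * gE2 u v z)
/-- Smaller side, magnetisation. -/
def gFL (c : ℕ → R) (x y w u v z : R) : R :=
  c 1200 * (gPi x y w u v z * (gE2 x y w * gSq x y w * (gSq u v z * gSq u v z) +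
      gE2 u v z * (gSq x y w * gSq x y w) * gSq u v z)) +
    c 400 * (gCube (gSum x y w) * gCube (gSum u v z) * gFsum gSq x y w u v z) +
    c 5 * (gPi x y w u v z * (gUp c u v z * gAp c x y w + gUm c u v z * gAm c x y w)) +
    c 4 * (gPi x y w u v z * (gSq x y w * gSq u v z) *
      (gSq x y w * gSq u v z + c 9 * (gE2 x y w * gE2 u v z)))
/-- Larger side, magnetisation. -/
def gFR (c : ℕ → R) (x y w u v z : R) : R :=
  c 800 * (gPi x y w u v z * ((gSq x y w * gSq x y w) * (gSq u v z * gSq u v z))) +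
    c 1200 * (gCube (gSum x y w) * gCube (gSum u v z) * gFsum gE2 x y w u v z) +
    c 5 * (gPi x y w u v z * (gUp c u v z * gAm c x y w + gUm c u v z * gAp c x y w)) +
    c 12 * (gPi x y w u v z * (gSq x y w * gSq u v z) *
      (gSq x y w * gE2 u v z + gSq u v z * gE2 x y w))

end Formula

theorem neg_deg_kfwd :
    let u := gKL GV.const
      (GV.const 1) ((GV.const 1) + GV.X1) ((GV.const 1) + GV.X1 + GV.X2)
      (gPush GV.const (GV.const 1) ((GV.const 1) + GV.X3) ((GV.const 1) + GV.X3 + GV.X4))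
      (gPush GV.const ((GV.const 1) + GV.X3) ((GV.const 1) + GV.X3 + GV.X4) (GV.const 1))
      (gPush GV.const ((GV.const 1) + GV.X3 + GV.X4) (GV.const 1) ((GV.const 1) + GV.X3))
    let v := gKR GV.const
      (GV.const 1) ((GV.const 1) + GV.X1) ((GV.const 1) + GV.X1 + GV.X2)
      (gPush GV.const (GV.const 1) ((GV.const 1) + GV.X3) ((GV.const 1) + GV.X3 + GV.X4))
      (gPush GV.const ((GV.const 1) + GV.X3) ((GV.const 1) + GV.X3 + GV.X4) (GV.const 1))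
      (gPush GV.const ((GV.const 1) + GV.X3 + GV.X4) (GV.const 1) ((GV.const 1) + GV.X3))
    u.a ≤ 15 ∧ u.b ≤ 15 ∧ u.c ≤ 15 ∧ u.d ≤ 15 ∧
      v.a ≤ 15 ∧ v.b ≤ 15 ∧ v.c ≤ 15 ∧ v.d ≤ 15 := by
  decide +kernel

theorem neg_small_kfwd :
    gKL (fun k : ℕ => k)
      1 (1 + 1) (1 + 1 + 1)
      (gPush (fun k : ℕ => k) 1 (1 + 1) (1 + 1 + 1))
      (gPush (fun k : ℕ => k) (1 + 1) (1 + 1 + 1) 1)
      (gPush (fun k : ℕ => k) (1 + 1 + 1) 1 (1 + 1)) < (2 ^ 192) ∧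
    gKR (fun k : ℕ => k)
      1 (1 + 1) (1 + 1 + 1)
      (gPush (fun k : ℕ => k) 1 (1 + 1) (1 + 1 + 1))
      (gPush (fun k : ℕ => k) (1 + 1) (1 + 1 + 1) 1)
      (gPush (fun k : ℕ => k) (1 + 1 + 1) 1 (1 + 1)) < (2 ^ 192) := by decide +kernel

theorem neg_chk_kfwd :
    chk4 (2 ^ 192) 16 (gKL (fun k : ℕ => k)
      1 (1 + (((2 ^ 192) ^ 16) ^ 16) ^ 16) (1 + (((2 ^ 192) ^ 16) ^ 16) ^ 16 + ((2 ^ 192) ^ 16) ^ 16)
      (gPush (fun k : ℕ => k) 1 (1 + (2 ^ 192) ^ 16) (1 + (2 ^ 192) ^ 16 + (2 ^ 192)))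
      (gPush (fun k : ℕ => k) (1 + (2 ^ 192) ^ 16) (1 + (2 ^ 192) ^ 16 + (2 ^ 192)) 1)
      (gPush (fun k : ℕ => k) (1 + (2 ^ 192) ^ 16 + (2 ^ 192)) 1 (1 + (2 ^ 192) ^ 16)))
      (gKR (fun k : ℕ => k)
      1 (1 + (((2 ^ 192) ^ 16) ^ 16) ^ 16) (1 + (((2 ^ 192) ^ 16) ^ 16) ^ 16 + ((2 ^ 192) ^ 16) ^ 16)
      (gPush (fun k : ℕ => k) 1 (1 + (2 ^ 192) ^ 16) (1 + (2 ^ 192) ^ 16 + (2 ^ 192)))
      (gPush (fun k : ℕ => k) (1 + (2 ^ 192) ^ 16) (1 + (2 ^ 192) ^ 16 + (2 ^ 192)) 1)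
      (gPush (fun k : ℕ => k) (1 + (2 ^ 192) ^ 16 + (2 ^ 192)) 1 (1 + (2 ^ 192) ^ 16))) = true := by decide +kernel

theorem neg_cert_kfwd {a b c d : ℝ} (ha : 0 ≤ a) (hb : 0 ≤ b) (hc : 0 ≤ c) (hd : 0 ≤ d) :
    gKL (fun k : ℕ => (k : ℝ))
      1 (1 + a) (1 + a + b)
      (gPush (fun k : ℕ => (k : ℝ)) 1 (1 + c) (1 + c + d))
      (gPush (fun k : ℕ => (k : ℝ)) (1 + c) (1 + c + d) 1)
      (gPush (fun k : ℕ => (k : ℝ)) (1 + c + d) 1 (1 + c)) ≤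
    gKR (fun k : ℕ => (k : ℝ))
      1 (1 + a) (1 + a + b)
      (gPush (fun k : ℕ => (k : ℝ)) 1 (1 + c) (1 + c + d))
      (gPush (fun k : ℕ => (k : ℝ)) (1 + c) (1 + c + d) 1)
      (gPush (fun k : ℕ => (k : ℝ)) (1 + c + d) 1 (1 + c)) := by
  set u := gKL GV.const
      (GV.const 1) ((GV.const 1) + GV.X1) ((GV.const 1) + GV.X1 + GV.X2)
      (gPush GV.const (GV.const 1) ((GV.const 1) + GV.X3) ((GV.const 1) + GV.X3 + GV.X4))
      (gPush GV.const ((GV.const 1) + GV.X3) ((GV.const 1) + GV.X3 + GV.X4) (GV.const 1))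
      (gPush GV.const ((GV.const 1) + GV.X3 + GV.X4) (GV.const 1) ((GV.const 1) + GV.X3)) with hu
  set v := gKR GV.const
      (GV.const 1) ((GV.const 1) + GV.X1) ((GV.const 1) + GV.X1 + GV.X2)
      (gPush GV.const (GV.const 1) ((GV.const 1) + GV.X3) ((GV.const 1) + GV.X3 + GV.X4))
      (gPush GV.const ((GV.const 1) + GV.X3) ((GV.const 1) + GV.X3 + GV.X4) (GV.const 1))
      (gPush GV.const ((GV.const 1) + GV.X3 + GV.X4) (GV.const 1) ((GV.const 1) + GV.X3)) with hv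
  obtain ⟨h1, h2, h3, h4, k1, k2, k3, k4⟩ := neg_deg_kfwd
  have hL : ∀ {S : Type} [CommSemiring S] (x y z w : S), u.q.ev x y z w =
      gKL (fun k : ℕ => (k : S))
      1 (1 + w) (1 + w + z)
      (gPush (fun k : ℕ => (k : S)) 1 (1 + y) (1 + y + x))
      (gPush (fun k : ℕ => (k : S)) (1 + y) (1 + y + x) 1)
      (gPush (fun k : ℕ => (k : S)) (1 + y + x) 1 (1 + y)) := fun x y z w => by
    simp only [hu, gKL, gKsum, gPi, gAp, gAm, gPush, gSq, gE2, gCube, gQd, gSum, GV.q_add, GV.q_mul, GV.const, GV.X1, GV.X2, GV.X3, GV.X4,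
      Q4.ev_add, Q4.ev_mul, Q4.ev_const, Q4.ev_X1, Q4.ev_X2, Q4.ev_X3, Q4.ev_X4, Nat.cast_one]
  have hR : ∀ {S : Type} [CommSemiring S] (x y z w : S), v.q.ev x y z w =
      gKR (fun k : ℕ => (k : S))
      1 (1 + w) (1 + w + z)
      (gPush (fun k : ℕ => (k : S)) 1 (1 + y) (1 + y + x))
      (gPush (fun k : ℕ => (k : S)) (1 + y) (1 + y + x) 1)
      (gPush (fun k : ℕ => (k : S)) (1 + y + x) 1 (1 + y)) := fun x y z w => by
    simp only [hv, gKR, gKsum, gPi, gAp, gAm, gPush, gSq, gE2, gCube, gQd, gSum, GV.q_add, GV.q_mul, GV.const, GV.X1, GV.X2, GV.X3, GV.X4,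
      Q4.ev_add, Q4.ev_mul, Q4.ev_const, Q4.ev_X1, Q4.ev_X2, Q4.ev_X3, Q4.ev_X4, Nat.cast_one]
  rw [← hL d c b a, ← hR d c b a]
  exact Q4.ev_le (n := 16) (B := (2 ^ 192)) (by norm_num) (u.deg.mono h1 h2 h3 h4)
    (v.deg.mono k1 k2 k3 k4) (by norm_num) (by norm_num) (by norm_num)
    (by rw [hL]; exact neg_small_kfwd.1) (by rw [hR]; exact neg_small_kfwd.2)
    (by rw [hL, hR]; exact neg_chk_kfwd) hd hc hb ha

theorem neg_deg_krev :
    let u := gKL GV.const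
      (GV.const 1) ((GV.const 1) + GV.X1) ((GV.const 1) + GV.X1 + GV.X2)
      (gPush GV.const ((GV.const 1) + GV.X3 + GV.X4) ((GV.const 1) + GV.X3) (GV.const 1))
      (gPush GV.const ((GV.const 1) + GV.X3) (GV.const 1) ((GV.const 1) + GV.X3 + GV.X4))
      (gPush GV.const (GV.const 1) ((GV.const 1) + GV.X3 + GV.X4) ((GV.const 1) + GV.X3))
    let v := gKR GV.const
      (GV.const 1) ((GV.const 1) + GV.X1) ((GV.const 1) + GV.X1 + GV.X2)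
      (gPush GV.const ((GV.const 1) + GV.X3 + GV.X4) ((GV.const 1) + GV.X3) (GV.const 1))
      (gPush GV.const ((GV.const 1) + GV.X3) (GV.const 1) ((GV.const 1) + GV.X3 + GV.X4))
      (gPush GV.const (GV.const 1) ((GV.const 1) + GV.X3 + GV.X4) ((GV.const 1) + GV.X3))
    u.a ≤ 15 ∧ u.b ≤ 15 ∧ u.c ≤ 15 ∧ u.d ≤ 15 ∧
      v.a ≤ 15 ∧ v.b ≤ 15 ∧ v.c ≤ 15 ∧ v.d ≤ 15 := by
  decide +kernel

theorem neg_small_krev :
    gKL (fun k : ℕ => k)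
      1 (1 + 1) (1 + 1 + 1)
      (gPush (fun k : ℕ => k) (1 + 1 + 1) (1 + 1) 1)
      (gPush (fun k : ℕ => k) (1 + 1) 1 (1 + 1 + 1))
      (gPush (fun k : ℕ => k) 1 (1 + 1 + 1) (1 + 1)) < (2 ^ 192) ∧
    gKR (fun k : ℕ => k)
      1 (1 + 1) (1 + 1 + 1)
      (gPush (fun k : ℕ => k) (1 + 1 + 1) (1 + 1) 1)
      (gPush (fun k : ℕ => k) (1 + 1) 1 (1 + 1 + 1))
      (gPush (fun k : ℕ => k) 1 (1 + 1 + 1) (1 + 1)) < (2 ^ 192) := by decide +kernel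

theorem neg_chk_krev :
    chk4 (2 ^ 192) 16 (gKL (fun k : ℕ => k)
      1 (1 + (((2 ^ 192) ^ 16) ^ 16) ^ 16) (1 + (((2 ^ 192) ^ 16) ^ 16) ^ 16 + ((2 ^ 192) ^ 16) ^ 16)
      (gPush (fun k : ℕ => k) (1 + (2 ^ 192) ^ 16 + (2 ^ 192)) (1 + (2 ^ 192) ^ 16) 1)
      (gPush (fun k : ℕ => k) (1 + (2 ^ 192) ^ 16) 1 (1 + (2 ^ 192) ^ 16 + (2 ^ 192)))
      (gPush (fun k : ℕ => k) 1 (1 + (2 ^ 192) ^ 16 + (2 ^ 192)) (1 + (2 ^ 192) ^ 16)))
      (gKR (fun k : ℕ => k)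
      1 (1 + (((2 ^ 192) ^ 16) ^ 16) ^ 16) (1 + (((2 ^ 192) ^ 16) ^ 16) ^ 16 + ((2 ^ 192) ^ 16) ^ 16)
      (gPush (fun k : ℕ => k) (1 + (2 ^ 192) ^ 16 + (2 ^ 192)) (1 + (2 ^ 192) ^ 16) 1)
      (gPush (fun k : ℕ => k) (1 + (2 ^ 192) ^ 16) 1 (1 + (2 ^ 192) ^ 16 + (2 ^ 192)))
      (gPush (fun k : ℕ => k) 1 (1 + (2 ^ 192) ^ 16 + (2 ^ 192)) (1 + (2 ^ 192) ^ 16))) = true := by decide +kernel

theorem neg_cert_krev {a b c d : ℝ} (ha : 0 ≤ a) (hb : 0 ≤ b) (hc : 0 ≤ c) (hd : 0 ≤ d) :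
    gKL (fun k : ℕ => (k : ℝ))
      1 (1 + a) (1 + a + b)
      (gPush (fun k : ℕ => (k : ℝ)) (1 + c + d) (1 + c) 1)
      (gPush (fun k : ℕ => (k : ℝ)) (1 + c) 1 (1 + c + d))
      (gPush (fun k : ℕ => (k : ℝ)) 1 (1 + c + d) (1 + c)) ≤
    gKR (fun k : ℕ => (k : ℝ))
      1 (1 + a) (1 + a + b)
      (gPush (fun k : ℕ => (k : ℝ)) (1 + c + d) (1 + c) 1)
      (gPush (fun k : ℕ => (k : ℝ)) (1 + c) 1 (1 + c + d))
      (gPush (fun k : ℕ => (k : ℝ)) 1 (1 + c + d) (1 + c)) := by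
  set u := gKL GV.const
      (GV.const 1) ((GV.const 1) + GV.X1) ((GV.const 1) + GV.X1 + GV.X2)
      (gPush GV.const ((GV.const 1) + GV.X3 + GV.X4) ((GV.const 1) + GV.X3) (GV.const 1))
      (gPush GV.const ((GV.const 1) + GV.X3) (GV.const 1) ((GV.const 1) + GV.X3 + GV.X4))
      (gPush GV.const (GV.const 1) ((GV.const 1) + GV.X3 + GV.X4) ((GV.const 1) + GV.X3)) with hu
  set v := gKR GV.const
      (GV.const 1) ((GV.const 1) + GV.X1) ((GV.const 1) + GV.X1 + GV.X2)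
      (gPush GV.const ((GV.const 1) + GV.X3 + GV.X4) ((GV.const 1) + GV.X3) (GV.const 1))
      (gPush GV.const ((GV.const 1) + GV.X3) (GV.const 1) ((GV.const 1) + GV.X3 + GV.X4))
      (gPush GV.const (GV.const 1) ((GV.const 1) + GV.X3 + GV.X4) ((GV.const 1) + GV.X3)) with hv
  obtain ⟨h1, h2, h3, h4, k1, k2, k3, k4⟩ := neg_deg_krev
  have hL : ∀ {S : Type} [CommSemiring S] (x y z w : S), u.q.ev x y z w =
      gKL (fun k : ℕ => (k : S))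
      1 (1 + w) (1 + w + z)
      (gPush (fun k : ℕ => (k : S)) (1 + y + x) (1 + y) 1)
      (gPush (fun k : ℕ => (k : S)) (1 + y) 1 (1 + y + x))
      (gPush (fun k : ℕ => (k : S)) 1 (1 + y + x) (1 + y)) := fun x y z w => by
    simp only [hu, gKL, gKsum, gPi, gAp, gAm, gPush, gSq, gE2, gCube, gQd, gSum, GV.q_add, GV.q_mul, GV.const, GV.X1, GV.X2, GV.X3, GV.X4,
      Q4.ev_add, Q4.ev_mul, Q4.ev_const, Q4.ev_X1, Q4.ev_X2, Q4.ev_X3, Q4.ev_X4, Nat.cast_one]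
  have hR : ∀ {S : Type} [CommSemiring S] (x y z w : S), v.q.ev x y z w =
      gKR (fun k : ℕ => (k : S))
      1 (1 + w) (1 + w + z)
      (gPush (fun k : ℕ => (k : S)) (1 + y + x) (1 + y) 1)
      (gPush (fun k : ℕ => (k : S)) (1 + y) 1 (1 + y + x))
      (gPush (fun k : ℕ => (k : S)) 1 (1 + y + x) (1 + y)) := fun x y z w => by
    simp only [hv, gKR, gKsum, gPi, gAp, gAm, gPush, gSq, gE2, gCube, gQd, gSum, GV.q_add, GV.q_mul, GV.const, GV.X1, GV.X2, GV.X3, GV.X4,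
      Q4.ev_add, Q4.ev_mul, Q4.ev_const, Q4.ev_X1, Q4.ev_X2, Q4.ev_X3, Q4.ev_X4, Nat.cast_one]
  rw [← hL d c b a, ← hR d c b a]
  exact Q4.ev_le (n := 16) (B := (2 ^ 192)) (by norm_num) (u.deg.mono h1 h2 h3 h4)
    (v.deg.mono k1 k2 k3 k4) (by norm_num) (by norm_num) (by norm_num)
    (by rw [hL]; exact neg_small_krev.1) (by rw [hR]; exact neg_small_krev.2)
    (by rw [hL, hR]; exact neg_chk_krev) hd hc hb ha

theorem neg_deg_ffwd :
    let u := gFL GV.const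
      (GV.const 1) ((GV.const 1) + GV.X1) ((GV.const 1) + GV.X1 + GV.X2)
      (gPush GV.const (GV.const 1) ((GV.const 1) + GV.X3) ((GV.const 1) + GV.X3 + GV.X4))
      (gPush GV.const ((GV.const 1) + GV.X3) ((GV.const 1) + GV.X3 + GV.X4) (GV.const 1))
      (gPush GV.const ((GV.const 1) + GV.X3 + GV.X4) (GV.const 1) ((GV.const 1) + GV.X3))
    let v := gFR GV.const
      (GV.const 1) ((GV.const 1) + GV.X1) ((GV.const 1) + GV.X1 + GV.X2)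
      (gPush GV.const (GV.const 1) ((GV.const 1) + GV.X3) ((GV.const 1) + GV.X3 + GV.X4))
      (gPush GV.const ((GV.const 1) + GV.X3) ((GV.const 1) + GV.X3 + GV.X4) (GV.const 1))
      (gPush GV.const ((GV.const 1) + GV.X3 + GV.X4) (GV.const 1) ((GV.const 1) + GV.X3))
    u.a ≤ 7 ∧ u.b ≤ 7 ∧ u.c ≤ 7 ∧ u.d ≤ 7 ∧
      v.a ≤ 7 ∧ v.b ≤ 7 ∧ v.c ≤ 7 ∧ v.d ≤ 7 := by
  decide +kernel

theorem neg_small_ffwd :
    gFL (fun k : ℕ => k)
      1 (1 + 1) (1 + 1 + 1)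
      (gPush (fun k : ℕ => k) 1 (1 + 1) (1 + 1 + 1))
      (gPush (fun k : ℕ => k) (1 + 1) (1 + 1 + 1) 1)
      (gPush (fun k : ℕ => k) (1 + 1 + 1) 1 (1 + 1)) < (2 ^ 192) ∧
    gFR (fun k : ℕ => k)
      1 (1 + 1) (1 + 1 + 1)
      (gPush (fun k : ℕ => k) 1 (1 + 1) (1 + 1 + 1))
      (gPush (fun k : ℕ => k) (1 + 1) (1 + 1 + 1) 1)
      (gPush (fun k : ℕ => k) (1 + 1 + 1) 1 (1 + 1)) < (2 ^ 192) := by decide +kernel

theorem neg_chk_ffwd :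
    chk4 (2 ^ 192) 8 (gFL (fun k : ℕ => k)
      1 (1 + (((2 ^ 192) ^ 8) ^ 8) ^ 8) (1 + (((2 ^ 192) ^ 8) ^ 8) ^ 8 + ((2 ^ 192) ^ 8) ^ 8)
      (gPush (fun k : ℕ => k) 1 (1 + (2 ^ 192) ^ 8) (1 + (2 ^ 192) ^ 8 + (2 ^ 192)))
      (gPush (fun k : ℕ => k) (1 + (2 ^ 192) ^ 8) (1 + (2 ^ 192) ^ 8 + (2 ^ 192)) 1)
      (gPush (fun k : ℕ => k) (1 + (2 ^ 192) ^ 8 + (2 ^ 192)) 1 (1 + (2 ^ 192) ^ 8)))
      (gFR (fun k : ℕ => k)
      1 (1 + (((2 ^ 192) ^ 8) ^ 8) ^ 8) (1 + (((2 ^ 192) ^ 8) ^ 8) ^ 8 + ((2 ^ 192) ^ 8) ^ 8)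
      (gPush (fun k : ℕ => k) 1 (1 + (2 ^ 192) ^ 8) (1 + (2 ^ 192) ^ 8 + (2 ^ 192)))
      (gPush (fun k : ℕ => k) (1 + (2 ^ 192) ^ 8) (1 + (2 ^ 192) ^ 8 + (2 ^ 192)) 1)
      (gPush (fun k : ℕ => k) (1 + (2 ^ 192) ^ 8 + (2 ^ 192)) 1 (1 + (2 ^ 192) ^ 8))) = true := by decide +kernel

theorem neg_cert_ffwd {a b c d : ℝ} (ha : 0 ≤ a) (hb : 0 ≤ b) (hc : 0 ≤ c) (hd : 0 ≤ d) :
    gFL (fun k : ℕ => (k : ℝ))
      1 (1 + a) (1 + a + b)
      (gPush (fun k : ℕ => (k : ℝ)) 1 (1 + c) (1 + c + d))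
      (gPush (fun k : ℕ => (k : ℝ)) (1 + c) (1 + c + d) 1)
      (gPush (fun k : ℕ => (k : ℝ)) (1 + c + d) 1 (1 + c)) ≤
    gFR (fun k : ℕ => (k : ℝ))
      1 (1 + a) (1 + a + b)
      (gPush (fun k : ℕ => (k : ℝ)) 1 (1 + c) (1 + c + d))
      (gPush (fun k : ℕ => (k : ℝ)) (1 + c) (1 + c + d) 1)
      (gPush (fun k : ℕ => (k : ℝ)) (1 + c + d) 1 (1 + c)) := by
  set u := gFL GV.const
      (GV.const 1) ((GV.const 1) + GV.X1) ((GV.const 1) + GV.X1 + GV.X2)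
      (gPush GV.const (GV.const 1) ((GV.const 1) + GV.X3) ((GV.const 1) + GV.X3 + GV.X4))
      (gPush GV.const ((GV.const 1) + GV.X3) ((GV.const 1) + GV.X3 + GV.X4) (GV.const 1))
      (gPush GV.const ((GV.const 1) + GV.X3 + GV.X4) (GV.const 1) ((GV.const 1) + GV.X3)) with hu
  set v := gFR GV.const
      (GV.const 1) ((GV.const 1) + GV.X1) ((GV.const 1) + GV.X1 + GV.X2)
      (gPush GV.const (GV.const 1) ((GV.const 1) + GV.X3) ((GV.const 1) + GV.X3 + GV.X4))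
      (gPush GV.const ((GV.const 1) + GV.X3) ((GV.const 1) + GV.X3 + GV.X4) (GV.const 1))
      (gPush GV.const ((GV.const 1) + GV.X3 + GV.X4) (GV.const 1) ((GV.const 1) + GV.X3)) with hv
  obtain ⟨h1, h2, h3, h4, k1, k2, k3, k4⟩ := neg_deg_ffwd
  have hL : ∀ {S : Type} [CommSemiring S] (x y z w : S), u.q.ev x y z w =
      gFL (fun k : ℕ => (k : S))
      1 (1 + w) (1 + w + z)
      (gPush (fun k : ℕ => (k : S)) 1 (1 + y) (1 + y + x))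
      (gPush (fun k : ℕ => (k : S)) (1 + y) (1 + y + x) 1)
      (gPush (fun k : ℕ => (k : S)) (1 + y + x) 1 (1 + y)) := fun x y z w => by
    simp only [hu, gFL, gFsum, gPi, gUp, gUm, gAp, gAm, gPush, gSq, gE2, gCube, gQd, gSum, GV.q_add, GV.q_mul, GV.const, GV.X1, GV.X2, GV.X3, GV.X4,
      Q4.ev_add, Q4.ev_mul, Q4.ev_const, Q4.ev_X1, Q4.ev_X2, Q4.ev_X3, Q4.ev_X4, Nat.cast_one]
  have hR : ∀ {S : Type} [CommSemiring S] (x y z w : S), v.q.ev x y z w =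
      gFR (fun k : ℕ => (k : S))
      1 (1 + w) (1 + w + z)
      (gPush (fun k : ℕ => (k : S)) 1 (1 + y) (1 + y + x))
      (gPush (fun k : ℕ => (k : S)) (1 + y) (1 + y + x) 1)
      (gPush (fun k : ℕ => (k : S)) (1 + y + x) 1 (1 + y)) := fun x y z w => by
    simp only [hv, gFR, gFsum, gPi, gUp, gUm, gAp, gAm, gPush, gSq, gE2, gCube, gQd, gSum, GV.q_add, GV.q_mul, GV.const, GV.X1, GV.X2, GV.X3, GV.X4,
      Q4.ev_add, Q4.ev_mul, Q4.ev_const, Q4.ev_X1, Q4.ev_X2, Q4.ev_X3, Q4.ev_X4, Nat.cast_one]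
  rw [← hL d c b a, ← hR d c b a]
  exact Q4.ev_le (n := 8) (B := (2 ^ 192)) (by norm_num) (u.deg.mono h1 h2 h3 h4)
    (v.deg.mono k1 k2 k3 k4) (by norm_num) (by norm_num) (by norm_num)
    (by rw [hL]; exact neg_small_ffwd.1) (by rw [hR]; exact neg_small_ffwd.2)
    (by rw [hL, hR]; exact neg_chk_ffwd) hd hc hb ha

theorem neg_deg_frev :
    let u := gFL GV.const
      (GV.const 1) ((GV.const 1) + GV.X1) ((GV.const 1) + GV.X1 + GV.X2)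
      (gPush GV.const ((GV.const 1) + GV.X3 + GV.X4) ((GV.const 1) + GV.X3) (GV.const 1))
      (gPush GV.const ((GV.const 1) + GV.X3) (GV.const 1) ((GV.const 1) + GV.X3 + GV.X4))
      (gPush GV.const (GV.const 1) ((GV.const 1) + GV.X3 + GV.X4) ((GV.const 1) + GV.X3))
    let v := gFR GV.const
      (GV.const 1) ((GV.const 1) + GV.X1) ((GV.const 1) + GV.X1 + GV.X2)
      (gPush GV.const ((GV.const 1) + GV.X3 + GV.X4) ((GV.const 1) + GV.X3) (GV.const 1))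
      (gPush GV.const ((GV.const 1) + GV.X3) (GV.const 1) ((GV.const 1) + GV.X3 + GV.X4))
      (gPush GV.const (GV.const 1) ((GV.const 1) + GV.X3 + GV.X4) ((GV.const 1) + GV.X3))
    u.a ≤ 7 ∧ u.b ≤ 7 ∧ u.c ≤ 7 ∧ u.d ≤ 7 ∧
      v.a ≤ 7 ∧ v.b ≤ 7 ∧ v.c ≤ 7 ∧ v.d ≤ 7 := by
  decide +kernel

theorem neg_small_frev :
    gFL (fun k : ℕ => k)
      1 (1 + 1) (1 + 1 + 1)
      (gPush (fun k : ℕ => k) (1 + 1 + 1) (1 + 1) 1)
      (gPush (fun k : ℕ => k) (1 + 1) 1 (1 + 1 + 1))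
      (gPush (fun k : ℕ => k) 1 (1 + 1 + 1) (1 + 1)) < (2 ^ 192) ∧
    gFR (fun k : ℕ => k)
      1 (1 + 1) (1 + 1 + 1)
      (gPush (fun k : ℕ => k) (1 + 1 + 1) (1 + 1) 1)
      (gPush (fun k : ℕ => k) (1 + 1) 1 (1 + 1 + 1))
      (gPush (fun k : ℕ => k) 1 (1 + 1 + 1) (1 + 1)) < (2 ^ 192) := by decide +kernel

theorem neg_chk_frev :
    chk4 (2 ^ 192) 8 (gFL (fun k : ℕ => k)
      1 (1 + (((2 ^ 192) ^ 8) ^ 8) ^ 8) (1 + (((2 ^ 192) ^ 8) ^ 8) ^ 8 + ((2 ^ 192) ^ 8) ^ 8)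
      (gPush (fun k : ℕ => k) (1 + (2 ^ 192) ^ 8 + (2 ^ 192)) (1 + (2 ^ 192) ^ 8) 1)
      (gPush (fun k : ℕ => k) (1 + (2 ^ 192) ^ 8) 1 (1 + (2 ^ 192) ^ 8 + (2 ^ 192)))
      (gPush (fun k : ℕ => k) 1 (1 + (2 ^ 192) ^ 8 + (2 ^ 192)) (1 + (2 ^ 192) ^ 8)))
      (gFR (fun k : ℕ => k)
      1 (1 + (((2 ^ 192) ^ 8) ^ 8) ^ 8) (1 + (((2 ^ 192) ^ 8) ^ 8) ^ 8 + ((2 ^ 192) ^ 8) ^ 8)
      (gPush (fun k : ℕ => k) (1 + (2 ^ 192) ^ 8 + (2 ^ 192)) (1 + (2 ^ 192) ^ 8) 1)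
      (gPush (fun k : ℕ => k) (1 + (2 ^ 192) ^ 8) 1 (1 + (2 ^ 192) ^ 8 + (2 ^ 192)))
      (gPush (fun k : ℕ => k) 1 (1 + (2 ^ 192) ^ 8 + (2 ^ 192)) (1 + (2 ^ 192) ^ 8))) = true := by decide +kernel

theorem neg_cert_frev {a b c d : ℝ} (ha : 0 ≤ a) (hb : 0 ≤ b) (hc : 0 ≤ c) (hd : 0 ≤ d) :
    gFL (fun k : ℕ => (k : ℝ))
      1 (1 + a) (1 + a + b)
      (gPush (fun k : ℕ => (k : ℝ)) (1 + c + d) (1 + c) 1)
      (gPush (fun k : ℕ => (k : ℝ)) (1 + c) 1 (1 + c + d))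
      (gPush (fun k : ℕ => (k : ℝ)) 1 (1 + c + d) (1 + c)) ≤
    gFR (fun k : ℕ => (k : ℝ))
      1 (1 + a) (1 + a + b)
      (gPush (fun k : ℕ => (k : ℝ)) (1 + c + d) (1 + c) 1)
      (gPush (fun k : ℕ => (k : ℝ)) (1 + c) 1 (1 + c + d))
      (gPush (fun k : ℕ => (k : ℝ)) 1 (1 + c + d) (1 + c)) := by
  set u := gFL GV.const
      (GV.const 1) ((GV.const 1) + GV.X1) ((GV.const 1) + GV.X1 + GV.X2)
      (gPush GV.const ((GV.const 1) + GV.X3 + GV.X4) ((GV.const 1) + GV.X3) (GV.const 1))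
      (gPush GV.const ((GV.const 1) + GV.X3) (GV.const 1) ((GV.const 1) + GV.X3 + GV.X4))
      (gPush GV.const (GV.const 1) ((GV.const 1) + GV.X3 + GV.X4) ((GV.const 1) + GV.X3)) with hu
  set v := gFR GV.const
      (GV.const 1) ((GV.const 1) + GV.X1) ((GV.const 1) + GV.X1 + GV.X2)
      (gPush GV.const ((GV.const 1) + GV.X3 + GV.X4) ((GV.const 1) + GV.X3) (GV.const 1))
      (gPush GV.const ((GV.const 1) + GV.X3) (GV.const 1) ((GV.const 1) + GV.X3 + GV.X4))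
      (gPush GV.const (GV.const 1) ((GV.const 1) + GV.X3 + GV.X4) ((GV.const 1) + GV.X3)) with hv
  obtain ⟨h1, h2, h3, h4, k1, k2, k3, k4⟩ := neg_deg_frev
  have hL : ∀ {S : Type} [CommSemiring S] (x y z w : S), u.q.ev x y z w =
      gFL (fun k : ℕ => (k : S))
      1 (1 + w) (1 + w + z)
      (gPush (fun k : ℕ => (k : S)) (1 + y + x) (1 + y) 1)
      (gPush (fun k : ℕ => (k : S)) (1 + y) 1 (1 + y + x))
      (gPush (fun k : ℕ => (k : S)) 1 (1 + y + x) (1 + y)) := fun x y z w => by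
    simp only [hu, gFL, gFsum, gPi, gUp, gUm, gAp, gAm, gPush, gSq, gE2, gCube, gQd, gSum, GV.q_add, GV.q_mul, GV.const, GV.X1, GV.X2, GV.X3, GV.X4,
      Q4.ev_add, Q4.ev_mul, Q4.ev_const, Q4.ev_X1, Q4.ev_X2, Q4.ev_X3, Q4.ev_X4, Nat.cast_one]
  have hR : ∀ {S : Type} [CommSemiring S] (x y z w : S), v.q.ev x y z w =
      gFR (fun k : ℕ => (k : S))
      1 (1 + w) (1 + w + z)
      (gPush (fun k : ℕ => (k : S)) (1 + y + x) (1 + y) 1)
      (gPush (fun k : ℕ => (k : S)) (1 + y) 1 (1 + y + x))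
      (gPush (fun k : ℕ => (k : S)) 1 (1 + y + x) (1 + y)) := fun x y z w => by
    simp only [hv, gFR, gFsum, gPi, gUp, gUm, gAp, gAm, gPush, gSq, gE2, gCube, gQd, gSum, GV.q_add, GV.q_mul, GV.const, GV.X1, GV.X2, GV.X3, GV.X4,
      Q4.ev_add, Q4.ev_mul, Q4.ev_const, Q4.ev_X1, Q4.ev_X2, Q4.ev_X3, Q4.ev_X4, Nat.cast_one]
  rw [← hL d c b a, ← hR d c b a]
  exact Q4.ev_le (n := 8) (B := (2 ^ 192)) (by norm_num) (u.deg.mono h1 h2 h3 h4)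
    (v.deg.mono k1 k2 k3 k4) (by norm_num) (by norm_num) (by norm_num)
    (by rw [hL]; exact neg_small_frev.1) (by rw [hR]; exact neg_small_frev.2)
    (by rw [hL, hR]; exact neg_chk_frev) hd hc hb ha

end Vale.Agent.P154.Q3
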