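import Vale.Agent.P154.Limit

/-!
# Rational bounds on Poisson weights
-/

namespace Vale.Agent.P154.Q3

open scoped BigOperators

/-- Partial sums of the exponential series over the rationals. -/
def expPart (x : ℚ) : ℕ → ℚ
  | 0 => 0
  | n + 1 => expPart x n + x ^ n / n.factorial

theorem expPart_cast (x : ℚ) : ∀ n : ℕ,
    ((expPart x n : ℚ) : ℝ) = ∑ i ∈ Finset.range n, (x : ℝ) ^ i / i.factorial
  | 0 => by simp [expPart]
  | n + 1 => by rw [Finset.sum_range_succ, ← expPart_cast x n]; simp [expPart]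

/-- An upper bound on the exponential, from `m` equal steps of length at most one. -/
def expUpper (x : ℚ) (m n : ℕ) : ℚ :=
  (expPart (x / m) n + (x / m) ^ n * (n + 1) / (n.factorial * n)) ^ m

theorem exp_le_expUpper {x : ℚ} {m n : ℕ} (hx : 0 ≤ x) (hxm : x ≤ m) (hm : 0 < m) (hn : 0 < n) :
    Real.exp x ≤ expUpper x m n := by
  have hm' : (0 : ℝ) < m := by exact_mod_cast hm
  have h := Real.exp_bound' (x := (x : ℝ) / m) (div_nonneg (by exact_mod_cast hx) hm'.le)
    ((div_le_one hm').2 (by exact_mod_cast hxm)) hn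
  calc Real.exp x = Real.exp ((x : ℝ) / m) ^ m := by
        rw [← Real.exp_nat_mul]; congr 1; field_simp
    _ ≤ _ := pow_le_pow_left₀ (Real.exp_pos _).le h m
    _ = expUpper x m n := by simp [expUpper, expPart_cast]

/-- A checkable upper bound on a Poisson weight. -/
theorem poissonWeight_le_rat {d c : ℚ} {N k : ℕ} (hd : 0 ≤ d) (hc : 0 ≤ c)
    (h : d ^ k / k.factorial ≤ c * expPart d N) : poissonWeight (d : ℝ) k ≤ c := by
  have hd' : (0 : ℝ) ≤ d := by exact_mod_cast hd
  have h' : ((d ^ k / k.factorial : ℚ) : ℝ) ≤ ((c * expPart d N : ℚ) : ℝ) := by exact_mod_cast h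
  push_cast [expPart_cast] at h'
  have h2 : (d : ℝ) ^ k / k.factorial ≤ c * Real.exp d :=
    h'.trans (mul_le_mul_of_nonneg_left (Real.sum_le_exp_of_nonneg hd' N) (by exact_mod_cast hc))
  rw [poissonWeight, mul_div_assoc, Real.exp_neg, inv_mul_le_iff₀ (Real.exp_pos _), mul_comm]
  exact h2

/-- A checkable bound on the Poisson tail. -/
theorem poisson_tail_rat {d τ : ℚ} {K m n : ℕ} (hd : 0 ≤ d) (hdm : d ≤ m) (hm : 0 < m)
    (hn : 0 < n) (hτ : τ ≤ 1) (h : (1 - τ) * expUpper d m n ≤ expPart d K) :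
    1 ≤ ∑ k ∈ Finset.range K, poissonWeight (d : ℝ) k + (τ : ℝ) := by
  have h' : (((1 - τ) * expUpper d m n : ℚ) : ℝ) ≤ ((expPart d K : ℚ) : ℝ) := by exact_mod_cast h
  push_cast [expPart_cast] at h'
  have hτ' : (τ : ℝ) ≤ 1 := by exact_mod_cast hτ
  have h2 : (1 - (τ : ℝ)) * Real.exp d ≤ ∑ i ∈ Finset.range K, (d : ℝ) ^ i / i.factorial :=
    (mul_le_mul_of_nonneg_left (exp_le_expUpper hd hdm hm hn) (by linarith)).trans h'
  simp only [poissonWeight, mul_div_assoc, ← Finset.mul_sum, Real.exp_neg]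
  rw [← sub_le_iff_le_add, le_inv_mul_iff₀ (Real.exp_pos _), mul_comm]
  exact h2

end Vale.Agent.P154.Q3
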