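import Mathlib

/-!
# Nonnegativity certificates by comparing packed coefficient lists

Polynomials with natural coefficients in four variables are nested lists; their values at a
packing point are natural numbers whose digits are the coefficients.
-/

namespace Vale.Agent.P154.Q3

variable {α : Type} {S : Type} [CommSemiring S]

/-- Coefficientwise sum. -/
def padd (add : α → α → α) : List α → List α → List α
  | [], q => q
  | a :: as, [] => a :: as
  | a :: as, b :: bs => add a b :: padd add as bs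

/-- Product of coefficient lists. -/
def pmul (z : α) (add mul : α → α → α) : List α → List α → List α
  | [], _ => []
  | [a], q => q.map (mul a)
  | a :: b :: as, q => padd add (q.map (mul a)) (z :: pmul z add mul (b :: as) q)

/-- Evaluation. -/
def pev (ev : α → S) (x : S) : List α → S
  | [] => 0
  | a :: as => ev a + x * pev ev x as

/-- Comparison of the digits in base `x`. -/
def chk (x : ℕ) (le : ℕ → ℕ → Bool) : ℕ → ℕ → ℕ → Bool
  | 0, P, _ => P == 0
  | n + 1, P, Q => P == 0 || (le (P % x) (Q % x) && chk x le n (P / x) (Q / x))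

/-- A list of bounded length with good entries. -/
def Bd (good : α → Prop) (n : ℕ) (p : List α) : Prop := p.length ≤ n + 1 ∧ ∀ a ∈ p, good a

theorem pev_padd {add : α → α → α} {ev : α → S} (h : ∀ a b, ev (add a b) = ev a + ev b) (x : S) :
    ∀ p q, pev ev x (padd add p q) = pev ev x p + pev ev x q
  | [], q => by simp [padd, pev]
  | a :: as, [] => by simp [padd, pev]
  | a :: as, b :: bs => by simp only [padd, pev, h, pev_padd h x as bs]; ring

theorem pev_map {mul : α → α → α} {ev : α → S} (h : ∀ a b, ev (mul a b) = ev a * ev b) (x : S)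
    (a : α) : ∀ q, pev ev x (q.map (mul a)) = ev a * pev ev x q
  | [] => by simp [pev]
  | b :: bs => by simp only [List.map_cons, pev, h, pev_map h x a bs]; ring

theorem pev_pmul {z : α} {add mul : α → α → α} {ev : α → S}
    (ha : ∀ a b, ev (add a b) = ev a + ev b) (hm : ∀ a b, ev (mul a b) = ev a * ev b)
    (hz : ev z = 0) (x : S) : ∀ p q, pev ev x (pmul z add mul p q) = pev ev x p * pev ev x q
  | [], q => by simp [pmul, pev]
  | [a], q => by simp only [pmul, pev, pev_map hm]; ring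
  | a :: b :: as, q => by
    simp only [pmul, pev, pev_padd ha, pev_map hm, hz, pev_pmul ha hm hz x (b :: as) q]; ring

theorem bd_mono {good : α → Prop} {n m : ℕ} (h : n ≤ m) {p : List α} (hp : Bd good n p) :
    Bd good m p := ⟨hp.1.trans (by omega), hp.2⟩

theorem bd_imp {g g' : α → Prop} (h : ∀ a, g a → g' a) {n : ℕ} {p : List α} (hp : Bd g n p) :
    Bd g' n p := ⟨hp.1, fun a ha => h a (hp.2 a ha)⟩

theorem bd_padd {good : α → Prop} {add : α → α → α} (h : ∀ a b, good a → good b → good (add a b)) :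
    ∀ {n : ℕ} {p q : List α}, Bd good n p → Bd good n q → Bd good n (padd add p q) := by
  intro n p
  induction p generalizing n with
  | nil => intro q _ hq; simpa [padd] using hq
  | cons a as ih =>
    intro q hp hq
    cases q with
    | nil => simpa [padd] using hp
    | cons b bs =>
      cases n with
      | zero =>
        have h1 : as = [] := by simpa using hp.1
        have h2 : bs = [] := by simpa using hq.1
        subst h1 h2
        exact ⟨by simp [padd], by simpa [padd] using h a b (hp.2 a (by simp)) (hq.2 b (by simp))⟩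
      | succ m =>
        have hr := ih (n := m) (q := bs) ⟨by simpa using hp.1, fun c hc => hp.2 c (by simp [hc])⟩
          ⟨by simpa using hq.1, fun c hc => hq.2 c (by simp [hc])⟩
        refine ⟨by simpa [padd] using hr.1, ?_⟩
        intro c hc
        simp only [padd, List.mem_cons] at hc
        rcases hc with rfl | hc
        · exact h a b (hp.2 a (by simp)) (hq.2 b (by simp))
        · exact hr.2 c hc

theorem bd_pmul {gp gq g : α → Prop} {z : α} {add mul : α → α → α} (hz : g z)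
    (ha : ∀ a b, g a → g b → g (add a b)) (hm : ∀ a b, gp a → gq b → g (mul a b)) :
    ∀ {n m : ℕ} {p q : List α}, Bd gp n p → Bd gq m q → Bd g (n + m) (pmul z add mul p q)
  | n, m, [], q, _, _ => ⟨by simp [pmul], by simp [pmul]⟩
  | n, m, [a], q, hp, hq => by
    refine ⟨by simp only [pmul, List.length_map]; have := hq.1; omega, ?_⟩
    intro c hc
    simp only [pmul, List.mem_map] at hc
    obtain ⟨b, hb, rfl⟩ := hc
    exact hm a b (hp.2 a (by simp)) (hq.2 b hb)
  | 0, m, a :: b :: as, q, hp, _ => by simpa using hp.1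
  | n + 1, m, a :: b :: as, q, hp, hq => by
    have hr := bd_pmul hz ha hm (n := n) (p := b :: as)
      ⟨by simpa using hp.1, fun c hc => hp.2 c (List.mem_cons_of_mem a hc)⟩ hq
    simp only [pmul]
    refine bd_padd ha ⟨?_, ?_⟩ ⟨?_, ?_⟩
    · simp only [List.length_map]; have := hq.1; omega
    · intro c hc
      simp only [List.mem_map] at hc
      obtain ⟨e, he, rfl⟩ := hc
      exact hm a e (hp.2 a (by simp)) (hq.2 e he)
    · simp only [List.length_cons]; have := hr.1; omega
    · intro c hc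
      simp only [List.mem_cons] at hc
      rcases hc with rfl | hc
      · exact hz
      · exact hr.2 c hc

theorem pev_one_mem {ev : α → ℕ} : ∀ {p : List α} {a : α}, a ∈ p → ev a ≤ pev ev 1 p
  | b :: bs, a, h => by
    simp only [pev, one_mul]
    rcases List.mem_cons.1 h with rfl | h
    · exact Nat.le_add_right _ _
    · exact (pev_one_mem h).trans (Nat.le_add_left _ _)

theorem pev_lt {pk : α → ℕ} {x : ℕ} : ∀ {n : ℕ} {p : List α}, p.length ≤ n → (∀ a ∈ p, pk a < x) →
    0 < x → pev pk x p < x ^ n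
  | n, [], _, _, hx => by simpa [pev] using Nat.pow_pos hx
  | n + 1, a :: as, hl, h, hx => by
    have h1 := h a (by simp)
    have h2 := pev_lt (n := n) (by simpa using hl) (fun b hb => h b (by simp [hb])) hx
    have h3 : x * (pev pk x as + 1) ≤ x * x ^ n := Nat.mul_le_mul_left x h2
    simp only [pev, pow_succ']
    rw [Nat.mul_add, Nat.mul_one] at h3
    omega
  | 0, a :: as, hl, _, _ => by simp at hl

theorem pev_nonneg {ev : α → ℝ} (h : ∀ a, 0 ≤ ev a) {x : ℝ} (hx : 0 ≤ x) :
    ∀ p, 0 ≤ pev ev x p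
  | [] => le_rfl
  | a :: as => add_nonneg (h a) (mul_nonneg hx (pev_nonneg h hx as))

theorem chk_sound {pk : α → ℕ} {ev : α → ℝ} {good : α → Prop} {le : ℕ → ℕ → Bool} {x : ℕ}
    (hx : 0 < x) (hgood : ∀ a, good a → pk a < x)
    (hle : ∀ a b, good a → good b → le (pk a) (pk b) = true → ev a ≤ ev b)
    (hzero : ∀ a, pk a = 0 → ev a = 0) (hle0 : ∀ a, good a → le (pk a) 0 = true → ev a ≤ 0)
    (hn : ∀ a, 0 ≤ ev a) {t : ℝ} (ht : 0 ≤ t) :
    ∀ (n : ℕ) (p q : List α), (∀ a ∈ p, good a) → (∀ a ∈ q, good a) →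
      chk x le n (pev pk x p) (pev pk x q) = true → pev ev t p ≤ pev ev t q := by
  have zero : ∀ p : List α, pev pk x p = 0 → pev ev t p = 0 := by
    intro p
    induction p with
    | nil => intro _; rfl
    | cons a as ih =>
      intro e
      simp only [pev] at e ⊢
      obtain ⟨e1, e2⟩ := Nat.add_eq_zero_iff.mp e
      rcases Nat.mul_eq_zero.mp e2 with e3 | e3
      · omega
      · rw [hzero a e1, ih e3]; ring
  intro n
  induction n with
  | zero =>
    intro p q _ _ e
    simp only [chk, beq_iff_eq] at e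
    rw [zero p e]; exact pev_nonneg hn ht q
  | succ n ih =>
    intro p q hp hq e
    simp only [chk, Bool.or_eq_true, beq_iff_eq, Bool.and_eq_true] at e
    rcases e with e | ⟨e1, e2⟩
    · rw [zero p e]; exact pev_nonneg hn ht q
    cases p with
    | nil => exact pev_nonneg hn ht q
    | cons a as =>
      have hga := hp a (by simp)
      have hgas : ∀ b ∈ as, good b := fun b hb => hp b (by simp [hb])
      simp only [pev, Nat.add_mul_mod_self_left, Nat.mod_eq_of_lt (hgood a hga),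
        Nat.add_mul_div_left _ _ hx, Nat.div_eq_of_lt (hgood a hga), Nat.zero_add] at e1 e2
      cases q with
      | nil =>
        simp only [pev, Nat.zero_mod, Nat.zero_div] at e1 e2
        have h1 := hle0 a hga e1
        have h2 := ih as [] hgas (by simp) e2
        simp only [pev] at h2 ⊢
        linarith [mul_nonpos_of_nonneg_of_nonpos ht h2]
      | cons b bs =>
        have hgb := hq b (by simp)
        have hgbs : ∀ c ∈ bs, good c := fun c hc => hq c (by simp [hc])
        simp only [pev, Nat.add_mul_mod_self_left, Nat.mod_eq_of_lt (hgood b hgb),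
          Nat.add_mul_div_left _ _ hx, Nat.div_eq_of_lt (hgood b hgb), Nat.zero_add] at e1 e2
        simp only [pev]
        exact add_le_add (hle a b hga hgb e1)
          (mul_le_mul_of_nonneg_left (ih as bs hgas hgbs e2) ht)

abbrev A1 := List Nat
abbrev A2 := List A1
abbrev A3 := List A2
abbrev A4 := List A3

/-- Sum in one variable. -/
def add1 : A1 → A1 → A1 := padd Nat.add
/-- Product in one variable. -/
def mul1 : A1 → A1 → A1 := pmul 0 Nat.add Nat.mul
/-- Sum in two variables. -/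
def add2 : A2 → A2 → A2 := padd add1
/-- Product in two variables. -/
def mul2 : A2 → A2 → A2 := pmul [] add1 mul1
/-- Sum in three variables. -/
def add3 : A3 → A3 → A3 := padd add2
/-- Product in three variables. -/
def mul3 : A3 → A3 → A3 := pmul [] add2 mul2

/-- Polynomials in four variables with natural coefficients. -/
structure Q4 where
  c : A4

instance : Add Q4 := ⟨fun p q => ⟨padd add3 p.c q.c⟩⟩
instance : Mul Q4 := ⟨fun p q => ⟨pmul [] add3 mul3 p.c q.c⟩⟩

/-- Constants. -/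
def Q4.const (n : Nat) : Q4 := ⟨[[[[n]]]]⟩
/-- The first variable. -/
def Q4.X1 : Q4 := ⟨[[], [[[1]]]]⟩
/-- The second variable. -/
def Q4.X2 : Q4 := ⟨[[[], [[1]]]]⟩
/-- The third variable. -/
def Q4.X3 : Q4 := ⟨[[[[], [1]]]]⟩
/-- The fourth variable. -/
def Q4.X4 : Q4 := ⟨[[[[0, 1]]]]⟩

/-- Evaluation in one variable. -/
def ev1 (x : S) : A1 → S := pev (fun n : Nat => (n : S)) x
/-- Evaluation in two variables. -/
def ev2 (x y : S) : A2 → S := pev (ev1 x) y
/-- Evaluation in three variables. -/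
def ev3 (x y z : S) : A3 → S := pev (ev2 x y) z
/-- Evaluation in four variables. -/
def Q4.ev (x y z w : S) (p : Q4) : S := pev (ev3 x y z) w p.c

theorem ev_add1 (x : S) (a b : A1) : ev1 x (add1 a b) = ev1 x a + ev1 x b :=
  pev_padd (fun a b => Nat.cast_add a b) x a b

theorem ev_mul1 (x : S) (a b : A1) : ev1 x (mul1 a b) = ev1 x a * ev1 x b :=
  pev_pmul (fun a b => Nat.cast_add a b) (fun a b => Nat.cast_mul a b) Nat.cast_zero x a b

theorem ev_add2 (x y : S) (a b : A2) : ev2 x y (add2 a b) = ev2 x y a + ev2 x y b :=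
  pev_padd (ev_add1 x) y a b

theorem ev_mul2 (x y : S) (a b : A2) : ev2 x y (mul2 a b) = ev2 x y a * ev2 x y b :=
  pev_pmul (ev_add1 x) (ev_mul1 x) rfl y a b

theorem ev_add3 (x y z : S) (a b : A3) : ev3 x y z (add3 a b) = ev3 x y z a + ev3 x y z b :=
  pev_padd (ev_add2 x y) z a b

theorem ev_mul3 (x y z : S) (a b : A3) : ev3 x y z (mul3 a b) = ev3 x y z a * ev3 x y z b :=
  pev_pmul (ev_add2 x y) (ev_mul2 x y) rfl z a b

variable (x y z w : S)

theorem Q4.ev_add (p q : Q4) : (p + q).ev x y z w = p.ev x y z w + q.ev x y z w :=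
  pev_padd (ev_add3 x y z) w p.c q.c

theorem Q4.ev_mul (p q : Q4) : (p * q).ev x y z w = p.ev x y z w * q.ev x y z w :=
  pev_pmul (ev_add3 x y z) (ev_mul3 x y z) rfl w p.c q.c

theorem Q4.ev_const (n : Nat) : (Q4.const n).ev x y z w = n := by
  simp [Q4.ev, Q4.const, pev, ev3, ev2, ev1]
theorem Q4.ev_X1 : Q4.X1.ev x y z w = w := by simp [Q4.ev, Q4.X1, pev, ev3, ev2, ev1]
theorem Q4.ev_X2 : Q4.X2.ev x y z w = z := by simp [Q4.ev, Q4.X2, pev, ev3, ev2, ev1]
theorem Q4.ev_X3 : Q4.X3.ev x y z w = y := by simp [Q4.ev, Q4.X3, pev, ev3, ev2, ev1]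
theorem Q4.ev_X4 : Q4.X4.ev x y z w = x := by simp [Q4.ev, Q4.X4, pev, ev3, ev2, ev1]

/-- Degree bounds in each variable. -/
def Q4.Deg (a b c d : ℕ) (p : Q4) : Prop :=
  Bd (Bd (Bd (Bd (fun _ : ℕ => True) d) c) b) a p.c

theorem Q4.Deg.mono {a b c d a' b' c' d' : ℕ} (ha : a ≤ a') (hb : b ≤ b') (hc : c ≤ c')
    (hd : d ≤ d') {p : Q4} (h : p.Deg a b c d) : p.Deg a' b' c' d' :=
  bd_mono ha (bd_imp (fun _ h1 => bd_mono hb (bd_imp (fun _ h2 =>
    bd_mono hc (bd_imp (fun _ h3 => bd_mono hd h3) h2)) h1)) h)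

theorem Q4.Deg.add {a b c d a' b' c' d' : ℕ} {p q : Q4} (hp : p.Deg a b c d)
    (hq : q.Deg a' b' c' d') :
    (p + q).Deg (max a a') (max b b') (max c c') (max d d') :=
  bd_padd (fun _ _ h1 k1 => bd_padd (fun _ _ h2 k2 => bd_padd (fun _ _ h3 k3 =>
      bd_padd (fun _ _ _ _ => trivial) h3 k3) h2 k2) h1 k1)
    (Deg.mono (le_max_left ..) (le_max_left ..) (le_max_left ..) (le_max_left ..) hp)
    (Deg.mono (le_max_right ..) (le_max_right ..) (le_max_right ..) (le_max_right ..) hq)

/-- Bounded degree in one variable. -/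
def D1 (d : ℕ) : A1 → Prop := Bd (fun _ : ℕ => True) d
/-- Bounded degree in two variables. -/
def D2 (c d : ℕ) : A2 → Prop := Bd (D1 d) c
/-- Bounded degree in three variables. -/
def D3 (b c d : ℕ) : A3 → Prop := Bd (D2 c d) b

theorem d1_add {d : ℕ} (u v : A1) (hu : D1 d u) (hv : D1 d v) : D1 d (add1 u v) :=
  bd_padd (fun _ _ _ _ => trivial) hu hv

theorem d1_mul {d e : ℕ} (u v : A1) (hu : D1 d u) (hv : D1 e v) : D1 (d + e) (mul1 u v) :=
  bd_pmul trivial (fun _ _ _ _ => trivial) (fun _ _ _ _ => trivial) hu hv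

theorem d2_add {c d : ℕ} (u v : A2) (hu : D2 c d u) (hv : D2 c d v) : D2 c d (add2 u v) :=
  bd_padd d1_add hu hv

theorem d2_mul {c d c' e : ℕ} (u v : A2) (hu : D2 c d u) (hv : D2 c' e v) :
    D2 (c + c') (d + e) (mul2 u v) :=
  bd_pmul (g := D1 (d + e)) ⟨by simp, by simp⟩ d1_add d1_mul hu hv

theorem d3_add {b c d : ℕ} (u v : A3) (hu : D3 b c d u) (hv : D3 b c d v) : D3 b c d (add3 u v) :=
  bd_padd d2_add hu hv

theorem d3_mul {b c d b' c' e : ℕ} (u v : A3) (hu : D3 b c d u) (hv : D3 b' c' e v) :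
    D3 (b + b') (c + c') (d + e) (mul3 u v) :=
  bd_pmul (g := D2 (c + c') (d + e)) ⟨by simp, by simp⟩ d2_add d2_mul hu hv

theorem Q4.Deg.mul {a b c d a' b' c' d' : ℕ} {p q : Q4} (hp : p.Deg a b c d)
    (hq : q.Deg a' b' c' d') : (p * q).Deg (a + a') (b + b') (c + c') (d + d') :=
  bd_pmul (g := D3 (b + b') (c + c') (d + d')) ⟨by simp, by simp⟩ d3_add d3_mul hp hq

/-- Comparison of packed polynomials with at most `n` digits in each variable. -/
def chk4 (B n : ℕ) (P Q : ℕ) : Bool :=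
  chk (((B ^ n) ^ n) ^ n) (chk ((B ^ n) ^ n) (chk (B ^ n) (chk B Nat.ble n) n) n) n P Q

theorem chk_zero {x : ℕ} {le : ℕ → ℕ → Bool} {n Q : ℕ} : chk x le n 0 Q = true := by
  cases n <;> simp [chk]

theorem Q4.ev_le {p q : Q4} {n B : ℕ} (hB : 0 < B) {a b c d : ℕ} (hp : p.Deg a b c d)
    (hq : q.Deg a b c d) (hb : b < n) (hc : c < n) (hd : d < n)
    (hp1 : p.ev (1 : ℕ) 1 1 1 < B) (hq1 : q.ev (1 : ℕ) 1 1 1 < B)
    (h : chk4 B n (p.ev B (B ^ n) ((B ^ n) ^ n) (((B ^ n) ^ n) ^ n))
      (q.ev B (B ^ n) ((B ^ n) ^ n) (((B ^ n) ^ n) ^ n)) = true)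
    {x y z w : ℝ} (hx : 0 ≤ x) (hy : 0 ≤ y) (hz : 0 ≤ z) (hw : 0 ≤ w) :
    p.ev x y z w ≤ q.ev x y z w := by
  let g1 : A1 → Prop := fun u => u.length ≤ n ∧ ev1 (1 : ℕ) u < B
  let g2 : A2 → Prop := fun u => u.length ≤ n ∧ ∀ v ∈ u, g1 v
  let g3 : A3 → Prop := fun u => u.length ≤ n ∧ ∀ v ∈ u, g2 v
  have l1 : ∀ u, g1 u → ev1 B u < B ^ n := fun u hu => pev_lt hu.1
    (fun v hv => lt_of_le_of_lt (by simpa using pev_one_mem (ev := fun k : ℕ => k) hv)
      (by simpa [ev1] using hu.2)) hB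
  have l2 : ∀ u, g2 u → ev2 B (B ^ n) u < (B ^ n) ^ n := fun u hu =>
    pev_lt hu.1 (fun v hv => l1 v (hu.2 v hv)) (by positivity)
  have l3 : ∀ u, g3 u → ev3 B (B ^ n) ((B ^ n) ^ n) u < ((B ^ n) ^ n) ^ n := fun u hu =>
    pev_lt hu.1 (fun v hv => l2 v (hu.2 v hv)) (by positivity)
  have good : ∀ r : Q4, r.Deg a b c d → r.ev (1 : ℕ) 1 1 1 < B → ∀ u ∈ r.c, g3 u := by
    intro r hr h1 u hu
    have e3 : ev3 (1 : ℕ) 1 1 u < B := lt_of_le_of_lt (pev_one_mem hu) h1
    refine ⟨(hr.2 u hu).1.trans (by omega), fun v hv => ?_⟩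
    have e2 : ev2 (1 : ℕ) 1 v < B := lt_of_le_of_lt (pev_one_mem hv) e3
    refine ⟨((hr.2 u hu).2 v hv).1.trans (by omega), fun s hs => ?_⟩
    exact ⟨(((hr.2 u hu).2 v hv).2 s hs).1.trans (by omega), lt_of_le_of_lt (pev_one_mem hs) e2⟩
  have n0 : ∀ k : ℕ, (0 : ℝ) ≤ (k : ℝ) := fun k => Nat.cast_nonneg k
  have n1 : ∀ u, (0 : ℝ) ≤ ev1 x u := fun u => pev_nonneg n0 hx u
  have n2 : ∀ u, (0 : ℝ) ≤ ev2 x y u := fun u => pev_nonneg n1 hy u
  have n3 : ∀ u, (0 : ℝ) ≤ ev3 x y z u := fun u => pev_nonneg n2 hz u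
  have z1 : ∀ u : A1, ev1 B u = 0 → ev1 x u = 0 := by
    intro u
    induction u with
    | nil => intro _; rfl
    | cons k ks ih =>
      intro e
      simp only [ev1, pev, Nat.cast_id] at e ⊢ ih
      obtain ⟨rfl, e2⟩ := Nat.add_eq_zero_iff.mp e
      rw [ih ((Nat.mul_eq_zero.mp e2).resolve_left hB.ne')]; simp
  have z2 : ∀ u : A2, ev2 B (B ^ n) u = 0 → ev2 x y u = 0 := by
    intro u
    induction u with
    | nil => intro _; rfl
    | cons k ks ih =>
      intro e
      simp only [ev2, pev] at e ⊢ ih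
      obtain ⟨e1, e2⟩ := Nat.add_eq_zero_iff.mp e
      rw [z1 k e1, ih ((Nat.mul_eq_zero.mp e2).resolve_left (Nat.pos_iff_ne_zero.mp (by positivity)))]
      simp
  have z3 : ∀ u : A3, ev3 B (B ^ n) ((B ^ n) ^ n) u = 0 → ev3 x y z u = 0 := by
    intro u
    induction u with
    | nil => intro _; rfl
    | cons k ks ih =>
      intro e
      simp only [ev3, pev] at e ⊢ ih
      obtain ⟨e1, e2⟩ := Nat.add_eq_zero_iff.mp e
      rw [z2 k e1, ih ((Nat.mul_eq_zero.mp e2).resolve_left (Nat.pos_iff_ne_zero.mp (by positivity)))]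
      simp
  have c1 : ∀ u v, g1 u → g1 v → chk B Nat.ble n (ev1 B u) (ev1 B v) = true →
      ev1 x u ≤ ev1 x v := fun u v hu hv e =>
    chk_sound (pk := fun k : ℕ => k) (ev := fun k : ℕ => (k : ℝ)) (good := fun k => k < B) hB
      (fun _ h => h) (fun _ _ _ _ e => Nat.cast_le.mpr (Nat.le_of_ble_eq_true e))
      (fun k e => by simp [e]) (fun k _ e => by
        have := Nat.le_of_ble_eq_true e; exact_mod_cast this)
      n0 hx n u v
      (fun k hk => lt_of_le_of_lt (pev_one_mem (ev := fun k : ℕ => k) hk) (by simpa [ev1] using hu.2))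
      (fun k hk => lt_of_le_of_lt (pev_one_mem (ev := fun k : ℕ => k) hk) (by simpa [ev1] using hv.2))
      (by simpa [ev1] using e)
  have g1nil : g1 [] := ⟨by simp, by simpa [ev1, pev] using hB⟩
  have g2nil : g2 [] := ⟨by simp, by simp⟩
  have g3nil : g3 [] := ⟨by simp, by simp⟩
  have c2 : ∀ u v, g2 u → g2 v →
      chk (B ^ n) (chk B Nat.ble n) n (ev2 B (B ^ n) u) (ev2 B (B ^ n) v) = true →
      ev2 x y u ≤ ev2 x y v := fun u v hu hv e =>
    chk_sound (pk := ev1 B) (ev := ev1 x) (good := g1) (by positivity) l1 c1 z1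
      (fun k hk e => by simpa [ev1, pev] using c1 k [] hk g1nil (by simpa [ev1, pev] using e))
      n1 hy n u v hu.2 hv.2 e
  have c3 : ∀ u v, g3 u → g3 v → chk ((B ^ n) ^ n) (chk (B ^ n) (chk B Nat.ble n) n) n
      (ev3 B (B ^ n) ((B ^ n) ^ n) u) (ev3 B (B ^ n) ((B ^ n) ^ n) v) = true →
      ev3 x y z u ≤ ev3 x y z v := fun u v hu hv e =>
    chk_sound (pk := ev2 B (B ^ n)) (ev := ev2 x y) (good := g2) (by positivity) l2 c2 z2
      (fun k hk e => by simpa [ev2, pev] using c2 k [] hk g2nil (by simpa [ev2, pev] using e))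
      n2 hz n u v hu.2 hv.2 e
  exact chk_sound (pk := ev3 B (B ^ n) ((B ^ n) ^ n)) (ev := ev3 x y z) (good := g3) (by positivity)
    l3 c3 z3
    (fun k hk e => by simpa [ev3, pev] using c3 k [] hk g3nil (by simpa [ev3, pev] using e))
    n3 hw n p.c q.c (good p hp hp1) (good q hq hq1) h

end Vale.Agent.P154.Q3
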