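import Vale.Agent.P154.Induct
import Vale.Agent.P154.Potential

/-!
# From one child at a time to the node inequality

It suffices to bound a potential when one more child, seen through its edge, is multiplied onto
the product of the previous children.
-/

namespace Vale.Agent.P154

open Finset Filter Topology

variable {q : ℕ} {lam : ℝ} {n₀ : ℕ} {c a : ℝ}

/-- A class of channels and a potential `G` on it, closed under attaching one child by an edge. -/
structure PrefixClass (q : ℕ) (lam : ℝ) (n₀ : ℕ) (c a : ℝ) where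
  /-- The class. -/
  K : ∀ (Ω : Type) [Fintype Ω], (Fin q → Ω → ℝ) → Prop
  /-- The potential. -/
  G : ∀ (Ω : Type) [Fintype Ω], (Fin q → Ω → ℝ) → ℝ
  relabel : ∀ (Ω Ω' : Type) [Fintype Ω] [Fintype Ω'] (e : Ω' ≃ Ω) (w : Fin q → Ω → ℝ),
    K Ω w → K Ω' (fun i ω => w i (e ω)) ∧ G Ω' (fun i ω => w i (e ω)) = G Ω w
  trivial : K Unit (fun _ _ => 1) ∧ G Unit (fun _ _ => 1) ≤ 0
  base : ∀ t : Shape n₀, K (Obs q n₀ t) (lik q lam n₀ t)
  attach : ∀ (Ω Ω' : Type) [Fintype Ω] [Fintype Ω'] (w : Fin q → Ω → ℝ) (v : Fin q → Ω' → ℝ),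
    K Ω w → K Ω' v → K (Ω × Ω') (prodChan w (edgeChan q lam v)) ∧
      G (Ω × Ω') (prodChan w (edgeChan q lam v)) ≤
        G Ω w + lam ^ 2 * G Ω' v - a * G Ω w * (lam ^ 2 * G Ω' v)
  dom : ∀ (Ω : Type) [Fintype Ω] (w : Fin q → Ω → ℝ), K Ω w → c * chanX w ≤ G Ω w
  small : ∀ (Ω : Type) [Fintype Ω] (w : Fin q → Ω → ℝ), K Ω w → a * G Ω w ≤ 1

/-- Attaching the children one at a time. -/
theorem PrefixClass.pi_bound (P : PrefixClass q lam n₀ c a) (ha : 0 < a) :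
    ∀ (k : ℕ) (α : Fin k → Type) [∀ j, Fintype (α j)] (v : ∀ j, Fin q → α j → ℝ),
      (∀ j, P.K (α j) (v j)) → (∀ j, a * lam ^ 2 * P.G (α j) (v j) ≤ 1) →
      P.K (∀ j, α j) (fun i ω => ∏ j, edgeChan q lam (v j) i (ω j)) ∧
        P.G (∀ j, α j) (fun i (ω : ∀ j, α j) => ∏ j, edgeChan q lam (v j) i (ω j)) ≤
          (1 - ∏ j, (1 - a * lam ^ 2 * P.G (α j) (v j))) / a
  | 0, α, _, v, _, _ => by
    let e : (∀ j, α j) ≃ Unit := Equiv.ofUnique _ _
    have h1 : (fun (i : Fin q) (ω : ∀ j, α j) => ∏ j, edgeChan q lam (v j) i (ω j))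
        = fun i ω => (fun (_ : Fin q) (_ : Unit) => (1 : ℝ)) i (e ω) := by
      funext i ω; simp
    rw [h1]
    obtain ⟨hK, hG⟩ := P.relabel _ _ e _ P.trivial.1
    exact ⟨hK, hG.trans_le (P.trivial.2.trans_eq (by simp))⟩
  | k + 1, α, _, v, hK, hs => by
    obtain ⟨hKr, hXr⟩ := P.pi_bound ha k (fun j => α j.succ) (fun j => v j.succ)
      (fun j => hK j.succ) (fun j => hs j.succ)
    set R := fun (i : Fin q) (ω : ∀ j : Fin k, α j.succ) =>
      ∏ j : Fin k, edgeChan q lam (v j.succ) i (ω j) with hR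
    obtain ⟨hKp, hXp⟩ := P.attach _ _ R (v 0) hKr (hK 0)
    let e : (∀ j, α j) ≃ (∀ j : Fin k, α j.succ) × α 0 :=
      (Fin.consEquiv α).symm.trans (Equiv.prodComm _ _)
    have h1 : (fun (i : Fin q) (ω : ∀ j, α j) => ∏ j, edgeChan q lam (v j) i (ω j))
        = fun i ω => prodChan R (edgeChan q lam (v 0)) i (e ω) := by
      funext i ω
      simp [prodChan, hR, e, Fin.consEquiv, Fin.prod_univ_succ, Fin.tail, mul_comm]
    rw [h1]
    obtain ⟨hKq, hGq⟩ := P.relabel _ _ e _ hKp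
    refine ⟨hKq, hGq.trans_le (hXp.trans ?_)⟩
    rw [Fin.prod_univ_succ]
    set y := P.G (α 0) (v 0)
    set PP := ∏ j : Fin k, (1 - a * lam ^ 2 * P.G (α j.succ) (v j.succ))
    rw [le_div_iff₀ ha] at hXr ⊢
    have := mul_le_mul_of_nonneg_right hXr (sub_nonneg.2 (hs 0))
    linarith

theorem PrefixClass.lik_mem (P : PrefixClass q lam n₀ c a) (h : Adm q lam) (hc : 0 < c)
    (ha : 0 < a) (hl : lam ^ 2 ≤ 1) :
    ∀ (m : ℕ) (t : Shape (n₀ + m)), P.K (Obs q (n₀ + m) t) (lik q lam (n₀ + m) t) ∧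
      a * lam ^ 2 * P.G (Obs q (n₀ + m) t) (lik q lam (n₀ + m) t) ≤ 1 := by
  have hsmall : ∀ n (t : Shape n), P.K (Obs q n t) (lik q lam n t) →
      a * lam ^ 2 * P.G (Obs q n t) (lik q lam n t) ≤ 1 := fun n t hK => by
    have h0 : 0 ≤ P.G (Obs q n t) (lik q lam n t) :=
      (mul_nonneg hc.le (mag_nonneg h n t)).trans (P.dom _ _ hK)
    calc a * lam ^ 2 * P.G (Obs q n t) (lik q lam n t)
        ≤ a * 1 * P.G (Obs q n t) (lik q lam n t) := by gcongr
      _ ≤ 1 := by rw [mul_one]; exact P.small _ _ hK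
  intro m
  induction m with
  | zero => exact fun t => ⟨P.base t, hsmall _ t (P.base t)⟩
  | succ m ih =>
    intro (t : Shape (n₀ + m + 1))
    have hp := (P.pi_bound ha t.1 (fun j => Obs q (n₀ + m) (t.2 j))
      (fun j => lik q lam (n₀ + m) (t.2 j)) (fun j => (ih _).1) (fun j => (ih _).2)).1
    have hK := (P.relabel ((j : Fin t.1) → Obs q (n₀ + m) (t.2 j)) (Obs q (n₀ + m + 1) t)
      (Equiv.refl _) _ hp).1
    exact ⟨hK, hsmall _ t hK⟩

/-- A prefix class gives a potential on trees. -/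
theorem PrefixClass.isPot (P : PrefixClass q lam n₀ c a) (h : Adm q lam) (hc : 0 < c) (ha : 0 < a)
    (hl0 : lam ≠ 0) (hl : lam ^ 2 ≤ 1) :
    IsPot q lam n₀ c a⁻¹ (fun k => a * lam ^ 4 / ((k : ℝ) ^ 2 + 1))
      fun n t => P.G (Obs q n t) (lik q lam n t) := by
  have mem : ∀ n, n₀ ≤ n → ∀ t : Shape n, P.K (Obs q n t) (lik q lam n t) ∧
      a * lam ^ 2 * P.G (Obs q n t) (lik q lam n t) ≤ 1 := fun n hn => by
    obtain ⟨m, rfl⟩ := Nat.exists_eq_add_of_le hn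
    exact P.lik_mem h hc ha hl m
  refine isPot_of_prod h hc ha hl0 (fun n hn t => P.dom _ _ (mem n hn t).1) (fun n hn t => ?_)
    (fun n hn t => (mem n hn t).2) fun n hn t => ?_
  · rw [← one_div, le_div_iff₀ ha, mul_comm]
    exact P.small _ _ (mem n hn t).1
  · obtain ⟨hKp, hp⟩ := P.pi_bound ha t.1 (fun j => Obs q n (t.2 j))
      (fun j => lik q lam n (t.2 j)) (fun j => (mem n hn _).1) (fun j => (mem n hn _).2)
    exact ((P.relabel ((j : Fin t.1) → Obs q n (t.2 j)) (Obs q (n + 1) t)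
      (Equiv.refl _) _ hKp).2).trans_le hp

/-- Nonreconstruction from a prefix class, on both models and at criticality. -/
theorem PrefixClass.nonreconstruction (P : PrefixClass q lam n₀ c a) (h : Adm q lam) (hc : 0 < c)
    (ha : 0 < a) (hl0 : lam ≠ 0) (hl : lam ^ 2 ≤ 1) :
    (∀ d : ℕ, 2 ≤ d → (d : ℝ) * lam ^ 2 ≤ 1 → Tendsto (aRegular q d lam) atTop (𝓝 0)) ∧
      ∀ d : ℝ, 0 < d → d * lam ^ 2 ≤ 1 → Tendsto (aPoisson q d lam) atTop (𝓝 0) :=
  ⟨fun _ hd hr => tendsto_aRegular_of_pot h (P.isPot h hc ha hl0 hl) hd hr,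
    fun _ hd hr => tendsto_aPoisson_of_pot h (P.isPot h hc ha hl0 hl) (fun _ => by positivity) hd hr⟩

end Vale.Agent.P154
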