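import Mathlib

/-!
# Tangent bounds for the normalised invariants of a weight vector

For `w` with mean `r` and `q = w / (3 r)`, the products `r a(q)`, `r R(q)` and `r a(q)²` are linear
in `Gₖ / rᵏ`; replacing `r⁻ᵏ` by its expansion at a tangent point `p` gives polynomial bounds.
-/

namespace Vale.Agent.P154.Q3

open Finset

/-- Mean of a weight vector. -/
noncomputable def tMean (w : Fin 3 → ℝ) : ℝ := (w 0 + w 1 + w 2) / 3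

/-- The normalised vector. -/
noncomputable def tQ (w : Fin 3 → ℝ) (i : Fin 3) : ℝ := w i / (3 * tMean w)

/-- `∑ e² / 6` with `e = 3 q - 1`. -/
noncomputable def tA (q : Fin 3 → ℝ) : ℝ :=
  ((3 * q 0 - 1) ^ 2 + (3 * q 1 - 1) ^ 2 + (3 * q 2 - 1) ^ 2) / 6

/-- `∑ e³ / 6` with `e = 3 q - 1`. -/
noncomputable def tR (q : Fin 3 → ℝ) : ℝ :=
  ((3 * q 0 - 1) ^ 3 + (3 * q 1 - 1) ^ 3 + (3 * q 2 - 1) ^ 3) / 6

/-- The three numerators. -/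
noncomputable def tG1 (w : Fin 3 → ℝ) : ℝ := (w 0 * w 1 + w 1 * w 2 + w 2 * w 0) / 9
/-- The cubic numerator. -/
noncomputable def tG2 (w : Fin 3 → ℝ) : ℝ := w 0 * w 1 * w 2 / 27
/-- The quartic numerator. -/
noncomputable def tG3 (w : Fin 3 → ℝ) : ℝ := (w 0 * w 1 + w 1 * w 2 + w 2 * w 0) ^ 2 / 81

variable {w : Fin 3 → ℝ}

theorem tMean_nonneg (hw : ∀ i, 0 ≤ w i) : 0 ≤ tMean w :=
  div_nonneg (add_nonneg (add_nonneg (hw 0) (hw 1)) (hw 2)) (by norm_num)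

theorem tA_eq (hr : tMean w ≠ 0) : tMean w * tA (tQ w) = tMean w - 3 * tG1 w / tMean w := by
  have e : w 2 = 3 * tMean w - w 0 - w 1 := by unfold tMean; ring
  simp only [tA, tQ, tG1]
  rw [e]
  field_simp
  ring

theorem tR_eq (hr : tMean w ≠ 0) : tMean w * tR (tQ w) =
    tMean w - 9 / 2 * tG1 w / tMean w + 27 / 2 * tG2 w / tMean w ^ 2 := by
  have e : w 2 = 3 * tMean w - w 0 - w 1 := by unfold tMean; ring
  simp only [tR, tQ, tG1, tG2]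
  rw [e]
  field_simp
  ring

theorem tA_sq_eq (hr : tMean w ≠ 0) : tMean w * tA (tQ w) ^ 2 =
    tMean w - 6 * tG1 w / tMean w + 9 * tG3 w / tMean w ^ 3 := by
  have h := tA_eq hr
  have h3 : tG3 w = tG1 w ^ 2 := by simp only [tG1, tG3]; ring
  have h2 : tA (tQ w) = 1 - 3 * tG1 w / tMean w ^ 2 := by
    rw [eq_comm, ← sub_eq_zero]
    have : tMean w * (1 - 3 * tG1 w / tMean w ^ 2 - tA (tQ w)) = 0 := by
      rw [mul_sub, h]; field_simp; ring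
    exact (mul_eq_zero.1 this).resolve_left hr
  rw [h2, h3]
  field_simp
  ring

theorem tG1_bounds (hw : ∀ i, 0 ≤ w i) : 0 ≤ tG1 w ∧ tG1 w ≤ 1 / 3 * tMean w ^ 2 := by
  have := hw 0; have := hw 1; have := hw 2
  refine ⟨by unfold tG1; positivity, ?_⟩
  simp only [tG1, tMean]
  nlinarith [sq_nonneg (w 0 - w 1), sq_nonneg (w 1 - w 2), sq_nonneg (w 2 - w 0)]

theorem tG2_bounds (hw : ∀ i, 0 ≤ w i) : 0 ≤ tG2 w ∧ tG2 w ≤ 1 / 27 * tMean w ^ 3 := by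
  have := hw 0; have := hw 1; have := hw 2
  refine ⟨by unfold tG2; positivity, ?_⟩
  simp only [tG2, tMean]
  nlinarith [mul_nonneg (hw 0) (sq_nonneg (w 1 - w 2)), mul_nonneg (hw 1) (sq_nonneg (w 2 - w 0)),
    mul_nonneg (hw 2) (sq_nonneg (w 0 - w 1)),
    mul_nonneg (add_nonneg (add_nonneg (hw 0) (hw 1)) (hw 2)) (sq_nonneg (w 0 - w 1)),
    mul_nonneg (add_nonneg (add_nonneg (hw 0) (hw 1)) (hw 2)) (sq_nonneg (w 1 - w 2)),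
    mul_nonneg (add_nonneg (add_nonneg (hw 0) (hw 1)) (hw 2)) (sq_nonneg (w 2 - w 0))]

theorem tG3_bounds (hw : ∀ i, 0 ≤ w i) : 0 ≤ tG3 w ∧ tG3 w ≤ 1 / 9 * tMean w ^ 4 := by
  obtain ⟨h0, h1⟩ := tG1_bounds hw
  have e : tG3 w = tG1 w ^ 2 := by simp only [tG1, tG3]; ring
  refine ⟨e ▸ sq_nonneg _, ?_⟩
  rw [e]
  exact (pow_le_pow_left₀ h0 h1 2).trans_eq (by ring)

/-- The truncated expansion of `(1 - z)⁻ᵏ`. -/
noncomputable def tS (k n : ℕ) (z : ℝ) : ℝ :=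
  ∑ j ∈ range n, ((k - 1 + j).choose j : ℝ) * z ^ j

/-- The quotient `(1 - (1 - z)ᵏ tS k n z) / zⁿ`. -/
def tH : ℕ → ℕ → ℝ → ℝ
  | 1, _, _ => 1
  | 2, n, z => n + 1 - n * z
  | 3, 2, z => 6 - 8 * z + 3 * z ^ 2
  | 3, 4, z => 15 - 24 * z + 10 * z ^ 2
  | _, _, _ => 0

/-- The lower tangent of `G / rᵏ` at `p`. -/
noncomputable def tLow (k n : ℕ) (p r G : ℝ) : ℝ := p ^ k * G * tS k n (1 - p * r)

/-- The remainder of the tangent at `p`, for `G ≤ C rᵏ⁺¹`. -/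
noncomputable def tRem (k n : ℕ) (C p r : ℝ) : ℝ := C * r * (1 - p * r) ^ n * tH k n (1 - p * r)

theorem tS_identity {k n : ℕ} (hk : k = 1 ∨ k = 2 ∨ k = 3) (hn : n = 2 ∨ n = 4) (z : ℝ) :
    1 - (1 - z) ^ k * tS k n z = z ^ n * tH k n z := by
  rcases hk with rfl | rfl | rfl <;> rcases hn with rfl | rfl <;>
    simp [tS, tH, sum_range_succ, Nat.choose] <;> ring

theorem tH_nonneg {k n : ℕ} (hk : k = 1 ∨ k = 2 ∨ k = 3) (hn : n = 2 ∨ n = 4) {z : ℝ}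
    (hz : z ≤ 1) : 0 ≤ tH k n z := by
  rcases hk with rfl | rfl | rfl <;> rcases hn with rfl | rfl <;> simp only [tH] <;>
    first
    | linarith
    | (push_cast; linarith)
    | nlinarith [sq_nonneg (z - 4 / 3), sq_nonneg (z - 6 / 5)]

/-- Tangent bounds for `G / rᵏ`. -/
theorem tangent_bounds {k n : ℕ} (hk : k = 1 ∨ k = 2 ∨ k = 3) (hn : n = 2 ∨ n = 4) {p r G C : ℝ}
    (hp : 0 < p) (hr : 0 < r) (h0 : 0 ≤ G) (h1 : G ≤ C * r ^ (k + 1)) :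
    tLow k n p r G ≤ G / r ^ k ∧ G / r ^ k ≤ tLow k n p r G + tRem k n C p r := by
  have hz : 1 - p * r ≤ 1 := by linarith [mul_pos hp hr]
  have hn0 : 0 ≤ (1 - p * r) ^ n := by
    rcases hn with rfl | rfl
    · exact sq_nonneg _
    · exact (show Even 4 by decide).pow_nonneg _
  have hH := tH_nonneg hk hn hz
  have hid := tS_identity hk hn (1 - p * r)
  rw [sub_sub_cancel, mul_pow] at hid
  have hrk : 0 < r ^ k := pow_pos hr k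
  have e : G / r ^ k - tLow k n p r G = G / r ^ k * ((1 - p * r) ^ n * tH k n (1 - p * r)) := by
    rw [← hid, tLow]
    field_simp
  refine ⟨sub_nonneg.1 (e ▸ mul_nonneg (div_nonneg h0 hrk.le) (mul_nonneg hn0 hH)), ?_⟩
  have hC : G / r ^ k ≤ C * r := by
    rw [div_le_iff₀ hrk, mul_assoc, ← pow_succ']; exact h1
  have := mul_le_mul_of_nonneg_right hC (mul_nonneg hn0 hH)
  rw [← e] at this
  simp only [tRem]
  linarith

theorem term_le {k n : ℕ} (hk : k = 1 ∨ k = 2 ∨ k = 3) (hn : n = 2 ∨ n = 4) {p r G C : ℝ}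
    (hp : 0 < p) (hr : 0 < r) (h0 : 0 ≤ G) (h1 : G ≤ C * r ^ (k + 1)) (c : ℝ) :
    c * (G / r ^ k) ≤ c * tLow k n p r G + max c 0 * tRem k n C p r := by
  obtain ⟨hl, hu⟩ := tangent_bounds hk hn hp hr h0 h1
  rcases le_total 0 c with h | h
  · rw [max_eq_left h, ← mul_add]; exact mul_le_mul_of_nonneg_left hu h
  · rw [max_eq_right h, zero_mul, add_zero]; exact mul_le_mul_of_nonpos_left hl h

theorem le_term {k n : ℕ} (hk : k = 1 ∨ k = 2 ∨ k = 3) (hn : n = 2 ∨ n = 4) {p r G C : ℝ}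
    (hp : 0 < p) (hr : 0 < r) (h0 : 0 ≤ G) (h1 : G ≤ C * r ^ (k + 1)) (c : ℝ) :
    c * tLow k n p r G + min c 0 * tRem k n C p r ≤ c * (G / r ^ k) := by
  have h := term_le hk hn hp hr h0 h1 (-c)
  have e : max (-c) 0 = -min c 0 := by rw [min_def, max_def]; split_ifs <;> linarith
  rw [e] at h
  linarith

/-- The combination `r (y₁ a + y₂ R + y₃ a²)(q)`. -/
noncomputable def tComb (y₁ y₂ y₃ : ℝ) (w : Fin 3 → ℝ) : ℝ :=
  tMean w * (y₁ * tA (tQ w) + y₂ * tR (tQ w) + y₃ * tA (tQ w) ^ 2)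

/-- The net coefficient of `G₁ / r`. -/
noncomputable def tCoef (y₁ y₂ y₃ : ℝ) : ℝ := -3 * y₁ - 9 / 2 * y₂ - 6 * y₃

theorem tComb_eq (y₁ y₂ y₃ : ℝ) (hr : tMean w ≠ 0) :
    tComb y₁ y₂ y₃ w = (y₁ + y₂ + y₃) * tMean w + tCoef y₁ y₂ y₃ * (tG1 w / tMean w ^ 1) +
      27 / 2 * y₂ * (tG2 w / tMean w ^ 2) + 9 * y₃ * (tG3 w / tMean w ^ 3) := by
  rw [tComb, mul_add, mul_add, mul_left_comm, mul_left_comm _ y₂, mul_left_comm _ y₃,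
    tA_eq hr, tR_eq hr, tA_sq_eq hr, tCoef]
  ring

variable {n₁ n₂ n₃ : ℕ} {p₁ p₂ p₃ : ℝ}

theorem eq_zero_of_tMean (hw : ∀ i, 0 ≤ w i) (h : tMean w = 0) : w 0 = 0 ∧ w 1 = 0 ∧ w 2 = 0 := by
  have := hw 0; have := hw 1; have := hw 2
  unfold tMean at h
  exact ⟨by linarith, by linarith, by linarith⟩

/-- Polynomial upper bound; also valid at `w = 0`. -/
theorem tComb_le (y₁ y₂ y₃ : ℝ) (hw : ∀ i, 0 ≤ w i) (h₁ : n₁ = 2 ∨ n₁ = 4) (h₂ : n₂ = 2 ∨ n₂ = 4)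
    (h₃ : n₃ = 2 ∨ n₃ = 4) (hp₁ : 0 < p₁) (hp₂ : 0 < p₂) (hp₃ : 0 < p₃) :
    tComb y₁ y₂ y₃ w ≤ (y₁ + y₂ + y₃) * tMean w +
      (tCoef y₁ y₂ y₃ * tLow 1 n₁ p₁ (tMean w) (tG1 w) +
        max (tCoef y₁ y₂ y₃) 0 * tRem 1 n₁ (1 / 3) p₁ (tMean w)) +
      (27 / 2 * y₂ * tLow 2 n₂ p₂ (tMean w) (tG2 w) +
        max (27 / 2 * y₂) 0 * tRem 2 n₂ (1 / 27) p₂ (tMean w)) +
      (9 * y₃ * tLow 3 n₃ p₃ (tMean w) (tG3 w) +
        max (9 * y₃) 0 * tRem 3 n₃ (1 / 9) p₃ (tMean w)) := by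
  rcases (tMean_nonneg hw).eq_or_lt with h | h
  · obtain ⟨a, b, c⟩ := eq_zero_of_tMean hw h.symm
    simp [tComb, tLow, tRem, tG1, tG2, tG3, ← h, a, b, c]
  · rw [tComb_eq y₁ y₂ y₃ h.ne']
    have a := term_le (Or.inl rfl) h₁ hp₁ h (tG1_bounds hw).1 (tG1_bounds hw).2 (tCoef y₁ y₂ y₃)
    have b := term_le (Or.inr (Or.inl rfl)) h₂ hp₂ h (tG2_bounds hw).1 (tG2_bounds hw).2
      (27 / 2 * y₂)
    have c := term_le (Or.inr (Or.inr rfl)) h₃ hp₃ h (tG3_bounds hw).1 (tG3_bounds hw).2 (9 * y₃)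
    linarith

/-- Polynomial lower bound; also valid at `w = 0`. -/
theorem le_tComb (y₁ y₂ y₃ : ℝ) (hw : ∀ i, 0 ≤ w i) (h₁ : n₁ = 2 ∨ n₁ = 4) (h₂ : n₂ = 2 ∨ n₂ = 4)
    (h₃ : n₃ = 2 ∨ n₃ = 4) (hp₁ : 0 < p₁) (hp₂ : 0 < p₂) (hp₃ : 0 < p₃) :
    (y₁ + y₂ + y₃) * tMean w +
      (tCoef y₁ y₂ y₃ * tLow 1 n₁ p₁ (tMean w) (tG1 w) +
        min (tCoef y₁ y₂ y₃) 0 * tRem 1 n₁ (1 / 3) p₁ (tMean w)) +
      (27 / 2 * y₂ * tLow 2 n₂ p₂ (tMean w) (tG2 w) +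
        min (27 / 2 * y₂) 0 * tRem 2 n₂ (1 / 27) p₂ (tMean w)) +
      (9 * y₃ * tLow 3 n₃ p₃ (tMean w) (tG3 w) +
        min (9 * y₃) 0 * tRem 3 n₃ (1 / 9) p₃ (tMean w)) ≤ tComb y₁ y₂ y₃ w := by
  rcases (tMean_nonneg hw).eq_or_lt with h | h
  · obtain ⟨a, b, c⟩ := eq_zero_of_tMean hw h.symm
    simp [tComb, tLow, tRem, tG1, tG2, tG3, ← h, a, b, c]
  · rw [tComb_eq y₁ y₂ y₃ h.ne']
    have a := le_term (Or.inl rfl) h₁ hp₁ h (tG1_bounds hw).1 (tG1_bounds hw).2 (tCoef y₁ y₂ y₃)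
    have b := le_term (Or.inr (Or.inl rfl)) h₂ hp₂ h (tG2_bounds hw).1 (tG2_bounds hw).2
      (27 / 2 * y₂)
    have c := le_term (Or.inr (Or.inr rfl)) h₃ hp₃ h (tG3_bounds hw).1 (tG3_bounds hw).2 (9 * y₃)
    linarith

end Vale.Agent.P154.Q3
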