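import Vale.Agent.P154.Chan
import Vale.Agent.P154.Defs

/-!
# The magnetisation of a tree is at most the sum over the root's subtrees
-/

namespace Vale.Agent.P154.Q3

open scoped BigOperators

variable {lam : ℝ}

section Transfer
variable {A B : Type} [Fintype A] [Fintype B] {L : B → Fin 3 → ℝ} {L' : A → Fin 3 → ℝ}

theorem cX_congr (e : A ≃ B) (h : ∀ a, L' a = L (e a)) : cX L' = cX L := by
  simp only [cX, h]; exact e.sum_comp fun b => magV (L b) / 3

theorem cPsi_congr (e : A ≃ B) (h : ∀ a, L' a = L (e a)) : cPsi L' = cPsi L := by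
  simp only [cPsi, h]; exact e.sum_comp fun b => psiV (L b) / 3

theorem isChan_congr (e : A ≃ B) (h : ∀ a, L' a = L (e a)) (hL : IsChan L) : IsChan L' where
  nonneg a i := by rw [h]; exact hL.nonneg _ i
  tpos a := by simp only [h]; exact hL.tpos _
  sum_one i := by simp only [h]; rw [e.sum_comp fun b => L b i]; exact hL.sum_one i
  symm σ := by
    obtain ⟨f, hf⟩ := hL.symm σ
    exact ⟨(e.trans f).trans e.symm, fun a i => by simp [h, hf]⟩

end Transfer

/-- Product of finitely many channels with the same input. -/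
def prodL {k : ℕ} {Ω : Fin k → Type} (L : ∀ c, Ω c → Fin 3 → ℝ) (η : ∀ c, Ω c) (i : Fin 3) : ℝ :=
  ∏ c, L c (η c) i

theorem prod_spec : ∀ (k : ℕ) (Ω : Fin k → Type) [∀ c, Fintype (Ω c)]
    (L : ∀ c, Ω c → Fin 3 → ℝ), (∀ c, IsChan (L c)) → (∀ c, IsPos (L c)) →
    (∀ c, 0 ≤ cPsi (L c)) →
      IsChan (prodL L) ∧ IsPos (prodL L) ∧ 0 ≤ cPsi (prodL L) ∧
        cX (prodL L) ≤ ∑ c, cX (L c) := by
  intro k
  induction k with
  | zero =>
    intro Ω _ L _ _ _
    have hp : IsPos (prodL L) := fun η i => by simp [prodL]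
    refine ⟨⟨fun η i => (hp η i).le, fun η => Or.inl (tot_pos (hp η)), fun i => by simp [prodL],
      fun σ => ⟨Equiv.refl _, fun η i => by simp [prodL]⟩⟩, hp, ?_, ?_⟩
    · simp [cPsi, psiV, psiW, qd, prodL]; norm_num
    · simp [cX, magV, mag, nsq, prodL]
  | succ k ih =>
    intro Ω _ L hC hP hK
    obtain ⟨rC, rP, rK, rX⟩ := ih (fun c => Ω c.succ) (fun c => L c.succ) (fun c => hC _)
      (fun c => hP _) (fun c => hK _)
    have he : ∀ η, prodL L η = tens (L 0) (prodL fun c : Fin k => L c.succ)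
        ((Fin.consEquiv Ω).symm η) := fun η => by
      funext i; simp [prodL, tens, Fin.prod_univ_succ, Fin.consEquiv, Fin.tail]
    have tC := isChan_tens (hC 0) rC (hP 0) rP
    refine ⟨isChan_congr _ he tC, fun η i => Finset.prod_pos fun c _ => hP c _ i, ?_, ?_⟩
    · rw [cPsi_congr _ he]
      refine le_trans ?_ (cPsi_tens_ge (hC 0) rC (hP 0) rP)
      have := cAvg_phi_nonneg (hC 0)
      have := cAvg_phi_nonneg rC
      have := hK 0
      positivity
    · rw [cX_congr _ he, Fin.sum_univ_succ]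
      have h1 := cX_tens_le (hC 0) rC (hP 0) rP
      have h2 := mul_nonneg (cAvg_rad_nonneg rC) (hK 0)
      have h3 := mul_nonneg (cAvg_rad_nonneg (hC 0)) rK
      linarith

theorem prod_two {k : ℕ} (Ω : Fin (k + 2) → Type) [∀ c, Fintype (Ω c)]
    (L : ∀ c, Ω c → Fin 3 → ℝ) (hC : ∀ c, IsChan (L c)) (hP : ∀ c, IsPos (L c))
    (hK : ∀ c, 0 ≤ cPsi (L c)) :
    cX (prodL L) ≤ cX (tens (L 0) (L 1)) + ∑ c : Fin k, cX (L c.succ.succ) := by
  obtain ⟨rC, rP, rK, rX⟩ := prod_spec k (fun c => Ω c.succ.succ) (fun c => L c.succ.succ)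
    (fun c => hC _) (fun c => hP _) (fun c => hK _)
  let e : (∀ c, Ω c) ≃ (Ω 0 × Ω 1) × (∀ c : Fin k, Ω c.succ.succ) :=
    ((Fin.consEquiv Ω).symm.trans
      ((Equiv.refl (Ω 0)).prodCongr (Fin.consEquiv fun c : Fin (k + 1) => Ω c.succ).symm)).trans
      (Equiv.prodAssoc _ _ _).symm
  have he : ∀ η, prodL L η =
      tens (tens (L 0) (L 1)) (prodL fun c : Fin k => L c.succ.succ) (e η) := fun η => by
    funext i
    simp [prodL, tens, e, Fin.prod_univ_succ, Fin.consEquiv, Fin.tail, mul_assoc]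
  have pC := isChan_tens (hC 0) (hC 1) (hP 0) (hP 1)
  have pP := (hP 0).tens (hP 1)
  have pK : 0 ≤ cPsi (tens (L 0) (L 1)) := by
    refine le_trans ?_ (cPsi_tens_ge (hC 0) (hC 1) (hP 0) (hP 1))
    have := cAvg_phi_nonneg (hC 0)
    have := cAvg_phi_nonneg (hC 1)
    have := hK 0
    have := hK 1
    positivity
  rw [cX_congr e he]
  have h1 := cX_tens_le pC rC pP rP
  have h2 := mul_nonneg (cAvg_rad_nonneg rC) pK
  have h3 := mul_nonneg (cAvg_rad_nonneg pC) rK
  linarith

theorem potts_sum (l : Fin 3 → ℝ) (i : Fin 3) : ∑ j, potts lam i j * l j = push lam l i := by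
  fin_cases i <;> simp [potts, push, tot, Fin.sum_univ_three] <;> ring

/-- The channel from a child's subtree to the root. -/
noncomputable def childChan (lam : ℝ) {n : ℕ} (t : RTree (n + 1)) (c : Fin t.1) :
    (Leaf n (t.2 c) → Fin 3) → Fin 3 → ℝ :=
  edge lam (lik lam n (t.2 c))

theorem lik_succ {n : ℕ} (t : RTree (n + 1)) (η : Leaf (n + 1) t → Fin 3) :
    lik lam (n + 1) t η =
      prodL (childChan lam t) ((Equiv.piCurry fun _ _ => Fin 3) η) := by
  funext i
  simp only [lik, prodL, childChan, edge, potts_sum]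
  rfl

/-- Magnetisation of a tree. -/
noncomputable def treeX (lam : ℝ) (n : ℕ) (t : RTree n) : ℝ := cX (lik lam n t)

theorem lik_spec (h0 : 0 ≤ lam) (h1 : lam < 1) : ∀ (n : ℕ) (t : RTree n),
    IsChan (lik lam n t) ∧ (∀ η, 0 < tot (lik lam n t η)) ∧ 0 ≤ cPsi (lik lam n t) := by
  intro n
  induction n with
  | zero =>
    intro t
    have ht : ∀ η : Leaf 0 t → Fin 3, tot (lik lam 0 t η) = 1 := fun η => by
      simp only [tot, lik]
      generalize η () = a
      fin_cases a <;> simp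
    refine ⟨⟨fun η i => ?_, fun η => Or.inl (by rw [ht]; norm_num), fun i => ?_, fun σ => ?_⟩,
      fun η => by rw [ht]; norm_num, ?_⟩
    · simp only [lik]; split <;> norm_num
    · simp only [lik]
      rw [Finset.sum_eq_single (fun _ => i)] <;> simp
      exact fun η hη h => hη (funext fun u => by cases u; exact h)
    · refine ⟨⟨fun η u => σ.symm (η u), fun η u => σ (η u), fun η => by simp, fun η => by simp⟩,
        fun η i => ?_⟩
      simp [lik, Equiv.symm_apply_eq]
    · refine Finset.sum_nonneg fun η _ => div_nonneg ?_ (by norm_num)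
      simp only [psiV, psiW, qd, lik]
      generalize η () = a
      fin_cases a <;> norm_num [Fin.ext_iff]
  | succ n ih =>
    intro t
    have cC : ∀ c, IsChan (childChan lam t c) := fun c => isChan_edge h0 h1.le (ih _).1
    have cP : ∀ c, IsPos (childChan lam t c) := fun c => isPos_edge h0 h1 (ih _).1 (ih _).2.1
    have cK : ∀ c, 0 ≤ cPsi (childChan lam t c) := fun c => by
      rw [childChan, cPsi_edge (ih _).1]
      have := (ih (t.2 c)).2.2
      have : 0 ≤ cM (lik lam n (t.2 c)) := (sq_nonneg _).trans (sq_cX_le_cM (ih _).1)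
      have : 0 ≤ 1 - lam := by linarith
      positivity
    obtain ⟨pC, pP, pK, -⟩ := prod_spec t.1 _ (childChan lam t) cC cP cK
    refine ⟨isChan_congr _ (lik_succ t) pC, fun η => ?_, ?_⟩
    · rw [lik_succ]; exact pP.tot _
    · rw [cPsi_congr _ (lik_succ t)]; exact pK

theorem child_facts (h0 : 0 ≤ lam) (h1 : lam < 1) {n : ℕ} (t : RTree (n + 1)) :
    (∀ c, IsChan (childChan lam t c)) ∧ (∀ c, IsPos (childChan lam t c)) ∧
      ∀ c, 0 ≤ cPsi (childChan lam t c) := by
  refine ⟨fun c => isChan_edge h0 h1.le (lik_spec h0 h1 n _).1,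
    fun c => isPos_edge h0 h1 (lik_spec h0 h1 n _).1 (lik_spec h0 h1 n _).2.1, fun c => ?_⟩
  rw [childChan, cPsi_edge (lik_spec h0 h1 n _).1]
  have := (lik_spec h0 h1 n (t.2 c)).2.2
  have : 0 ≤ cM (lik lam n (t.2 c)) :=
    (sq_nonneg _).trans (sq_cX_le_cM (lik_spec h0 h1 n _).1)
  have : 0 ≤ 1 - lam := by linarith
  positivity

theorem treeX_nonneg (h0 : 0 ≤ lam) (h1 : lam < 1) (n : ℕ) (t : RTree n) : 0 ≤ treeX lam n t :=
  cX_nonneg (lik_spec h0 h1 n t).1

/-- The tree with the given subtrees at the root. -/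
def node {n k : ℕ} (f : Fin k → RTree n) : RTree (n + 1) := ⟨k, f⟩

/-- The strictness constant. -/
noncomputable def gain (lam : ℝ) : ℝ :=
  2 * ((1 - lam ^ 2) * lam ^ 2) * (3 / 4 * lam ^ 3 * (1 - lam))

theorem gain_pos (h0 : 0 < lam) (h1 : lam < 1) : 0 < gain lam := by
  have : 0 < 1 - lam := by linarith
  have : 0 < 1 - lam ^ 2 := by nlinarith
  unfold gain; positivity

theorem treeX_le (h0 : 0 ≤ lam) (h1 : lam < 1) {n : ℕ} (t : RTree (n + 1)) :
    treeX lam (n + 1) t ≤ lam ^ 2 * ∑ c : Fin t.1, treeX lam n (t.2 c) := by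
  obtain ⟨cC, cP, cK⟩ := child_facts h0 h1 t
  rw [treeX, cX_congr _ (lik_succ t)]
  refine (prod_spec t.1 _ _ cC cP cK).2.2.2.trans (le_of_eq ?_)
  simp only [childChan, cX_edge, treeX, Finset.mul_sum]

theorem treeX_le_two (h0 : 0 ≤ lam) (h1 : lam < 1) {n k : ℕ} (f : Fin (k + 2) → RTree n) :
    treeX lam (n + 1) (node f) ≤ lam ^ 2 * ∑ c : Fin (k + 2), treeX lam n (f c) -
      gain lam * (treeX lam n (f 0) ^ 2 * treeX lam n (f 1)) := by
  obtain ⟨cC, cP, cK⟩ := child_facts h0 h1 (node f)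
  have E : treeX lam (n + 1) (node f) = cX (prodL (childChan lam (node f))) :=
    cX_congr _ (lik_succ (node f))
  rw [E]
  refine (prod_two (k := k) (fun c => Leaf n (f c) → Fin 3)
    (fun c => edge lam (lik lam n (f c))) cC cP cK).trans ?_
  have h := pair_gain h0 h1 (lik_spec h0 h1 n (f 0)).1 (lik_spec h0 h1 n (f 1)).1
    (lik_spec h0 h1 n (f 0)).2.1 (lik_spec h0 h1 n (f 1)).2.1
    (lik_spec h0 h1 n (f 0)).2.2 (lik_spec h0 h1 n (f 1)).2.2
  rw [Fin.sum_univ_succ, Fin.sum_univ_succ]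
  simp only [childChan, cX_edge, treeX, gain, mul_add, Finset.mul_sum, Fin.succ_zero_eq_one] at h ⊢
  have fin : ∀ a b g S X : ℝ, X ≤ a + b - g → X + S ≤ a + (b + S) - g :=
    fun a b g S X hX => by linarith
  exact fin _ _ _ _ _ h

theorem treeAdv_le {ε : ℝ} (hε : 0 < ε) (h0 : 0 ≤ lam) (h1 : lam < 1) (n : ℕ) (t : RTree n) :
    treeAdv lam n t ≤ 3 / 4 * ε + treeX lam n t / (6 * ε) := by
  obtain ⟨hC, ht, -⟩ := lik_spec h0 h1 n t
  have key : ∀ η, ∑ i : Fin 3, |lik lam n t η i / 3 - (∑ j, lik lam n t η j / 3) / 3| ≤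
      (3 * ε / 2) * (tot (lik lam n t η) / 3) + magV (lik lam n t η) / 3 / (3 * ε) := by
    intro η
    have hs := ht η
    generalize lik lam n t η = l at hs ⊢
    have am : ∀ y : ℝ, |y| / 3 ≤ ε * tot l / 6 + y ^ 2 / (6 * (ε * tot l)) := fun y => by
      have hp : 0 < ε * tot l := mul_pos hε hs
      rw [div_add_div _ _ (by norm_num) (by positivity), div_le_div_iff₀ (by norm_num) (by positivity)]
      nlinarith [mul_nonneg hp.le (sq_nonneg (|y| - ε * tot l)), sq_abs y]
    have e : ∀ i : Fin 3, |l i / 3 - (∑ j, l j / 3) / 3| = |l i - tot l / 3| / 3 := fun i => by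
      rw [show l i / 3 - (∑ j, l j / 3) / 3 = (l i - tot l / 3) / 3 by
        simp only [Fin.sum_univ_three, tot]; ring, abs_div, abs_of_pos (by norm_num : (0:ℝ) < 3)]
    rw [Finset.sum_congr rfl fun i _ => e i, Fin.sum_univ_three]
    refine (add_le_add (add_le_add (am _) (am _)) (am _)).trans (le_of_eq ?_)
    simp only [magV, mag, nsq, tot] at *
    field_simp
    ring
  unfold treeAdv
  refine (mul_le_mul_of_nonneg_left (Finset.sum_le_sum fun η _ => key η)
    (by norm_num : (0:ℝ) ≤ 1 / 2)).trans (le_of_eq ?_)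
  rw [Finset.sum_add_distrib, ← Finset.mul_sum, hC.tot_avg, ← Finset.sum_div]
  simp only [treeX, cX]
  ring

theorem treeAdv_nonneg (n : ℕ) (t : RTree n) : 0 ≤ treeAdv lam n t := by
  unfold treeAdv; positivity

end Vale.Agent.P154.Q3
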